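import Vale.Agent.P092.H264.EndM
import Vale.Agent.P092.H34.PicD
import Mathlib.Analysis.CStarAlgebra.ContinuousMap

/-!
P092 (helper264), the end of a classical picture, any locally compact group: two commuting calculi
`Q₁, Q₂` of `C₀(G)`, covariant for the two legs, give the monomial vector. Used by Team D and, as it
stands, for `SL_n`.
-/

set_option linter.all false

open scoped InnerProductSpace ENNReal ZeroAtInfty
open MeasureTheory Filter Topology ContinuousLinearMap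

namespace Vale.Agent.P092.H264.Cl

open Vale.Agent.P092.RC (Cm)
open Vale.Agent.P092.H790 Vale.Agent.P092.H85 Vale.Agent.P092.H160 Vale.Agent.P092.SR
  Vale.Agent.P092.H103 Vale.Agent.P092.H34 Vale.Agent.P092.H839

section loc

variable {G : Type} [Group G] [TopologicalSpace G] [IsTopologicalGroup G] [LocallyCompactSpace G]
  [T2Space G] {K : Type} [NormedAddCommGroup K] [InnerProductSpace ℂ K] [CompleteSpace K]

/-- multiplication by a continuous function of compact support -/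
noncomputable def mulc (f : C(G, ℝ)) (hf : HasCompactSupport f) (ψ : C₀(G, ℂ)) : C₀(G, ℂ) where
  toFun x := (f x : ℂ) * ψ x
  continuous_toFun := by fun_prop
  zero_at_infty' := by
    apply HasCompactSupport.is_zero_at_infty
    have h1 : HasCompactSupport (fun x => (f x : ℂ)) := by
      refine hf.comp_left (g := fun r : ℝ => (r : ℂ)) ?_
      simp
    exact h1.mul_right

@[simp] theorem mulc_apply (f : C(G, ℝ)) (hf : HasCompactSupport f) (ψ : C₀(G, ℂ)) (x : G) :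
    mulc f hf ψ x = (f x : ℂ) * ψ x := rfl

/-- **localisation**: a nondegenerate calculus has a nonzero value on a function with small
support. -/
theorem exists_loc (Q : C₀(G, ℂ) →⋆ₙₐ[ℂ] (K →L[ℂ] K)) (nd : ∀ ξ, (∀ ψ, Q ψ ξ = 0) → ξ = 0)
    {U : Set G} (hU : U ∈ 𝓝 (1 : G)) {ξ : K} (hξ : ξ ≠ 0) :
    ∃ (ψ : C₀(G, ℂ)) (g : G), (∀ x, ψ x ≠ 0 → x * g⁻¹ ∈ U) ∧ Q ψ ξ ≠ 0 := by
  by_contra hcon
  push Not at hcon
  apply hξ
  apply nd
  intro ψ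
  -- compactly supported functions are killed
  have key : ∀ χ : C₀(G, ℂ), HasCompactSupport χ → Q χ ξ = 0 := by
    intro χ hχ
    have hcov : tsupport χ ⊆ ⋃ g : G, (fun x => x * g⁻¹) ⁻¹' interior U := by
      intro x _
      refine Set.mem_iUnion.2 ⟨x, ?_⟩
      simp only [Set.mem_preimage, mul_inv_cancel]
      exact mem_interior_iff_mem_nhds.2 hU
    obtain ⟨t, ht⟩ := hχ.isCompact.elim_finite_subcover _
      (fun g => isOpen_interior.preimage (by fun_prop)) hcov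
    -- enumerate
    obtain ⟨n, e⟩ : ∃ n : ℕ, Nonempty (Fin n ≃ t) := ⟨_, ⟨t.equivFin.symm⟩⟩
    obtain ⟨e⟩ := e
    obtain ⟨f, hf1, hf2, hf3, hf4⟩ := exists_continuous_sum_one_of_isOpen_isCompact
      (s := fun i : Fin n => (fun x => x * ((e i : G))⁻¹) ⁻¹' interior U)
      (t := tsupport χ) (fun i => isOpen_interior.preimage (by fun_prop)) hχ.isCompact (by
        intro x hx
        obtain ⟨g, hg⟩ := Set.mem_iUnion.1 (ht hx)
        obtain ⟨hg1, hg2⟩ := Set.mem_iUnion.1 hg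
        refine Set.mem_iUnion.2 ⟨e.symm ⟨g, hg1⟩, ?_⟩
        simpa using hg2)
    have hsum : χ = ∑ i, mulc (f i) (hf4 i) χ := by
      ext x
      have h1 : ∀ s : Finset (Fin n), (∑ i ∈ s, mulc (f i) (hf4 i) χ) x =
          ∑ i ∈ s, mulc (f i) (hf4 i) χ x := by
        intro s
        induction s using Finset.cons_induction with
        | empty => simp
        | cons a s ha ih =>
          rw [Finset.sum_cons, Finset.sum_cons, ← ih]
          rfl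
      rw [h1]
      simp only [mulc_apply, ← Finset.sum_mul]
      by_cases hx : χ x = 0
      · simp [hx]
      · have hx' : x ∈ tsupport χ := subset_tsupport _ hx
        have h3 := hf2 hx'
        simp only [ContinuousMap.coe_sum, Finset.sum_apply, Pi.one_apply] at h3
        have h4 : (∑ i, ((f i x : ℝ) : ℂ)) = 1 := by
          rw [← Complex.ofReal_sum, h3]; simp
        rw [h4, one_mul]
    rw [hsum, map_sum, ContinuousLinearMap.sum_apply]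
    apply Finset.sum_eq_zero
    intro i _
    refine hcon _ (e i : G) ?_
    intro x hx
    have h5 : f i x ≠ 0 := by
      intro h0
      apply hx
      simp [h0]
    have h6 := hf1 i (subset_tsupport _ h5)
    exact interior_subset h6
  -- truncation
  by_contra h0
  have hpos : 0 < ‖Q ψ ξ‖ := norm_pos_iff.2 h0
  have hξ' : 0 < ‖ξ‖ := norm_pos_iff.2 hξ
  set ε : ℝ := ‖Q ψ ξ‖ / (2 * ‖ξ‖) with hε
  have hε0 : 0 < ε := by positivity
  -- the compact set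
  have hc : ∀ᶠ x in cocompact G, ‖ψ x‖ < ε := by
    have := ψ.zero_at_infty'
    have h2 : Tendsto (fun x => ‖ψ x‖) (cocompact G) (𝓝 0) := by simpa using this.norm
    exact h2.eventually (gt_mem_nhds hε0)
  obtain ⟨C, hC, hC2⟩ := mem_cocompact.1 hc
  obtain ⟨f, hf1, _, hf3, hf4⟩ := exists_continuous_one_zero_of_isCompact hC isClosed_empty
    (by simp)
  have h1 : Q (mulc f hf3 ψ) ξ = 0 := by
    apply key
    have h1 : HasCompactSupport (fun x => (f x : ℂ)) := by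
      refine hf3.comp_left (g := fun r : ℝ => (r : ℂ)) ?_
      simp
    exact h1.mul_right
  have h2 : ‖ψ - mulc f hf3 ψ‖ ≤ ε := by
    rw [← ZeroAtInftyContinuousMap.norm_toBCF_eq_norm, BoundedContinuousFunction.norm_le hε0.le]
    intro x
    change ‖ψ x - mulc f hf3 ψ x‖ ≤ ε
    rw [mulc_apply]
    by_cases hx : x ∈ C
    · have := hf1 hx
      simp only [Pi.one_apply] at this
      rw [this]; simp [hε0.le]
    · have h3 : ‖ψ x‖ < ε := hC2 hx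
      have h4 : ψ x - (f x : ℂ) * ψ x = ((1 - f x : ℝ) : ℂ) * ψ x := by push_cast; ring
      rw [h4, norm_mul, Complex.norm_real, Real.norm_eq_abs]
      have h5 := hf4 x
      have h6 : |1 - f x| ≤ 1 := by
        rw [abs_le]; constructor <;> linarith [h5.1, h5.2]
      calc |1 - f x| * ‖ψ x‖ ≤ 1 * ‖ψ x‖ := by gcongr
        _ ≤ ε := by linarith
  have h3 : ‖Q ψ ξ‖ ≤ ε * ‖ξ‖ := by
    have h4 : Q ψ ξ = Q (ψ - mulc f hf3 ψ) ξ := by
      rw [map_sub, ContinuousLinearMap.sub_apply, h1, sub_zero]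
    rw [h4]
    calc ‖Q (ψ - mulc f hf3 ψ) ξ‖ ≤ ‖Q (ψ - mulc f hf3 ψ)‖ * ‖ξ‖ := le_opNorm _ _
      _ ≤ ‖ψ - mulc f hf3 ψ‖ * ‖ξ‖ := by
        gcongr; exact NonUnitalStarAlgHom.norm_apply_le Q _
      _ ≤ ε * ‖ξ‖ := by gcongr
  rw [hε] at h3
  have h4 : ‖Q ψ ξ‖ / (2 * ‖ξ‖) * ‖ξ‖ = ‖Q ψ ξ‖ / 2 := by field_simp
  rw [h4] at h3
  linarith

/-- left translate -/
noncomputable def ltr (g : G) (ψ : C₀(G, ℂ)) : C₀(G, ℂ) where
  toFun x := ψ (g⁻¹ * x)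
  continuous_toFun := by fun_prop
  zero_at_infty' := ψ.zero_at_infty'.comp (Homeomorph.mulLeft g⁻¹).isClosedEmbedding.tendsto_cocompact

@[simp] theorem ltr_apply (g : G) (ψ : C₀(G, ℂ)) (x : G) : ltr g ψ x = ψ (g⁻¹ * x) := rfl

/-- a neighbourhood of `1` whose translates by a discrete group are disjoint -/
theorem exists_nhd {Γ : Type} [Group Γ] {q : Γ →* G} (hi : Function.Injective q)
    (hd : ∀ C : Set G, IsCompact C → {γ | q γ ∈ C}.Finite) :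
    ∃ U ∈ 𝓝 (1 : G), ∀ γ, γ ≠ 1 → ∀ u ∈ U, q γ * u ∉ U := by
  obtain ⟨V, hV, hV1⟩ := exists_compact_mem_nhds (1 : G)
  have hf : (q '' ({γ | q γ ∈ V} \ {1})).Finite := ((hd V hV).subset Set.diff_subset).image _
  have hO : V ∩ (q '' ({γ | q γ ∈ V} \ {1}))ᶜ ∈ 𝓝 (1 : G) := by
    refine inter_mem hV1 (hf.isClosed.isOpen_compl.mem_nhds ?_)
    rintro ⟨γ, ⟨_, h2⟩, h3⟩
    apply h2
    apply hi
    rw [h3, map_one]
  obtain ⟨U, hU, hU2⟩ := exists_nhds_split_inv hO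
  refine ⟨U, hU, fun γ hγ u hu hqu => ?_⟩
  have h1 := hU2 _ hqu _ hu
  rw [mul_div_cancel_right] at h1
  exact h1.2 ⟨γ, ⟨h1.1, hγ⟩, rfl⟩

end loc

section two

variable {E Γ : Type} [Group E] [Group Γ] {K : Type} [NormedAddCommGroup K]
  [InnerProductSpace ℂ K] [CompleteSpace K]

/-- One classical leg: a covariant nondegenerate calculus of `C₀(G)`. -/
structure CLeg {G : Type} [Group G] [TopologicalSpace G] (π : E →* (K →L[ℂ] K))
    (lam : Γ →* (K →L[ℂ] K)) (W : Set (K →L[ℂ] K)) (q : Γ →* G)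
    (Q : C₀(G, ℂ) →⋆ₙₐ[ℂ] (K →L[ℂ] K)) : Prop where
  nd : ∀ ξ, (∀ ψ, Q ψ ξ = 0) → ξ = 0
  cm : ∀ ψ, Cm W (Q ψ)
  cov : ∀ γ (ψ ψ' : C₀(G, ℂ)), (∀ x, ψ' x = ψ ((q γ)⁻¹ * x)) → lam γ * Q ψ * lam γ⁻¹ = Q ψ'
  pcov : ∀ h ψ, ∃ ψ', π h * Q ψ * π h⁻¹ = Q ψ'
  inj : Function.Injective q
  disc : ∀ C : Set G, IsCompact C → {γ | q γ ∈ C}.Finite

/-- a localised positive element -/
theorem CLeg.exists_pos {G : Type} [Group G] [TopologicalSpace G] [IsTopologicalGroup G]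
    [LocallyCompactSpace G] [T2Space G] {π : E →* (K →L[ℂ] K)}
    {lam : Γ →* (K →L[ℂ] K)} {W : Set (K →L[ℂ] K)} {q : Γ →* G}
    {Q : C₀(G, ℂ) →⋆ₙₐ[ℂ] (K →L[ℂ] K)} (h : CLeg π lam W q Q) {ξ : K} (hξ : ξ ≠ 0) :
    ∃ a : C₀(G, ℂ), Q a ξ ≠ 0 ∧ ∀ γ, γ ≠ 1 →
      Q (star a * a) * (lam γ * Q (star a * a) * lam γ⁻¹) = 0 := by
  obtain ⟨U, hU, hU2⟩ := exists_nhd h.inj h.disc
  obtain ⟨a, g, ha, ha2⟩ := exists_loc Q h.nd hU hξ
  refine ⟨a, ha2, fun γ hγ => ?_⟩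
  rw [h.cov γ (star a * a) (ltr (q γ) (star a * a)) (fun x => rfl), ← map_mul]
  have h0 : star a * a * ltr (q γ) (star a * a) = 0 := by
    ext x
    simp only [ZeroAtInftyContinuousMap.coe_mul, Pi.mul_apply, ltr_apply,
      ZeroAtInftyContinuousMap.coe_zero, Pi.zero_apply]
    by_contra hx
    have h1 : a x ≠ 0 := by
      intro h0; apply hx; simp [h0]
    have h2 : a ((q γ)⁻¹ * x) ≠ 0 := by
      intro h0; apply hx; simp [h0]
    have h3 := ha _ h1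
    have h4 := ha _ h2
    refine hU2 γ hγ _ h4 ?_
    rw [← mul_assoc, ← mul_assoc, mul_inv_cancel, one_mul]
    exact h3
  rw [h0, map_zero]

/-- **two commuting classical legs give one localised positive operator.** -/
theorem exists_T {G₁ G₂ : Type} [Group G₁] [TopologicalSpace G₁] [IsTopologicalGroup G₁]
    [LocallyCompactSpace G₁] [T2Space G₁] [Group G₂] [TopologicalSpace G₂] [IsTopologicalGroup G₂]
    [LocallyCompactSpace G₂] [T2Space G₂] {π : E →* (K →L[ℂ] K)}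
    {lam₁ lam₂ : Γ →* (K →L[ℂ] K)} {X : Set (K →L[ℂ] K)} {q₁ : Γ →* G₁} {q₂ : Γ →* G₂}
    {Q₁ : C₀(G₁, ℂ) →⋆ₙₐ[ℂ] (K →L[ℂ] K)} {Q₂ : C₀(G₂, ℂ) →⋆ₙₐ[ℂ] (K →L[ℂ] K)}
    (hl : ∀ a b, lam₁ a * lam₂ b = lam₂ b * lam₁ a)
    (h₁ : CLeg π lam₁ (X ∪ Set.range lam₂) q₁ Q₁) (h₂ : CLeg π lam₂ (X ∪ Set.range lam₁) q₂ Q₂)
    (hc : ∀ ψ φ, Commute (Q₁ ψ) (Q₂ φ)) {ξ : K} (hξ : ξ ≠ 0) :
    ∃ T : K →L[ℂ] K, Cm X T ∧ adjoint T = T ∧ (∀ ξ, 0 ≤ (⟪T ξ, ξ⟫_ℂ).re) ∧ T ≠ 0 ∧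
      (∀ x : Γ × Γ, x ≠ 1 → T * ((lam₁ x.1 * lam₂ x.2) * T * (lam₁ x.1⁻¹ * lam₂ x.2⁻¹)) = 0) ∧
      ∀ g (x : Γ × Γ), Commute T
        (π g * ((lam₁ x.1 * lam₂ x.2) * T * (lam₁ x.1⁻¹ * lam₂ x.2⁻¹)) * π g⁻¹) := by
  obtain ⟨b, hb1, hb2⟩ := h₂.exists_pos hξ
  obtain ⟨a, ha1, ha2⟩ := h₁.exists_pos hb1
  have e1 : ∀ (ψ : C₀(G₁, ℂ)) s, Q₁ ψ * lam₂ s = lam₂ s * Q₁ ψ :=
    fun ψ s => h₁.cm ψ _ (Or.inr ⟨s, rfl⟩)
  have e2 : ∀ (ψ : C₀(G₂, ℂ)) s, Q₂ ψ * lam₁ s = lam₁ s * Q₂ ψ :=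
    fun ψ s => h₂.cm ψ _ (Or.inr ⟨s, rfl⟩)
  set S : K →L[ℂ] K := Q₁ a * Q₂ b with hS
  have hT : star S * S = Q₁ (star a * a) * Q₂ (star b * b) := by
    rw [hS, star_mul, ← map_star, ← map_star, map_mul, map_mul]
    have := (hc (star a * a) (star b)).eq
    rw [map_mul] at this
    calc Q₂ (star b) * Q₁ (star a) * (Q₁ a * Q₂ b)
        = Q₂ (star b) * (Q₁ (star a) * Q₁ a) * Q₂ b := by simp only [mul_assoc]
      _ = Q₁ (star a) * Q₁ a * Q₂ (star b) * Q₂ b := by rw [← this]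
      _ = _ := by simp only [mul_assoc]
  -- conjugation by the legs
  have hR : ∀ x : Γ × Γ, (lam₁ x.1 * lam₂ x.2) * (Q₁ (star a * a) * Q₂ (star b * b)) *
      (lam₁ x.1⁻¹ * lam₂ x.2⁻¹) =
      (lam₁ x.1 * Q₁ (star a * a) * lam₁ x.1⁻¹) * (lam₂ x.2 * Q₂ (star b * b) * lam₂ x.2⁻¹) := by
    intro x
    have f1 := e1 (star a * a) x.2
    have f2 := e2 (star b * b) x.1⁻¹
    have f3 := hl x.1⁻¹ x.2
    generalize Q₁ (star a * a) = P₁ at f1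
    generalize Q₂ (star b * b) = P₂ at f2
    symm
    calc (lam₁ x.1 * P₁ * lam₁ x.1⁻¹) * (lam₂ x.2 * P₂ * lam₂ x.2⁻¹)
        = lam₁ x.1 * P₁ * (lam₁ x.1⁻¹ * lam₂ x.2) * P₂ * lam₂ x.2⁻¹ := by simp only [mul_assoc]
      _ = lam₁ x.1 * (P₁ * lam₂ x.2) * (lam₁ x.1⁻¹ * P₂) * lam₂ x.2⁻¹ := by
          rw [f3]; simp only [mul_assoc]
      _ = lam₁ x.1 * (lam₂ x.2 * P₁) * (P₂ * lam₁ x.1⁻¹) * lam₂ x.2⁻¹ := by rw [f1, ← f2]
      _ = _ := by simp only [mul_assoc]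
  -- everything is a product of values
  have hV : ∀ x : Γ × Γ, ∃ (ψ : C₀(G₁, ℂ)) (φ : C₀(G₂, ℂ)),
      (lam₁ x.1 * lam₂ x.2) * (Q₁ (star a * a) * Q₂ (star b * b)) *
      (lam₁ x.1⁻¹ * lam₂ x.2⁻¹) = Q₁ ψ * Q₂ φ := by
    intro x
    refine ⟨ltr (q₁ x.1) (star a * a), ltr (q₂ x.2) (star b * b), ?_⟩
    rw [hR, h₁.cov x.1 _ (ltr (q₁ x.1) (star a * a)) (fun _ => rfl),
      h₂.cov x.2 _ (ltr (q₂ x.2) (star b * b)) (fun _ => rfl)]
  have hcm : ∀ (ψ ψ' : C₀(G₁, ℂ)) (φ φ' : C₀(G₂, ℂ)),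
      Commute (Q₁ ψ * Q₂ φ) (Q₁ ψ' * Q₂ φ') := by
    intro ψ ψ' φ φ'
    have g1 : Commute (Q₁ ψ) (Q₁ ψ') := by
      change Q₁ ψ * Q₁ ψ' = Q₁ ψ' * Q₁ ψ
      rw [← map_mul, ← map_mul, mul_comm]
    have g2 : Commute (Q₂ φ) (Q₂ φ') := by
      change Q₂ φ * Q₂ φ' = Q₂ φ' * Q₂ φ
      rw [← map_mul, ← map_mul, mul_comm]
    exact (g1.mul_right (hc ψ φ')).mul_left ((hc ψ' φ).symm.mul_right g2)
  refine ⟨Q₁ (star a * a) * Q₂ (star b * b), ?_, ?_, ?_, ?_, ?_, ?_⟩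
  · intro w hw
    rw [mul_assoc, h₂.cm _ w (Or.inl hw), ← mul_assoc, h₁.cm _ w (Or.inl hw), mul_assoc]
  · rw [← hT, ← ContinuousLinearMap.star_eq_adjoint, star_mul, star_star]
  · intro ζ
    rw [← hT, ContinuousLinearMap.mul_apply, ContinuousLinearMap.star_eq_adjoint,
      ContinuousLinearMap.adjoint_inner_left]
    exact inner_self_nonneg (𝕜 := ℂ)
  · rw [← hT]
    intro h0
    apply ha1
    have h1 : ⟪S ξ, S ξ⟫_ℂ = 0 := by
      rw [← ContinuousLinearMap.adjoint_inner_left, ← ContinuousLinearMap.star_eq_adjoint,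
        ← ContinuousLinearMap.mul_apply, h0, ContinuousLinearMap.zero_apply, inner_zero_left]
    exact inner_self_eq_zero.1 h1
  · intro x hx
    rw [hR]
    have g1 := hc (ltr (q₁ x.1) (star a * a)) (star b * b)
    rw [← h₁.cov x.1 (star a * a) (ltr (q₁ x.1) (star a * a)) (fun _ => rfl)] at g1
    have g2 : x.1 ≠ 1 ∨ x.2 ≠ 1 := by
      by_contra hcon
      push Not at hcon
      exact hx (Prod.ext hcon.1 hcon.2)
    have g3 : Q₁ (star a * a) * Q₂ (star b * b) *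
        ((lam₁ x.1 * Q₁ (star a * a) * lam₁ x.1⁻¹) * (lam₂ x.2 * Q₂ (star b * b) * lam₂ x.2⁻¹)) =
        (Q₁ (star a * a) * (lam₁ x.1 * Q₁ (star a * a) * lam₁ x.1⁻¹)) *
        (Q₂ (star b * b) * (lam₂ x.2 * Q₂ (star b * b) * lam₂ x.2⁻¹)) := by
      have := g1.eq
      generalize lam₁ x.1 * Q₁ (star a * a) * lam₁ x.1⁻¹ = P₁' at *
      generalize lam₂ x.2 * Q₂ (star b * b) * lam₂ x.2⁻¹ = P₂' at *
      calc Q₁ (star a * a) * Q₂ (star b * b) * (P₁' * P₂')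
          = Q₁ (star a * a) * (Q₂ (star b * b) * P₁') * P₂' := by simp only [mul_assoc]
        _ = Q₁ (star a * a) * (P₁' * Q₂ (star b * b)) * P₂' := by rw [this]
        _ = _ := by simp only [mul_assoc]
    rw [g3]
    rcases g2 with g2 | g2
    · rw [ha2 _ g2, zero_mul]
    · rw [hb2 _ g2, mul_zero]
  · intro g x
    obtain ⟨ψ, φ, e⟩ := hV x
    obtain ⟨ψ', e3⟩ := h₁.pcov g ψ
    obtain ⟨φ', e4⟩ := h₂.pcov g φ
    have e5 : π g * (Q₁ ψ * Q₂ φ) * π g⁻¹ = Q₁ ψ' * Q₂ φ' := by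
      rw [← e3, ← e4]
      have : π g⁻¹ * π g = 1 := by rw [← map_mul, inv_mul_cancel, map_one]
      calc π g * (Q₁ ψ * Q₂ φ) * π g⁻¹ = π g * Q₁ ψ * 1 * Q₂ φ * π g⁻¹ := by
            simp only [mul_assoc, mul_one, one_mul]
        _ = _ := by rw [← this]; simp only [mul_assoc]
    rw [e, e5]
    exact hcm _ _ _ _

end two

section conc

variable {E : Type} [Group E] [TopologicalSpace E] [IsTopologicalGroup E] [LocallyCompactSpace E]
  [SecondCountableTopology E] [T2Space E] [MeasurableSpace E] [BorelSpace E]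
  {Γ : Subgroup E} [DiscreteTopology Γ] [MeasurableSpace (E ⧸ Γ)] [BorelSpace (E ⧸ Γ)]
  {ν : Measure (E ⧸ Γ)} [IsProbabilityMeasure ν] [Countable Γ]
  (hν : ∀ g : E, ν.map (fun x => g • x) = ν)
  {Λ : Type} [Group Λ] [Countable Λ] {α : Γ →* (Ell2 Λ →L[ℂ] Ell2 Λ)} (hα : Frame α)

theorem lam_comm (a b : Γ) : RC.lam₁ ν α a * RC.lam₂ ν α b = RC.lam₂ ν α b * RC.lam₁ ν α a := by
  rw [RC.lam₁_eq, RC.lam₂_eq, ← comp_mul, ← comp_mul, comm_RR]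

/-- **The end of the classical picture**, any group. -/
theorem mono_of_legs {G₁ G₂ : Type} [Group G₁] [TopologicalSpace G₁] [IsTopologicalGroup G₁]
    [LocallyCompactSpace G₁] [T2Space G₁] [Group G₂] [TopologicalSpace G₂] [IsTopologicalGroup G₂]
    [LocallyCompactSpace G₂] [T2Space G₂] {q₁ : Γ →* G₁} {q₂ : Γ →* G₂}
    {Q₁ : C₀(G₁, ℂ) →⋆ₙₐ[ℂ] (RC.KK ν Λ →L[ℂ] RC.KK ν Λ)}
    {Q₂ : C₀(G₂, ℂ) →⋆ₙₐ[ℂ] (RC.KK ν Λ →L[ℂ] RC.KK ν Λ)}
    (h₁ : CLeg (RC.pic hν hα) (RC.lam₁ ν α) (RC.XX ν Λ ∪ Set.range (RC.lam₂ ν α)) q₁ Q₁)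
    (h₂ : CLeg (RC.pic hν hα) (RC.lam₂ ν α) (RC.XX ν Λ ∪ Set.range (RC.lam₁ ν α)) q₂ Q₂)
    (hc : ∀ ψ φ, Commute (Q₁ ψ) (Q₂ φ)) : RC.MonoV α := by
  have hO : RC.Om ν Λ ≠ 0 := by
    intro h0
    have h1 : ‖RC.Om ν Λ‖ = 1 := by
      rw [RC.Om, Lp.norm_const' (p := 2) (μ := ν) (dl 1) (by simp) (by simp)]
      simp [norm_dl]
    rw [h0, norm_zero] at h1
    exact zero_ne_one h1
  obtain ⟨T, t1, t2, t3, t4, t5, t6⟩ := exists_T lam_comm h₁ h₂ hc hO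
  exact mono_of_op hν hα (T := T) (fun S hS => t1 _ ⟨S, hS, rfl⟩) t2 t3 t4
    (fun x hx => t5 x hx) (fun g x => (t6 g x).eq)

end conc

end Vale.Agent.P092.H264.Cl
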