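import Vale.Agent.P092.H264.S2Top
import Vale.Agent.P092.H933.HMPA

/-!
P092 (helper264), team A, block [A-S2TOP]: (S2) for lattices in products of two groups.
-/

set_option linter.all false

open scoped InnerProductSpace Topology
open Filter Topology ContinuousLinearMap MeasureTheory

namespace Vale.Agent.P092.H264

open Vale.Agent.P092.H160 Vale.Agent.P092.H156
open Vale.Agent.P092.H515 (IsLattice Tgt)
open Vale.Agent.P092.H701 (HChain)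
open Vale.Agent.P092.H933 (HoweMoore)

/-- The literal statement of [A-S2ASM] (helper201). -/
def S2Asm : Prop :=
  ∀ (H H' : Type) [Group H] [TopologicalSpace H] [IsTopologicalGroup H]
    [LocallyCompactSpace H] [SecondCountableTopology H] [T2Space H] [MeasurableSpace H]
    [BorelSpace H] [Group H'] [TopologicalSpace H'] [IsTopologicalGroup H']
    [LocallyCompactSpace H'] [SecondCountableTopology H'] [T2Space H'] [MeasurableSpace H']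
    [BorelSpace H'] (Λ : Subgroup (H × H')) [DiscreteTopology Λ]
    [MeasurableSpace ((H × H') ⧸ Λ)] [BorelSpace ((H × H') ⧸ Λ)]
    (ν : Measure ((H × H') ⧸ Λ)) [IsProbabilityMeasure ν]
    (_ : ∀ g : H × H', ν.map (fun x => g • x) = ν)
    (Γ K : Type) [Group Γ] [Countable Γ]
    [NormedAddCommGroup K] [InnerProductSpace ℂ K] [CompleteSpace K] (ρ : Γ →* (K →L[ℂ] K))
    (V : Λ →* (K →L[ℂ] K)) (ω : K) (_ : Sm.Frm ρ V ω)
    (G : Type) [Group G] [TopologicalSpace G] [IsTopologicalGroup G] [LocallyCompactSpace G]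
    [SecondCountableTopology G] [T2Space G] [MeasurableSpace G] [BorelSpace G] (ι : Γ →* G)
    (μ : Measure G) [μ.IsHaarMeasure] [μ.IsMulRightInvariant] (_ : HoweMoore H')
    (b : ℕ → H') (_ : Tendsto b atTop (cocompact H')) (S : Set G) (_ : IsCompact S) (c : ℝ)
    (_ : 0 < c)
    (_ : ∀ N, c ≤ ∫ x, ms ρ V ω (fun γ => ι γ ∈ S) (H85.coc Λ ((1 : H), b N) x) ∂ν),
    ∃ f, Sm.Smo ι ((MonoidHom.fst H H').comp Λ.subtype) ρ V ω μ f ∧ f 1 ω ≠ 0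

/-- `H` has a chain of length `n` whose first direction tends to infinity. -/
def Chn (H : Type) [Group H] [TopologicalSpace H] (n : ℕ) : Prop :=
  letI : MeasurableSpace H := borel H
  ∃ C : HChain H n, ∀ hn : 0 < n, Tendsto (C.b ⟨0, hn⟩) atTop (cocompact H)

/-- `SL_{n+1}(k)` has a chain of length `n` whose first direction tends to infinity. -/
theorem chn_sl (k : Type) [NontriviallyNormedField k] [ProperSpace k] (n : ℕ) :
    Chn (Matrix.SpecialLinearGroup (Fin (n + 1)) k) n := by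
  let _ : MeasurableSpace (Matrix.SpecialLinearGroup (Fin (n + 1)) k) := borel _
  have _ : BorelSpace (Matrix.SpecialLinearGroup (Fin (n + 1)) k) := ⟨rfl⟩
  exact ⟨H701.slChain k n, fun hn => H655.tendsto_slChain k n ⟨0, hn⟩⟩

section one

variable {H H' : Type} [Group H] [TopologicalSpace H] [IsTopologicalGroup H]
    [LocallyCompactSpace H] [SecondCountableTopology H] [T2Space H] [Group H']
    [TopologicalSpace H'] [IsTopologicalGroup H']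
    [LocallyCompactSpace H'] [SecondCountableTopology H'] [T2Space H']
    {Γ K : Type} [Group Γ]
    [NormedAddCommGroup K] [InnerProductSpace ℂ K] [CompleteSpace K] {ρ : Γ →* (K →L[ℂ] K)}
    {ω : K} {G₁ G₂ : Type} [Group G₁] [TopologicalSpace G₁] [Group G₂] [TopologicalSpace G₂]
    {Q₁ : Type} [Group Q₁] [TopologicalSpace Q₁] [IsTopologicalGroup Q₁] [LocallyCompactSpace Q₁]
    [SecondCountableTopology Q₁] [T2Space Q₁] [MeasurableSpace Q₁] [BorelSpace Q₁]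
    {Q₂ : Type} [Group Q₂] [TopologicalSpace Q₂] [IsTopologicalGroup Q₂] [LocallyCompactSpace Q₂]
    [SecondCountableTopology Q₂] [T2Space Q₂] [MeasurableSpace Q₂] [BorelSpace Q₂]
    (μ₁ : Measure Q₁) [μ₁.IsHaarMeasure] [μ₁.IsMulRightInvariant]
    (μ₂ : Measure Q₂) [μ₂.IsHaarMeasure] [μ₂.IsMulRightInvariant]

/-- **(S2)**, the sequence in the second factor. -/
theorem s2_one (hS : S2Asm) {Λ : Subgroup (H × H')} (hΛ : IsLattice Λ) {V : Λ →* (K →L[ℂ] K)}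
    (h : Sm.Frm ρ V ω) [Countable Γ] {r₁ r₂ n n' : ℕ}
    (hC : Chn H n) (hC' : Chn H' n') (hn' : 0 < n')
    (hM : HoweMoore H') (h₁ : Tgt G₁ r₁) (h₂ : Tgt G₂ r₂) (hr : r₁ + r₂ ≤ n + n')
    (φ : Γ →* G₁ × G₂) (hφ : ∀ K : Set (G₁ × G₂), IsCompact K → {x | φ x ∈ K}.Finite)
    (π₁ : G₁ →* Q₁) (hπ₁ : Continuous π₁) (π₂ : G₂ →* Q₂) (hπ₂ : Continuous π₂) :
    (∃ f, Sm.Smo (π₁.comp ((MonoidHom.fst G₁ G₂).comp φ))
        ((MonoidHom.fst H H').comp Λ.subtype) ρ V ω μ₁ f ∧ f 1 ω ≠ 0) ∨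
      ∃ f, Sm.Smo (π₂.comp ((MonoidHom.snd G₁ G₂).comp φ))
        ((MonoidHom.fst H H').comp Λ.subtype) ρ V ω μ₂ f ∧ f 1 ω ≠ 0 := by
  have hd := hΛ.disc
  let _ : MeasurableSpace ((H × H') ⧸ Λ) := borel _
  have _ : BorelSpace ((H × H') ⧸ Λ) := ⟨rfl⟩
  let _ : MeasurableSpace H := borel _
  have _ : BorelSpace H := ⟨rfl⟩
  let _ : MeasurableSpace H' := borel _
  have _ : BorelSpace H' := ⟨rfl⟩
  obtain ⟨ν, hν0, hνf, hν⟩ := hΛ.covol
  have hν1 : ν Set.univ ≠ 0 := by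
    intro h
    exact hν0 (Measure.measure_univ_eq_zero.mp h)
  have hP : IsProbabilityMeasure ((ν Set.univ)⁻¹ • ν) := by
    constructor
    rw [Measure.smul_apply, smul_eq_mul]
    exact ENNReal.inv_mul_cancel hν1 hνf.ne
  have hinv : ∀ g : H × H', ((ν Set.univ)⁻¹ • ν).map (fun x => g • x) = (ν Set.univ)⁻¹ • ν := by
    intro g
    have hgm : Measurable (fun x : (H × H') ⧸ Λ => g • x) := H85.smul_meas Λ g
    ext s hs
    rw [Measure.map_apply hgm hs, Measure.smul_apply, Measure.smul_apply, hν g s hs]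
  obtain ⟨C, -⟩ := hC
  obtain ⟨C', hC'⟩ := hC'
  obtain ⟨b, hb, h3⟩ := input hinv h C C' hn' (hC' hn') h₁ h₂ hr φ hφ
  rcases h3 with ⟨S, hT, h3⟩ | ⟨S, hT, h3⟩
  · refine Or.inl (hS H H' Λ _ hinv Γ K ρ V ω h Q₁ (π₁.comp ((MonoidHom.fst G₁ G₂).comp φ)) μ₁
      hM b hb _ (hT.image hπ₁) (1 / 3) (by norm_num) fun N => (h3 N).trans ?_)
    exact ams_mono h (fun γ hγ => ⟨_, hγ, rfl⟩) _
  · refine Or.inr (hS H H' Λ _ hinv Γ K ρ V ω h Q₂ (π₂.comp ((MonoidHom.snd G₁ G₂).comp φ)) μ₂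
      hM b hb _ (hT.image hπ₂) (1 / 3) (by norm_num) fun N => (h3 N).trans ?_)
    exact ams_mono h (fun γ hγ => ⟨_, hγ, rfl⟩) _

/-- **(S2)**, the sequence in the first factor. -/
theorem s2_two (hS : S2Asm) {Λ : Subgroup (H' × H)} (hΛ : IsLattice Λ) {V : Λ →* (K →L[ℂ] K)}
    (h : Sm.Frm ρ V ω) [Countable Γ] {r₁ r₂ n n' : ℕ}
    (hC : Chn H n) (hC' : Chn H' n') (hn' : 0 < n')
    (hM : HoweMoore H') (h₁ : Tgt G₁ r₁) (h₂ : Tgt G₂ r₂) (hr : r₁ + r₂ ≤ n + n')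
    (φ : Γ →* G₁ × G₂) (hφ : ∀ K : Set (G₁ × G₂), IsCompact K → {x | φ x ∈ K}.Finite)
    (π₁ : G₁ →* Q₁) (hπ₁ : Continuous π₁) (π₂ : G₂ →* Q₂) (hπ₂ : Continuous π₂) :
    (∃ f, Sm.Smo (π₁.comp ((MonoidHom.fst G₁ G₂).comp φ))
        ((MonoidHom.snd H' H).comp Λ.subtype) ρ V ω μ₁ f ∧ f 1 ω ≠ 0) ∨
      ∃ f, Sm.Smo (π₂.comp ((MonoidHom.snd G₁ G₂).comp φ))
        ((MonoidHom.snd H' H).comp Λ.subtype) ρ V ω μ₂ f ∧ f 1 ω ≠ 0 := by
  have h1 := s2_one μ₁ μ₂ hS (isLattice_Lsw hΛ) (frm_comp h (esw Λ)) hC hC' hn' hM h₁ h₂ hr φ hφ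
    π₁ hπ₁ π₂ hπ₂
  have e : (MonoidHom.fst H H').comp (Lsw Λ).subtype =
      ((MonoidHom.snd H' H).comp Λ.subtype).comp (esw Λ).toMonoidHom := rfl
  rw [e] at h1
  rcases h1 with ⟨f, hf, h2⟩ | ⟨f, hf, h2⟩
  · exact Or.inl ⟨f, smo_of_comp (esw Λ) hf, h2⟩
  · exact Or.inr ⟨f, smo_of_comp (esw Λ) hf, h2⟩

end one

section sl

open Vale.Agent.P092.H933 (LocK)
open Vale.Agent.P092.PA (Pic NeS)

/-- `SL_{n+1}(k)` -/
abbrev SL (n : ℕ) (k : Type) [NontriviallyNormedField k] : Type :=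
  Matrix.SpecialLinearGroup (Fin (n + 1)) k

/-- `SL_{n+1}(k)` modulo its centre -/
abbrev PS (n : ℕ) (k : Type) [NontriviallyNormedField k] : Type :=
  SL n k ⧸ Subgroup.center (SL n k)

/-- the projection -/
abbrev mkP (n : ℕ) (k : Type) [NontriviallyNormedField k] : SL n k →* PS n k :=
  QuotientGroup.mk' (Subgroup.center (SL n k))

instance lc_SL (n : ℕ) (k : Type) [NontriviallyNormedField k] [ProperSpace k] :
    LocallyCompactSpace (SL n k) := H303.locallyCompact_SL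

instance sc_SL (n : ℕ) (k : Type) [NontriviallyNormedField k] [ProperSpace k] :
    SecondCountableTopology (SL n k) := H303.secondCountable_SL

theorem isClosed_center (n : ℕ) (k : Type) [NontriviallyNormedField k] :
    IsClosed (Subgroup.center (SL n k) : Set (SL n k)) := by
  have h1 := Set.isClosed_centralizer (Set.univ : Set (SL n k))
  rw [Set.centralizer_univ] at h1
  exact h1

instance t2_PS (n : ℕ) (k : Type) [NontriviallyNormedField k] : T2Space (PS n k) := by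
  have := isClosed_center n k
  infer_instance

variable {k₁ k₂ l₁ l₂ : Type} [NontriviallyNormedField k₁] [ProperSpace k₁]
  [NontriviallyNormedField k₂] [ProperSpace k₂] [NontriviallyNormedField l₁] [ProperSpace l₁]
  [NontriviallyNormedField l₂] [ProperSpace l₂]
  {m₁ m₂ n₁ n₂ : ℕ}
  {K : Type} [NormedAddCommGroup K] [InnerProductSpace ℂ K] [CompleteSpace K]

/-- **(S2) for lattices in products of two groups `SL`.** -/
theorem s2_sl' (hS : S2Asm) (hk₁ : LocK k₁) (hk₂ : LocK k₂) (hl₁ : LocK l₁) (hl₂ : LocK l₂)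
    (hn₁ : 1 ≤ n₁) (hn₂ : 1 ≤ n₂) (hr : m₁ + m₂ ≤ n₁ + n₂)
    {Γ : Subgroup (SL m₁ k₁ × SL m₂ k₂)} (hΓ : DiscreteTopology Γ)
    {Λ : Subgroup (SL n₁ l₁ × SL n₂ l₂)} (hΛ : IsLattice Λ)
    {ρ : Γ →* (K →L[ℂ] K)} {V : Λ →* (K →L[ℂ] K)} {ω : K} (h : Sm.Frm ρ V ω)
    [MeasurableSpace (PS m₁ k₁)] [BorelSpace (PS m₁ k₁)]
    [MeasurableSpace (PS m₂ k₂)] [BorelSpace (PS m₂ k₂)]
    (μ₁ : Measure (PS m₁ k₁)) [μ₁.IsHaarMeasure] [μ₁.IsMulRightInvariant]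
    (μ₂ : Measure (PS m₂ k₂)) [μ₂.IsHaarMeasure] [μ₂.IsMulRightInvariant] :
    ((∃ f, Sm.Smo ((mkP m₁ k₁).comp ((MonoidHom.fst _ _).comp Γ.subtype))
        ((MonoidHom.fst _ _).comp Λ.subtype) ρ V ω μ₁ f ∧ f 1 ω ≠ 0) ∨
      ∃ f, Sm.Smo ((mkP m₂ k₂).comp ((MonoidHom.snd _ _).comp Γ.subtype))
        ((MonoidHom.fst _ _).comp Λ.subtype) ρ V ω μ₂ f ∧ f 1 ω ≠ 0) ∧
    ((∃ f, Sm.Smo ((mkP m₁ k₁).comp ((MonoidHom.fst _ _).comp Γ.subtype))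
        ((MonoidHom.snd _ _).comp Λ.subtype) ρ V ω μ₁ f ∧ f 1 ω ≠ 0) ∨
      ∃ f, Sm.Smo ((mkP m₂ k₂).comp ((MonoidHom.snd _ _).comp Γ.subtype))
        ((MonoidHom.snd _ _).comp Λ.subtype) ρ V ω μ₂ f ∧ f 1 ω ≠ 0) := by
  have hc : Countable Γ := H790.countable_of_discrete Γ
  have hφ : ∀ K : Set (SL m₁ k₁ × SL m₂ k₂), IsCompact K → {x | Γ.subtype x ∈ K}.Finite :=
    fun K hK => H515.finite_of_compact Γ hK
  constructor
  · exact s2_one μ₁ μ₂ hS hΛ h (chn_sl l₁ n₁) (chn_sl l₂ n₂) hn₂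
      (H933.hm_sl hl₂ (by omega)) (H933.tgt_sl_loc hk₁ m₁) (H933.tgt_sl_loc hk₂ m₂) hr
      Γ.subtype hφ (mkP m₁ k₁) continuous_quotient_mk' (mkP m₂ k₂) continuous_quotient_mk'
  · exact s2_two μ₁ μ₂ hS hΛ h (chn_sl l₂ n₂) (chn_sl l₁ n₁) hn₁
      (H933.hm_sl hl₁ (by omega)) (H933.tgt_sl_loc hk₁ m₁) (H933.tgt_sl_loc hk₂ m₂) (by omega)
      Γ.subtype hφ (mkP m₁ k₁) continuous_quotient_mk' (mkP m₂ k₂) continuous_quotient_mk'

theorem nes_of {Γ Λ G H : Type} [Group Γ] [Group Λ] [Group G] [TopologicalSpace G]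
    [MeasurableSpace G] [Group H] [TopologicalSpace H] {D : Pic Γ Λ K} {p : Γ →* G} {q : Λ →* H}
    {μ : Measure G} (h : ∃ f, Sm.Smo p q D.ρ D.V D.Ω μ f ∧ f 1 D.Ω ≠ 0) : NeS D p q μ := by
  obtain ⟨f, hf, h1⟩ := h
  exact ⟨f, hf, fun h2 => h1 (by rw [h2]; rfl)⟩

/-- **(S2)**, in the letters of `PA/Defs.lean`. -/
theorem s2_sl (hS : S2Asm) (hk₁ : LocK k₁) (hk₂ : LocK k₂) (hl₁ : LocK l₁) (hl₂ : LocK l₂)
    (hn₁ : 1 ≤ n₁) (hn₂ : 1 ≤ n₂) (hr : m₁ + m₂ ≤ n₁ + n₂)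
    {Γ : Subgroup (SL m₁ k₁ × SL m₂ k₂)} (hΓ : DiscreteTopology Γ)
    {Λ : Subgroup (SL n₁ l₁ × SL n₂ l₂)} (hΛ : IsLattice Λ) (D : Pic Γ Λ K)
    [MeasurableSpace (PS m₁ k₁)] [BorelSpace (PS m₁ k₁)]
    [MeasurableSpace (PS m₂ k₂)] [BorelSpace (PS m₂ k₂)]
    (μ₁ : Measure (PS m₁ k₁)) [μ₁.IsHaarMeasure] [μ₁.IsMulRightInvariant]
    (μ₂ : Measure (PS m₂ k₂)) [μ₂.IsHaarMeasure] [μ₂.IsMulRightInvariant] :
    (NeS D ((mkP m₁ k₁).comp ((MonoidHom.fst _ _).comp Γ.subtype))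
        ((MonoidHom.fst _ _).comp Λ.subtype) μ₁ ∨
      NeS D ((mkP m₂ k₂).comp ((MonoidHom.snd _ _).comp Γ.subtype))
        ((MonoidHom.fst _ _).comp Λ.subtype) μ₂) ∧
    (NeS D ((mkP m₁ k₁).comp ((MonoidHom.fst _ _).comp Γ.subtype))
        ((MonoidHom.snd _ _).comp Λ.subtype) μ₁ ∨
      NeS D ((mkP m₂ k₂).comp ((MonoidHom.snd _ _).comp Γ.subtype))
        ((MonoidHom.snd _ _).comp Λ.subtype) μ₂) := by
  obtain ⟨h1, h2⟩ := s2_sl' hS hk₁ hk₂ hl₁ hl₂ hn₁ hn₂ hr hΓ hΛ D.frm μ₁ μ₂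
  exact ⟨h1.imp nes_of nes_of, h2.imp nes_of nes_of⟩

end sl

end Vale.Agent.P092.H264
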