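import Vale.Agent.P092.H264.AmpB
import Vale.Agent.P092.H264.EndC
import Vale.Agent.P092.H58.EndC

/-!
P092 (helper264), [END-T]: overlap in the letters of the picture `L²(E/Γ; ℋ)`, `ℋ` any fibre with
`SR.Tri V R₁ R₂ ξ`; from two classical legs; the final theorem for all amplifications.
-/

set_option linter.all false

open scoped InnerProductSpace ENNReal ZeroAtInfty
open Filter Topology ContinuousLinearMap TopologicalSpace MeasureTheory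

namespace Vale.Agent.P092.H264.Amp

open Vale.Agent.P092.H264
open Vale.Agent.P092.H790 Vale.Agent.P092.H85 Vale.Agent.P092.H103 Vale.Agent.P092.H160
open Vale.Agent.P092.SR (Tri)
open Vale.Agent.P092.RC (Cm)

section tri

variable {Γ ℋ ι : Type} [Group Γ] [NormedAddCommGroup ℋ] [InnerProductSpace ℂ ℋ]
  [CompleteSpace ℋ] [Fintype ι] {V R₁ R₂ : Γ →* (ℋ →L[ℂ] ℋ)} {ξ : ι → ℋ}

/-- the representation of `Γ × Γ` -/
noncomputable def rho (h : ∀ g k, R₁ g * R₂ k = R₂ k * R₁ g) : Γ × Γ →* (ℋ →L[ℂ] ℋ) where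
  toFun x := R₁ x.1 * R₂ x.2
  map_one' := by rw [Prod.fst_one, Prod.snd_one, map_one, map_one, one_mul]
  map_mul' x y := by
    rw [Prod.fst_mul, Prod.snd_mul, map_mul, map_mul]
    calc R₁ x.1 * R₁ y.1 * (R₂ x.2 * R₂ y.2) = R₁ x.1 * (R₁ y.1 * R₂ x.2) * R₂ y.2 := by
          simp only [mul_assoc]
      _ = _ := by rw [h]; simp only [mul_assoc]

theorem rho_ap (h : ∀ g k, R₁ g * R₂ k = R₂ k * R₁ g) (x : Γ × Γ) :
    rho h x = R₁ x.1 * R₂ x.2 := rfl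

theorem pars_of_tri (h : Tri V R₁ R₂ ξ) : Pars (fun x => rho h.comm₁₂ x) ξ where
  one := map_one _
  mul := map_mul _
  adj x := by
    have e : adjoint (rho h.comm₁₂ x) = adjoint (R₂ x.2) * adjoint (R₁ x.1) := by
      rw [rho_ap, ← star_eq_adjoint, star_mul, star_eq_adjoint, star_eq_adjoint]
    rw [e, h.adj₁, h.adj₂, rho_ap, ← h.comm₁₂]
    rfl
  frame := h.frame

end tri

theorem norm_const_prob {Y ℋ : Type} [MeasurableSpace Y] {μ : Measure Y} [IsProbabilityMeasure μ]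
    [NormedAddCommGroup ℋ] [InnerProductSpace ℂ ℋ] (v : ℋ) :
    ‖(Lp.const 2 μ v : Lp ℋ 2 μ)‖ = ‖v‖ := by
  rw [Lp.norm_const' (p := 2) (μ := μ) v (by simp) (by simp)]
  simp

section conc

variable {E : Type} [Group E] [TopologicalSpace E] [IsTopologicalGroup E] [LocallyCompactSpace E]
  [SecondCountableTopology E] [T2Space E] [MeasurableSpace E] [BorelSpace E]
  {Γ : Subgroup E} [DiscreteTopology Γ] [MeasurableSpace (E ⧸ Γ)] [BorelSpace (E ⧸ Γ)]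
  {ν : Measure (E ⧸ Γ)} [IsProbabilityMeasure ν] [Countable Γ]
  (hν : ∀ g : E, ν.map (fun x => g • x) = ν)
  {ℋ ι : Type} [NormedAddCommGroup ℋ] [InnerProductSpace ℂ ℋ]
  [CompleteSpace ℋ] [Fintype ι] {V R₁ R₂ : Γ →* (ℋ →L[ℂ] ℋ)} {ξ : ι → ℋ}

/-- overlap of the source with the target -/
def Over {Γ ℋ : Type} [Group Γ] [NormedAddCommGroup ℋ] [InnerProductSpace ℂ ℋ]
    (V R₁ R₂ : Γ →* (ℋ →L[ℂ] ℋ)) : Prop :=
  ∃ (r : ℕ) (ζ : Fin r → ℋ) (κ : ℝ), 0 < κ ∧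
    ∀ g, ∃ i j, ∃ a b : Γ, κ ≤ ‖⟪V g (ζ i), R₁ a (R₂ b (ζ j))⟫_ℂ‖

include hν in
/-- **[END-T]** in the letters of the picture. -/
theorem over_of_op (h : Tri V R₁ R₂ ξ)
    {T : Lp ℋ 2 (cdat ν hν).μ →L[ℂ] Lp ℋ 2 (cdat ν hν).μ}
    (hd : ∀ S, MeasurableSet S → T * H790.ind (cdat ν hν).μ ℋ S =
      H790.ind (cdat ν hν).μ ℋ S * T)
    (hTa : adjoint T = T) (hT0 : T ≠ 0)
    (hTo : ∀ x : Γ × Γ, x ≠ 1 → T * ((H34.Ind.lam (cdat ν hν) R₁ x.1 *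
      H34.Ind.lam (cdat ν hν) R₂ x.2) * T * (H34.Ind.lam (cdat ν hν) R₁ x.1⁻¹ *
        H34.Ind.lam (cdat ν hν) R₂ x.2⁻¹)) = 0)
    (hTc : ∀ g (x : Γ × Γ), T * (H34.Ind.pi (cdat ν hν) (V := V) h.adjV g *
        ((H34.Ind.lam (cdat ν hν) R₁ x.1 * H34.Ind.lam (cdat ν hν) R₂ x.2) * T *
        (H34.Ind.lam (cdat ν hν) R₁ x.1⁻¹ * H34.Ind.lam (cdat ν hν) R₂ x.2⁻¹)) *
        H34.Ind.pi (cdat ν hν) (V := V) h.adjV g⁻¹) =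
      H34.Ind.pi (cdat ν hν) (V := V) h.adjV g *
        ((H34.Ind.lam (cdat ν hν) R₁ x.1 * H34.Ind.lam (cdat ν hν) R₂ x.2) * T *
        (H34.Ind.lam (cdat ν hν) R₁ x.1⁻¹ * H34.Ind.lam (cdat ν hν) R₂ x.2⁻¹)) *
        H34.Ind.pi (cdat ν hν) (V := V) h.adjV g⁻¹ * T) : Over V R₁ R₂ := by
  have e : ∀ x : Γ × Γ, H34.Ind.lam (cdat ν hν) R₁ x.1 * H34.Ind.lam (cdat ν hν) R₂ x.2 =
      (rho h.comm₁₂ x).compLpL 2 ν := by
    intro x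
    rw [rho_ap, comp_mul]
    rfl
  have e' : ∀ x : Γ × Γ, H34.Ind.lam (cdat ν hν) R₁ x.1⁻¹ * H34.Ind.lam (cdat ν hν) R₂ x.2⁻¹ =
      (rho h.comm₁₂ x⁻¹).compLpL 2 ν := fun x => e x⁻¹
  simp only [e, e'] at hTo hTc
  obtain ⟨r, η, κ, h1, h2⟩ := overlap_iro (ρ := rho h.comm₁₂) (V := V) hν (pars_of_tri h) h.adjV
    (fun v x => by
      rw [rho_ap, ← mul_assoc, h.comm₁, mul_assoc, h.comm₂, mul_assoc]) (T := T)
    hd hTa hT0 hTo hTc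
  refine ⟨r, η, κ, h1, fun g => ?_⟩
  obtain ⟨i, j, x, hx⟩ := h2 g
  exact ⟨i, j, x.1, x.2, hx⟩

include hν in
/-- **two commuting classical legs**, any group, any fibre. -/
theorem over_of_legs (h : Tri V R₁ R₂ ξ)
    {G₁ G₂ : Type} [Group G₁] [TopologicalSpace G₁] [IsTopologicalGroup G₁]
    [LocallyCompactSpace G₁] [T2Space G₁] [Group G₂] [TopologicalSpace G₂] [IsTopologicalGroup G₂]
    [LocallyCompactSpace G₂] [T2Space G₂] {q₁ : Γ →* G₁} {q₂ : Γ →* G₂}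
    {Q₁ : C₀(G₁, ℂ) →⋆ₙₐ[ℂ] (Lp ℋ 2 (cdat ν hν).μ →L[ℂ] Lp ℋ 2 (cdat ν hν).μ)}
    {Q₂ : C₀(G₂, ℂ) →⋆ₙₐ[ℂ] (Lp ℋ 2 (cdat ν hν).μ →L[ℂ] Lp ℋ 2 (cdat ν hν).μ)}
    {X : Set (Lp ℋ 2 (cdat ν hν).μ →L[ℂ] Lp ℋ 2 (cdat ν hν).μ)}
    (hX : ∀ S, MeasurableSet S → H790.ind (cdat ν hν).μ ℋ S ∈ X)
    (h₁ : Cl.CLeg (H34.Ind.pi (cdat ν hν) (V := V) h.adjV) (H34.Ind.lam (cdat ν hν) R₁)
      (X ∪ Set.range (H34.Ind.lam (cdat ν hν) R₂)) q₁ Q₁)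
    (h₂ : Cl.CLeg (H34.Ind.pi (cdat ν hν) (V := V) h.adjV) (H34.Ind.lam (cdat ν hν) R₂)
      (X ∪ Set.range (H34.Ind.lam (cdat ν hν) R₁)) q₂ Q₂)
    (hc : ∀ ψ φ, Commute (Q₁ ψ) (Q₂ φ)) : Over V R₁ R₂ := by
  obtain ⟨k₀, hk⟩ := h.ne
  have hO : (Lp.const 2 (cdat ν hν).μ (ξ k₀) : Lp ℋ 2 (cdat ν hν).μ) ≠ 0 := by
    intro h0
    have h1 : ‖(Lp.const 2 (cdat ν hν).μ (ξ k₀) : Lp ℋ 2 (cdat ν hν).μ)‖ = ‖ξ k₀‖ :=
      norm_const_prob (μ := ν) (ξ k₀)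
    rw [h0, norm_zero] at h1
    exact hk (norm_eq_zero.1 h1.symm)
  have hl : ∀ a b, H34.Ind.lam (cdat ν hν) R₁ a * H34.Ind.lam (cdat ν hν) R₂ b =
      H34.Ind.lam (cdat ν hν) R₂ b * H34.Ind.lam (cdat ν hν) R₁ a := by
    intro a b
    have e1 : H34.Ind.lam (cdat ν hν) R₁ a * H34.Ind.lam (cdat ν hν) R₂ b =
        (R₁ a * R₂ b).compLpL 2 ν := by rw [comp_mul]; rfl
    have e2 : H34.Ind.lam (cdat ν hν) R₂ b * H34.Ind.lam (cdat ν hν) R₁ a =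
        (R₂ b * R₁ a).compLpL 2 ν := by rw [comp_mul]; rfl
    rw [e1, e2, h.comm₁₂]
  obtain ⟨T, t1, t2, t3, t4, t5, t6⟩ := Cl.exists_T hl h₁ h₂ hc hO
  exact over_of_op hν h (T := T) (fun S hS => t1 _ (hX S hS)) t2 t4
    (fun x hx => t5 x hx) (fun g x => (t6 g x).eq)

end conc

section canon

open Vale.Agent.P092.H962 (PT HH V3 A3R B3R)

variable {Γ Λ : Type} [Group Γ] [Group Λ] {n : ℕ} {p : H103.St.MOp n Λ}

/-- overlap gives the conclusion for all `t` -/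
theorem canonM_of_over (hΓ : ∀ g : Γ, g ≠ 1 → Set.Infinite {y : Γ | ∃ h, y = h * g * h⁻¹})
    (hΛ : ∀ s : Λ, s ≠ 1 → Set.Infinite {y : Λ | ∃ h, y = h * s * h⁻¹}) (hp : H103.St.IsProj p)
    (θ : H103.St.CornerIso Γ Λ n p) {α : Γ → (Ell2 (Fin n × Λ) →L[ℂ] Ell2 (Fin n × Λ))}
    (hαd : α = H103.alf θ) (hα : AF α) (h : Over (V3 hα hα hα) (A3R hα hα hα) (B3R hα hα hα)) :
    H103.St.mtr p = 1 ∧ H103.St.CanonicalM θ := by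
  obtain ⟨r, ζ, κ, h1, h2⟩ := h
  exact H58.canonM_of_overlap hΓ hΛ hp θ hαd hα ζ h1 h2

end canon

end Vale.Agent.P092.H264.Amp
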