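import Mathlib

/-!
P092 (helper264), team C (one simple factor), block [C-END], geometric part: the projective frames
have neighbourhoods which are disjoint from their translates by a discrete group.
-/

set_option linter.all false

open Filter Topology Matrix

namespace Vale.Agent.P092.H264

variable {k : Type*} [NormedField k] {n : ℕ}

theorem tendsto_mat {A : ℕ → Matrix (Fin n) (Fin n) k} {B : Matrix (Fin n) (Fin n) k}
    (h : ∀ m i j, ‖A m i j - B i j‖ < 1 / ((m : ℝ) + 1)) : Tendsto A atTop (𝓝 B) := by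
  refine tendsto_pi_nhds.2 fun i => tendsto_pi_nhds.2 fun j => ?_
  rw [tendsto_iff_norm_sub_tendsto_zero]
  exact squeeze_zero (fun _ => norm_nonneg _) (fun m => (h m i j).le)
    tendsto_one_div_add_atTop_nhds_zero_nat

theorem tendsto_vec {A : ℕ → (Fin n → k)} {B : Fin n → k}
    (h : ∀ m i, ‖A m i - B i‖ < 1 / ((m : ℝ) + 1)) : Tendsto A atTop (𝓝 B) := by
  refine tendsto_pi_nhds.2 fun i => ?_
  rw [tendsto_iff_norm_sub_tendsto_zero]
  exact squeeze_zero (fun _ => norm_nonneg _) (fun m => (h m i).le)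
    tendsto_one_div_add_atTop_nhds_zero_nat

theorem tendsto_inv_mat {A : ℕ → Matrix (Fin n) (Fin n) k} {B : Matrix (Fin n) (Fin n) k}
    (hB : B.det ≠ 0) (h : Tendsto A atTop (𝓝 B)) : Tendsto (fun m => (A m)⁻¹) atTop (𝓝 B⁻¹) := by
  have h1 : Tendsto (fun m => (A m).det) atTop (𝓝 B.det) :=
    ((Continuous.matrix_det continuous_id).tendsto B).comp h
  have h2 : Tendsto (fun m => (A m).adjugate) atTop (𝓝 B.adjugate) :=
    ((Continuous.matrix_adjugate continuous_id).tendsto B).comp h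
  have h3 : ∀ M : Matrix (Fin n) (Fin n) k, M⁻¹ = (M.det)⁻¹ • M.adjugate := fun M => by
    rw [Matrix.inv_def, Ring.inverse_eq_inv']
  simp_rw [h3]
  exact (h1.inv₀ hB).smul h2

/-- **Frame boxes**: an element which moves a frame close to itself is trivial. -/
theorem frame_box {Γ : Type*} [Group Γ] (ι : Γ →* SpecialLinearGroup (Fin n) k)
    (hfin : ∀ r : ℝ, {γ | ∀ i j, ‖(ι γ : Matrix (Fin n) (Fin n) k) i j‖ ≤ r}.Finite)
    (hsc : ∀ γ, (∃ c : k, (ι γ : Matrix (Fin n) (Fin n) k) = c • (1 : Matrix (Fin n) (Fin n) k)) →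
      γ = 1) (hn : 0 < n)
    {A : Matrix (Fin n) (Fin n) k} (hA : A.det ≠ 0) {lam : Fin n → k} (hl : ∀ j, lam j ≠ 0) :
    ∃ ε > 0, ∀ γ, γ ≠ 1 → ∀ (U W : Matrix (Fin n) (Fin n) k) (t p q : Fin n → k) (s : k),
      (∀ i j, ‖U i j - A i j‖ < ε) → (∀ i j, ‖W i j - A i j‖ < ε) →
      (∀ i, ‖p i - (A *ᵥ lam) i‖ < ε) → (∀ i, ‖q i - (A *ᵥ lam) i‖ < ε) →
      (ι γ : Matrix (Fin n) (Fin n) k) * U = W * diagonal t →
      (ι γ : Matrix (Fin n) (Fin n) k) *ᵥ p = s • q → False := by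
  by_contra hcon
  push Not at hcon
  have h0 : ∀ m : ℕ, (0 : ℝ) < 1 / ((m : ℝ) + 1) := fun m => by positivity
  choose γ hγ U W t p q s hU hW hp hq h1 h2' using fun m : ℕ => hcon _ (h0 m)
  have h2 : ∀ m, (ι (γ m) : Matrix (Fin n) (Fin n) k) *ᵥ p m = s m • q m := fun m => (h2' m).1
  have hUA := tendsto_mat hU
  have hWA := tendsto_mat hW
  have hpv := tendsto_vec hp
  have hqv := tendsto_vec hq
  have hUi := tendsto_inv_mat hA hUA
  have hWi := tendsto_inv_mat hA hWA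
  have hUd : ∀ᶠ m in atTop, (U m).det ≠ 0 := by
    have h3 : Tendsto (fun m => (U m).det) atTop (𝓝 A.det) :=
      ((Continuous.matrix_det continuous_id).tendsto A).comp hUA
    exact h3.eventually_ne hA
  have hWd : ∀ᶠ m in atTop, (W m).det ≠ 0 := by
    have h3 : Tendsto (fun m => (W m).det) atTop (𝓝 A.det) :=
      ((Continuous.matrix_det continuous_id).tendsto A).comp hWA
    exact h3.eventually_ne hA
  obtain ⟨l1, hl1⟩ : ∃ l1 : ℕ → (Fin n → k), ∀ m, l1 m = (U m)⁻¹ *ᵥ p m := ⟨_, fun m => rfl⟩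
  obtain ⟨l2, hl2⟩ : ∃ l2 : ℕ → (Fin n → k), ∀ m, l2 m = (W m)⁻¹ *ᵥ q m := ⟨_, fun m => rfl⟩
  have hAA : A⁻¹ *ᵥ (A *ᵥ lam) = lam := by
    rw [mulVec_mulVec, nonsing_inv_mul _ (isUnit_iff_ne_zero.2 hA), one_mulVec]
  have hmv : Continuous fun z : Matrix (Fin n) (Fin n) k × (Fin n → k) => z.1 *ᵥ z.2 :=
    Continuous.matrix_mulVec continuous_fst continuous_snd
  have hl1t : Tendsto l1 atTop (𝓝 lam) := by
    have h3 := (hmv.tendsto (A⁻¹, A *ᵥ lam)).comp (hUi.prodMk_nhds hpv)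
    change Tendsto _ _ (𝓝 (A⁻¹ *ᵥ (A *ᵥ lam))) at h3
    rw [hAA] at h3
    exact h3.congr fun m => (hl1 m).symm
  have hl2t : Tendsto l2 atTop (𝓝 lam) := by
    have h3 := (hmv.tendsto (A⁻¹, A *ᵥ lam)).comp (hWi.prodMk_nhds hqv)
    change Tendsto _ _ (𝓝 (A⁻¹ *ᵥ (A *ᵥ lam))) at h3
    rw [hAA] at h3
    exact h3.congr fun m => (hl2 m).symm
  have hl1j : ∀ j, Tendsto (fun m => l1 m j) atTop (𝓝 (lam j)) := tendsto_pi_nhds.1 hl1t
  have hl2j : ∀ j, Tendsto (fun m => l2 m j) atTop (𝓝 (lam j)) := tendsto_pi_nhds.1 hl2t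
  have hl1n : ∀ᶠ m in atTop, ∀ j, l1 m j ≠ 0 :=
    eventually_all.2 fun j => (hl1j j).eventually_ne (hl j)
  -- the quotients of the scalars
  obtain ⟨r, hr⟩ : ∃ r : ℕ → (Fin n → k), ∀ m j, r m j = l2 m j / l1 m j :=
    ⟨fun m j => l2 m j / l1 m j, fun m j => rfl⟩
  have hr1 : Tendsto r atTop (𝓝 1) := by
    refine tendsto_pi_nhds.2 fun j => ?_
    have h3 := (hl2j j).div (hl1j j) (hl j)
    rw [div_self (hl j)] at h3
    exact h3.congr fun m => (hr m j).symm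
  obtain ⟨C, hC⟩ : ∃ C : ℕ → Matrix (Fin n) (Fin n) k,
      ∀ m, C m = W m * diagonal (r m) * (U m)⁻¹ := ⟨_, fun m => rfl⟩
  have hC1 : Tendsto C atTop (𝓝 1) := by
    have h3 : Tendsto (fun m => diagonal (r m)) atTop
        (𝓝 (diagonal (1 : Fin n → k) : Matrix (Fin n) (Fin n) k)) :=
      ((Continuous.matrix_diagonal continuous_id).tendsto _).comp hr1
    have h4 := (hWA.mul h3).mul hUi
    have h5 : A * diagonal (1 : Fin n → k) * A⁻¹ = 1 := by
      have h6 : diagonal (1 : Fin n → k) = (1 : Matrix (Fin n) (Fin n) k) := diagonal_one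
      rw [h6, mul_one, mul_nonsing_inv _ (isUnit_iff_ne_zero.2 hA)]
    rw [h5] at h4
    exact h4.congr fun m => (hC m).symm
  have key : ∀ᶠ m in atTop, (ι (γ m) : Matrix (Fin n) (Fin n) k) = s m • C m := by
    filter_upwards [hUd, hWd, hl1n] with m a1 a2 a3
    have e1 : p m = U m *ᵥ l1 m := by
      rw [hl1, mulVec_mulVec, mul_nonsing_inv _ (isUnit_iff_ne_zero.2 a1), one_mulVec]
    have e2 : q m = W m *ᵥ l2 m := by
      rw [hl2, mulVec_mulVec, mul_nonsing_inv _ (isUnit_iff_ne_zero.2 a2), one_mulVec]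
    have e3 : W m *ᵥ (diagonal (t m) *ᵥ l1 m) = W m *ᵥ (s m • l2 m) := by
      rw [mulVec_mulVec, ← h1 m, ← mulVec_mulVec, ← e1, h2 m, e2, mulVec_smul]
    have e4 : diagonal (t m) *ᵥ l1 m = s m • l2 m := by
      have e5 := congrArg (fun v => (W m)⁻¹ *ᵥ v) e3
      have e5' : (W m)⁻¹ *ᵥ (W m *ᵥ (diagonal (t m) *ᵥ l1 m)) =
          (W m)⁻¹ *ᵥ (W m *ᵥ (s m • l2 m)) := e5
      rwa [mulVec_mulVec, mulVec_mulVec _ (W m)⁻¹, nonsing_inv_mul _ (isUnit_iff_ne_zero.2 a2),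
        one_mulVec, one_mulVec] at e5'
    have e6 : t m = s m • r m := by
      ext j
      have e7 := congrFun e4 j
      rw [mulVec_diagonal, Pi.smul_apply, smul_eq_mul] at e7
      rw [Pi.smul_apply, smul_eq_mul, hr, ← mul_div_assoc, ← e7, mul_div_assoc,
        div_self (a3 j), mul_one]
    have e8 : (ι (γ m) : Matrix (Fin n) (Fin n) k) = W m * diagonal (t m) * (U m)⁻¹ := by
      rw [← h1 m, mul_assoc, mul_nonsing_inv _ (isUnit_iff_ne_zero.2 a1), mul_one]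
    have e9 : diagonal (s m • r m) = s m • diagonal (r m) := diagonal_smul _ _
    rw [e8, e6, e9, hC, mul_smul_comm, smul_mul_assoc]
  -- the scalars are bounded
  have hs : ∀ᶠ m in atTop, ‖s m‖ ≤ 2 := by
    have h3 : Tendsto (fun m => ‖(C m).det‖) atTop (𝓝 1) := by
      have h4 := (((Continuous.matrix_det continuous_id).tendsto
        (1 : Matrix (Fin n) (Fin n) k)).comp hC1).norm
      rw [id_eq, det_one, norm_one] at h4
      exact h4
    have h5 : ∀ᶠ m in atTop, (1 : ℝ) / 2 < ‖(C m).det‖ :=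
      h3.eventually (lt_mem_nhds (by norm_num))
    filter_upwards [key, h5] with m a1 a2
    by_contra a3
    push Not at a3
    have a4 : (1 : k) = s m ^ n * (C m).det := by
      have := congrArg Matrix.det a1
      rw [(ι (γ m)).det_coe, det_smul, Fintype.card_fin] at this
      exact this
    have a5 : (1 : ℝ) = ‖s m‖ ^ n * ‖(C m).det‖ := by
      rw [← norm_pow, ← norm_mul, ← a4, norm_one]
    have a6 : (2 : ℝ) ≤ ‖s m‖ ^ n := by
      calc (2 : ℝ) ≤ ‖s m‖ := a3.le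
        _ = ‖s m‖ ^ 1 := (pow_one _).symm
        _ ≤ ‖s m‖ ^ n := pow_le_pow_right₀ (by linarith) hn
    nlinarith
  have hCij : ∀ i j, Tendsto (fun m => C m i j) atTop (𝓝 ((1 : Matrix (Fin n) (Fin n) k) i j)) :=
    fun i j => tendsto_pi_nhds.1 (tendsto_pi_nhds.1 hC1 i) j
  have hCb : ∀ᶠ m in atTop, ∀ i j, ‖C m i j‖ ≤ 2 := by
    refine eventually_all.2 fun i => eventually_all.2 fun j => ?_
    have h3 := (hCij i j).norm
    have h4 : ‖(1 : Matrix (Fin n) (Fin n) k) i j‖ < 2 := by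
      rw [Matrix.one_apply]
      split_ifs
      · rw [norm_one]; norm_num
      · rw [norm_zero]; norm_num
    exact (h3.eventually (gt_mem_nhds h4)).mono fun m hm => hm.le
  have hF : ∀ᶠ m in atTop, γ m ∈ (hfin 4).toFinset := by
    filter_upwards [key, hs, hCb] with m a1 a2 a3
    rw [Set.Finite.mem_toFinset]
    intro i j
    rw [a1, Matrix.smul_apply, smul_eq_mul, norm_mul]
    calc ‖s m‖ * ‖C m i j‖ ≤ 2 * 2 := mul_le_mul a2 (a3 i j) (norm_nonneg _) (by norm_num)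
      _ = 4 := by norm_num
  obtain ⟨g, hg, hgf⟩ : ∃ g ∈ (hfin 4).toFinset, ∃ᶠ m in atTop, γ m = g := by
    by_contra hn
    push Not at hn
    have h3 : ∀ᶠ m in atTop, ∀ g ∈ (hfin 4).toFinset, ¬ γ m = g :=
      (Finset.eventually_all _).2 fun g hg => hn g hg
    obtain ⟨m, a1, a2⟩ := (hF.and h3).exists
    exact a2 _ a1 rfl
  have hlim : ∀ D : ℕ → k, Tendsto D atTop (𝓝 0) → ∀ z : k,
      (∃ᶠ m in atTop, z = s m * D m) → z = 0 := by
    intro D hD z hz
    have h3 : Tendsto (fun m => 2 * ‖D m‖) atTop (𝓝 0) := by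
      simpa using hD.norm.const_mul 2
    by_contra h4
    have h5 : ∀ᶠ m in atTop, 2 * ‖D m‖ < ‖z‖ := h3.eventually (gt_mem_nhds (norm_pos_iff.2 h4))
    obtain ⟨m, a1, a2, a3⟩ := (hz.and_eventually (h5.and hs)).exists
    rw [a1, norm_mul] at a2
    nlinarith [norm_nonneg (D m)]
  obtain ⟨m₀, hm₀⟩ := hgf.exists
  have hg1 : g = 1 := by
    refine hsc g ⟨(ι g : Matrix (Fin n) (Fin n) k) ⟨0, hn⟩ ⟨0, hn⟩, ?_⟩
    ext i j
    rw [Matrix.smul_apply, smul_eq_mul]
    by_cases hij : i = j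
    · rw [hij, Matrix.one_apply_eq, mul_one, ← sub_eq_zero]
      refine hlim (fun m => C m j j - C m ⟨0, hn⟩ ⟨0, hn⟩) ?_ _ ?_
      · have h3 := (hCij j j).sub (hCij ⟨0, hn⟩ ⟨0, hn⟩)
        rwa [Matrix.one_apply_eq, Matrix.one_apply_eq, sub_self] at h3
      · refine (hgf.and_eventually key).mono ?_
        rintro m ⟨a1, a2⟩
        rw [← a1, a2, Matrix.smul_apply, Matrix.smul_apply, smul_eq_mul, smul_eq_mul, mul_sub]
    · rw [Matrix.one_apply_ne hij, mul_zero]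
      refine hlim (fun m => C m i j) ?_ _ ?_
      · have h3 := hCij i j
        rwa [Matrix.one_apply_ne hij] at h3
      · refine (hgf.and_eventually key).mono ?_
        rintro m ⟨a1, a2⟩
        rw [← a1, a2, Matrix.smul_apply, smul_eq_mul]
  exact hγ m₀ (hm₀.trans hg1)

end Vale.Agent.P092.H264
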