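import Vale.Agent.P092.H264.EndG

/-!
P092 (helper264), team C (one simple factor), block [C-END]: general position of the quantum points
of different points of the source plane; operator form (one Hilbert space `K`, no fields).
-/

set_option linter.all false

open scoped InnerProductSpace
open Filter Topology ContinuousLinearMap TopologicalSpace

namespace Vale.Agent.P092.H264.Op

open Vale.Agent.P092.H820

/-- A continuous action of a group on a space. -/
structure GA (𝒢 : Type*) [Group 𝒢] (X : Type*) [TopologicalSpace X] where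
  a : 𝒢 → X → X
  one : ∀ x, a 1 x = x
  mul : ∀ g h x, a (g * h) x = a g (a h x)
  cont : ∀ g, Continuous (a g)

namespace GA

variable {𝒢 : Type*} [Group 𝒢] {X Y : Type*} [TopologicalSpace X] [TopologicalSpace Y]

theorem inv_a (A : GA 𝒢 X) (g : 𝒢) (x : X) : A.a g⁻¹ (A.a g x) = x := by
  rw [← A.mul, inv_mul_cancel, A.one]

theorem a_inv (A : GA 𝒢 X) (g : 𝒢) (x : X) : A.a g (A.a g⁻¹ x) = x := by
  rw [← A.mul, mul_inv_cancel, A.one]

/-- The product action. -/
def prod (A : GA 𝒢 X) (B : GA 𝒢 Y) : GA 𝒢 (X × Y) where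
  a g := Prod.map (A.a g) (B.a g)
  one z := by rw [Prod.map, A.one, B.one]
  mul g h z := by simp only [Prod.map, A.mul, B.mul]
  cont g := (A.cont g).prodMap (B.cont g)

/-- The translate of a clopen set. -/
def tr (A : GA 𝒢 X) (g : 𝒢) (U : Clopens X) : Clopens X := pull (A.a g⁻¹) (A.cont g⁻¹) U

theorem mem_tr {A : GA 𝒢 X} {g : 𝒢} {U : Clopens X} {x : X} : x ∈ A.tr g U ↔ A.a g⁻¹ x ∈ U :=
  Iff.rfl

end GA

variable {K : Type*} [NormedAddCommGroup K] [InnerProductSpace ℂ K] [CompleteSpace K]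
  {H 𝒢 : Type*} [Group H] [Group 𝒢]

section defs

variable (π : H →* (K →L[ℂ] K)) (ρ : 𝒢 →* (K →L[ℂ] K)) (W : Set (K →L[ℂ] K))

/-- A covariant projection valued measure on the clopen sets of `X`. -/
structure PF {X : Type*} [TopologicalSpace X] (A : GA 𝒢 X) (P : Clopens X → (K →L[ℂ] K)) :
    Prop where
  cpv : Cpv P
  cm : ∀ U, ∀ w ∈ W, P U * w = w * P U
  cov : ∀ g U, ρ g * P U * ρ g⁻¹ = P (A.tr g U)

/-- Ergodicity of a subset `S` of the source group. -/
def ErgS (S : Set H) : Prop :=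
  ∀ q : K →L[ℂ] K, (∀ w ∈ W, q * w = w * q) → (∀ g, q * ρ g = ρ g * q) →
    (∀ b ∈ S, q * π b = π b * q) → ∃ c : ℂ, q = c • (1 : K →L[ℂ] K)

/-- There is no covariant measure which commutes with the source group. -/
def NoC {X : Type*} [TopologicalSpace X] (A : GA 𝒢 X) : Prop :=
  ∀ P : Clopens X → (K →L[ℂ] K), PF ρ W A P → (∀ m U, P U * π m = π m * P U) → False

end defs

section laws

variable {π : H →* (K →L[ℂ] K)} {ρ : 𝒢 →* (K →L[ℂ] K)} {W : Set (K →L[ℂ] K)}
  {X Y : Type*} [TopologicalSpace X] [TopologicalSpace Y]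
  {A : GA 𝒢 X} {B : GA 𝒢 Y}

theorem rho_mul_inv (ρ : 𝒢 →* (K →L[ℂ] K)) (g : 𝒢) : ρ g * ρ g⁻¹ = 1 := by
  rw [← map_mul, mul_inv_cancel, map_one]

theorem rho_inv_mul (ρ : 𝒢 →* (K →L[ℂ] K)) (g : 𝒢) : ρ g⁻¹ * ρ g = 1 := by
  rw [← map_mul, inv_mul_cancel, map_one]

theorem comm_of_slim {p : ℕ → (K →L[ℂ] K)} {q T : K →L[ℂ] K} (h : SLim p q)
    (hp : ∀ n, p n * T = T * p n) : q * T = T * q :=
  (h.mul_right T).unique ((h.mul_left T).congr fun n => (hp n).symm)

/-- **The zero one law.** -/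
theorem zero_one {P : Clopens X → (K →L[ℂ] K)} (hP : PF ρ W A P) {D : Set X}
    {O : ℕ → Clopens X} (hO : NB D O) (hD : ∀ g, ∀ z ∈ D, A.a g z ∈ D) {S : Set H}
    (hS : ErgS π ρ W S) (hb : ∀ b ∈ S, ∀ U, P U * π b = π b * P U) :
    SLim (fun n => P (O n)) 0 ∨ SLim (fun n => P (O n)) 1 := by
  obtain ⟨q, h1, h2, h3, -⟩ := (dec_cpv hP.cpv hO.anti).exists_slim
  have hc : ∃ c : ℂ, q = c • (1 : K →L[ℂ] K) := by
    refine hS q ?_ ?_ ?_
    · intro w hw
      exact comm_of_slim h1 fun n => hP.cm _ w hw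
    · intro g
      have h4 : ρ g * q * ρ g⁻¹ = q :=
        hO.conj hP.cpv h1 (rho_inv_mul ρ g) (rho_mul_inv ρ g) (A.cont g⁻¹) (fun U => hP.cov g U)
          (hD g⁻¹) (A.cont g) (fun z => A.inv_a g z) (fun z => A.a_inv g z) (hD g)
      calc q * ρ g = (ρ g * q * ρ g⁻¹) * ρ g := by rw [h4]
        _ = ρ g * q * (ρ g⁻¹ * ρ g) := by simp only [mul_assoc]
        _ = ρ g * q := by rw [rho_inv_mul, mul_one]
    · intro b hbS
      exact comm_of_slim h1 fun n => hb b hbS _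
  obtain ⟨c, hc⟩ := hc
  rw [hc, smul_mul_smul_comm, mul_one] at h3
  by_cases hc0 : c = 0
  · left
    rw [hc, hc0, zero_smul] at h1
    exact h1
  · right
    have h5 : c • (1 : K →L[ℂ] K) = 1 := by
      have h6 : c⁻¹ • ((c * c) • (1 : K →L[ℂ] K)) = c⁻¹ • (c • (1 : K →L[ℂ] K)) := by rw [h3]
      rwa [smul_smul, smul_smul, ← mul_assoc, inv_mul_cancel₀ hc0, one_mul, one_smul] at h6
    rw [hc, h5] at h1
    exact h1

/-- The joint measure. -/
theorem PF.jn [CompactSpace X] [CompactSpace Y] {P : Clopens X → (K →L[ℂ] K)} (hP : PF ρ W A P)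
    {Q : Clopens Y → (K →L[ℂ] K)} (hQ : PF ρ W B Q) (hc : CM P Q) :
    PF ρ W (A.prod B) (jn P Q) where
  cpv := cpv_jn hP.cpv hQ.cpv hc
  cm U w hw := (jn_comm (T := w) (fun U => (hP.cm U w hw).symm) (fun V => (hQ.cm V w hw).symm)
    U).symm
  cov g W' := by
    rw [jn_conj (rho_inv_mul ρ g)]
    have e1 : (fun U => ρ g * P U * ρ g⁻¹) = fun U => P (pull (A.a g⁻¹) (A.cont g⁻¹) U) :=
      funext fun U => hP.cov g U
    have e2 : (fun U => ρ g * Q U * ρ g⁻¹) = fun U => Q (pull (B.a g⁻¹) (B.cont g⁻¹) U) :=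
      funext fun U => hQ.cov g U
    rw [e1, e2, jn_pull hP.cpv]
    rfl

/-- The push forward. -/
theorem PF.push {Z : Type*} [TopologicalSpace Z] {A : GA 𝒢 Z} {J : Clopens Z → (K →L[ℂ] K)}
    (hJ : PF ρ W A J) {D : Set Z} {O : ℕ → Clopens Z} (hO : NB D O)
    (hD : ∀ g, ∀ z ∈ D, A.a g z ∈ D) (h0 : SLim (fun n => J (O n)) 0)
    {f : Z → Y} (hf : COff D f) (hfe : ∀ g z, z ∉ D → f (A.a g z) = B.a g (f z)) :
    ∃ L : Clopens Y → (K →L[ℂ] K), PF ρ W B L ∧ IsPush hf J L := by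
  obtain ⟨L, h1, h2⟩ := IsPush.exists hO hJ.cpv h0 hf
  refine ⟨L, ⟨h1.cpv, fun U w hw => comm_of_slim (h2 U) fun n => hJ.cm _ w hw, fun g U => ?_⟩, h1⟩
  exact h1.conj hO hJ.cpv h0 (A.cont g⁻¹) (fun W => hJ.cov g W) (hD g⁻¹) (B.cont g⁻¹)
    (fun z hz => hfe g⁻¹ z hz) (rho_mul_inv ρ g) U

theorem push_comm {Z : Type*} [TopologicalSpace Z] {J : Clopens Z → (K →L[ℂ] K)} (hJ : Cpv J)
    {D : Set Z} {O : ℕ → Clopens Z} (hO : NB D O) (h0 : SLim (fun n => J (O n)) 0)
    {f : Z → Y} {hf : COff D f} {L : Clopens Y → (K →L[ℂ] K)} (hL : IsPush hf J L)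
    {T : K →L[ℂ] K} (hT : ∀ U, J U * T = T * J U) (V : Clopens Y) : L V * T = T * L V :=
  comm_of_slim (hL.slim hO hJ h0 V) fun n => hT _

/-- The commutant of a family of operators in the source group. -/
def cstab (π : H →* (K →L[ℂ] K)) (P : Clopens X → (K →L[ℂ] K)) : Subgroup H where
  carrier := {m | ∀ U, P U * π m = π m * P U}
  one_mem' := fun U => by rw [map_one, mul_one, one_mul]
  mul_mem' := by
    intro a b ha hb U
    rw [map_mul, ← mul_assoc, ha U, mul_assoc, hb U, mul_assoc]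
  inv_mem' := by
    intro a ha U
    have h1 : π a⁻¹ * (P U * π a) * π a⁻¹ = π a⁻¹ * (π a * P U) * π a⁻¹ := by rw [ha U]
    have h2 : π a * π a⁻¹ = 1 := by rw [← map_mul, mul_inv_cancel, map_one]
    have h3 : π a⁻¹ * π a = 1 := by rw [← map_mul, inv_mul_cancel, map_one]
    calc P U * π a⁻¹ = (π a⁻¹ * π a) * P U * π a⁻¹ := by rw [h3, one_mul]
      _ = π a⁻¹ * (π a * P U) * π a⁻¹ := by simp only [mul_assoc]
      _ = π a⁻¹ * (P U * π a) * π a⁻¹ := by rw [ha U]
      _ = π a⁻¹ * P U * (π a * π a⁻¹) := by simp only [mul_assoc]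
      _ = π a⁻¹ * P U := by rw [h2, mul_one]

end laws

section fam

variable (π : H →* (K →L[ℂ] K)) (ρ : 𝒢 →* (K →L[ℂ] K)) (W : Set (K →L[ℂ] K))
  {X : Type*} [TopologicalSpace X]

/-- The family of the quantum points. -/
structure PFam {S : Type*} [MulAction H S] (A : GA 𝒢 X)
    (P : S → Clopens X → (K →L[ℂ] K)) : Prop where
  pf : ∀ x, PF ρ W A (P x)
  src : ∀ m x U, π m * P x U * π m⁻¹ = P (m • x) U
  comm : ∀ x y, CM (P x) (P y)

end fam

/-- The geometry of the target plane: `ln` is the line through two points, `D₃` the set of the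
collinear triples. -/
structure Geo {X Y : Type*} [TopologicalSpace X] [TopologicalSpace Y] (A : GA 𝒢 X) (B : GA 𝒢 Y)
    (ln : X × X → Y) (D₃ : Set ((X × X) × X)) : Prop where
  off : COff {p : X × X | p.1 = p.2} ln
  lne : ∀ g (p : X × X), p.1 ≠ p.2 → ln (A.a g p.1, A.a g p.2) = B.a g (ln p)
  inv : ∀ g, ∀ z ∈ D₃, ((A.prod A).prod A).a g z ∈ D₃
  l13 : ∀ z ∈ D₃, z.1.1 ≠ z.1.2 → z.1.1 ≠ z.2 → ln z.1 = ln (p13 z)
  l23 : ∀ z ∈ D₃, z.1.1 ≠ z.1.2 → z.1.2 ≠ z.2 → ln z.1 = ln (p23 z)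

section pair

variable {π : H →* (K →L[ℂ] K)} {ρ : 𝒢 →* (K →L[ℂ] K)} {W : Set (K →L[ℂ] K)}
  {X Y : Type*} [TopologicalSpace X] [TopologicalSpace Y] [CompactSpace X] [CompactSpace Y]
  {A : GA 𝒢 X} {B : GA 𝒢 Y} {S : Type*} [MulAction H S]
  {P : S → Clopens X → (K →L[ℂ] K)}

omit [CompactSpace X] in
theorem PFam.stab (hP : PFam π ρ W A P) {x : S} {m : H} (hm : m ∈ MulAction.stabilizer H x)
    (U : Clopens X) : P x U * π m = π m * P x U := by
  have h1 := hP.src m x U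
  rw [show m • x = x from hm] at h1
  calc P x U * π m = (π m * P x U * π m⁻¹) * π m := by rw [h1]
    _ = π m * P x U * (π m⁻¹ * π m) := by simp only [mul_assoc]
    _ = π m * P x U := by rw [rho_inv_mul, mul_one]

theorem PFam.pf2 (hP : PFam π ρ W A P) (x y : S) : PF ρ W (A.prod A) (jn (P x) (P y)) :=
  (hP.pf x).jn (hP.pf y) (hP.comm x y)

theorem PFam.pf3 (hP : PFam π ρ W A P) (x y z : S) :
    PF ρ W ((A.prod A).prod A) (jn3 (P x) (P y) (P z)) :=
  (hP.pf2 x y).jn (hP.pf z) ((hP.comm x z).jn (hP.comm y z))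

theorem PFam.pf4 (hP : PFam π ρ W A P) (x y z w : S) :
    PF ρ W (((A.prod A).prod A).prod A) (jn4 (P x) (P y) (P z) (P w)) :=
  (hP.pf3 x y z).jn (hP.pf w) (((hP.comm x w).jn (hP.comm y w)).jn (hP.comm z w))

/-- Operators commuting with the measures commute with the joint measure. -/
theorem jn_comm' {P Q : Clopens X → (K →L[ℂ] K)} {T : K →L[ℂ] K} (h1 : ∀ U, P U * T = T * P U)
    (h2 : ∀ U, Q U * T = T * Q U) (U : Clopens (X × X)) : jn P Q U * T = T * jn P Q U :=
  (jn_comm (T := T) (fun U => (h1 U).symm) (fun V => (h2 V).symm) U).symm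

/-- **Two quantum points are different.** -/
theorem PFam.ne (hP : PFam π ρ W A P) {O : ℕ → Clopens (X × X)}
    (hO : NB {p : X × X | p.1 = p.2} O) (hN : NoC π ρ W A) {x y : S}
    (he : ErgS π ρ W (MulAction.stabilizer H x ⊓ MulAction.stabilizer H y : Subgroup H))
    (hg : MulAction.stabilizer H x ⊔ MulAction.stabilizer H y = ⊤) :
    SLim (fun n => jn (P x) (P y) (O n)) 0 := by
  have hJ := hP.pf2 x y
  have hb : ∀ b ∈ ((MulAction.stabilizer H x ⊓ MulAction.stabilizer H y : Subgroup H) : Set H),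
      ∀ U, jn (P x) (P y) U * π b = π b * jn (P x) (P y) U :=
    fun b hb U => jn_comm' (hP.stab hb.1) (hP.stab hb.2) U
  have hD : ∀ g, ∀ z ∈ {p : X × X | p.1 = p.2}, (A.prod A).a g z ∈ {p : X × X | p.1 = p.2} := by
    intro g z hz
    change A.a g z.1 = A.a g z.2
    have : z.1 = z.2 := hz
    rw [this]
  rcases zero_one hJ hO hD he hb with h0 | h1
  · exact h0
  · exfalso
    have h2 : P x = P y := eq_of_diag (hP.pf x).cpv (hP.pf y).cpv (hP.comm x y) hO h1
    have h3 : cstab π (P x) = ⊤ := by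
      rw [eq_top_iff, ← hg, sup_le_iff]
      refine ⟨fun m hm => hP.stab hm, fun m hm => ?_⟩
      rw [h2]
      exact hP.stab hm
    refine hN (P x) (hP.pf x) fun m => ?_
    have : m ∈ cstab π (P x) := by rw [h3]; trivial
    exact this

/-- **Three quantum points are not collinear.** -/
theorem PFam.ncol (hP : PFam π ρ W A P) {ln : X × X → Y}
    {D₃ : Set ((X × X) × X)} (hG : Geo A B ln D₃) {O : ℕ → Clopens (X × X)}
    (hO : NB {p : X × X | p.1 = p.2} O) {O₃ : ℕ → Clopens ((X × X) × X)} (hO₃ : NB D₃ O₃)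
    (hN : NoC π ρ W B) {x y z : S}
    (hxy : SLim (fun n => jn (P x) (P y) (O n)) 0)
    (hxz : SLim (fun n => jn (P x) (P z) (O n)) 0)
    (hyz : SLim (fun n => jn (P y) (P z) (O n)) 0)
    (he : ErgS π ρ W (MulAction.stabilizer H x ⊓ MulAction.stabilizer H y ⊓
      MulAction.stabilizer H z : Subgroup H))
    (hg : (MulAction.stabilizer H x ⊓ MulAction.stabilizer H y) ⊔
      (MulAction.stabilizer H x ⊓ MulAction.stabilizer H z) ⊔
      (MulAction.stabilizer H y ⊓ MulAction.stabilizer H z) = ⊤) :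
    SLim (fun n => jn3 (P x) (P y) (P z) (O₃ n)) 0 := by
  have hJ := hP.pf3 x y z
  have hb : ∀ b ∈ ((MulAction.stabilizer H x ⊓ MulAction.stabilizer H y ⊓
      MulAction.stabilizer H z : Subgroup H) : Set H), ∀ U,
      jn3 (P x) (P y) (P z) U * π b = π b * jn3 (P x) (P y) (P z) U := by
    intro b hb U
    exact (jn_comm (T := π b) (fun U => (jn_comm' (hP.stab hb.1.1) (hP.stab hb.1.2) U).symm)
      (fun V => (hP.stab hb.2 V).symm) U).symm
  rcases zero_one hJ hO₃ hG.inv he hb with h0 | h1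
  · exact h0
  · exfalso
    have hD : ∀ g, ∀ z ∈ {p : X × X | p.1 = p.2}, (A.prod A).a g z ∈ {p : X × X | p.1 = p.2} := by
      intro g z hz
      change A.a g z.1 = A.a g z.2
      have : z.1 = z.2 := hz
      rw [this]
    have hfe : ∀ g (z : X × X), z ∉ {p : X × X | p.1 = p.2} →
        ln ((A.prod A).a g z) = B.a g (ln z) := fun g z hz => hG.lne g z hz
    obtain ⟨L, hL1, hL⟩ := (hP.pf2 x y).push hO hD hxy hG.off hfe
    obtain ⟨M, hM1, hM⟩ := (hP.pf2 x z).push hO hD hxz hG.off hfe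
    obtain ⟨N, hN1, hN'⟩ := (hP.pf2 y z).push hO hD hyz hG.off hfe
    have b1 := (hP.pf x).cpv
    have b2 := (hP.pf y).cpv
    have b3 := (hP.pf z).cpv
    have c12 := hP.comm x y
    have c13 := hP.comm x z
    have c23 := hP.comm y z
    have f12 := jn3_12 b1 b2 b3 c12
    have f13 := jn3_13 b1 b2 b3 c12 c13 c23
    have f23 := jn3_23 b1 b2 b3 c12 c13 c23
    have hLM : L = M := by
      refine IsPush.eq_of_carried (cpv_jn3 b1 b2 b3 c12 c13 c23) hO₃ h1 continuous_fst cont_p13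
        (hf := hG.off) (by rw [f12]; exact hL) (by rw [f13]; exact hM) hO ?_ ?_ ?_
      · have := hxy
        rw [← f12] at this
        exact this
      · have := hxz
        rw [← f13] at this
        exact this
      · intro w hw hw1 hw2
        exact hG.l13 w hw hw1 hw2
    have hLN : L = N := by
      refine IsPush.eq_of_carried (cpv_jn3 b1 b2 b3 c12 c13 c23) hO₃ h1 continuous_fst cont_p23
        (hf := hG.off) (by rw [f12]; exact hL) (by rw [f23]; exact hN') hO ?_ ?_ ?_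
      · have := hxy
        rw [← f12] at this
        exact this
      · have := hyz
        rw [← f23] at this
        exact this
      · intro w hw hw1 hw2
        exact hG.l23 w hw hw1 hw2
    have h3 : cstab π L = ⊤ := by
      rw [eq_top_iff, ← hg, sup_le_iff, sup_le_iff]
      refine ⟨⟨fun m hm => ?_, fun m hm => ?_⟩, fun m hm => ?_⟩
      · exact push_comm (hP.pf2 x y).cpv hO hxy hL
          (fun U => jn_comm' (hP.stab hm.1) (hP.stab hm.2) U)
      · rw [hLM]
        exact push_comm (hP.pf2 x z).cpv hO hxz hM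
          (fun U => jn_comm' (hP.stab hm.1) (hP.stab hm.2) U)
      · rw [hLN]
        exact push_comm (hP.pf2 y z).cpv hO hyz hN'
          (fun U => jn_comm' (hP.stab hm.1) (hP.stab hm.2) U)
    refine hN L hL1 fun m => ?_
    have : m ∈ cstab π L := by rw [h3]; trivial
    exact this

/-- The bad set of the quadruples, as a null sequence of clopen sets. -/
def bad4 (O₃ : ℕ → Clopens ((X × X) × X)) (n : ℕ) : Clopens (((X × X) × X) × X) :=
  pull Prod.fst continuous_fst (O₃ n) ⊔ pull t124 cont_t124 (O₃ n) ⊔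
    (pull t134 cont_t134 (O₃ n) ⊔ pull t234 cont_t234 (O₃ n))

/-- **Four quantum points are in general position.** -/
theorem PFam.gen4 (hP : PFam π ρ W A P) {O₃ : ℕ → Clopens ((X × X) × X)} {x y z w : S}
    (h123 : SLim (fun n => jn3 (P x) (P y) (P z) (O₃ n)) 0)
    (h124 : SLim (fun n => jn3 (P x) (P y) (P w) (O₃ n)) 0)
    (h134 : SLim (fun n => jn3 (P x) (P z) (P w) (O₃ n)) 0)
    (h234 : SLim (fun n => jn3 (P y) (P z) (P w) (O₃ n)) 0) :
    SLim (fun n => jn4 (P x) (P y) (P z) (P w) (bad4 O₃ n)) 0 := by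
  have b1 := (hP.pf x).cpv
  have b2 := (hP.pf y).cpv
  have b3 := (hP.pf z).cpv
  have b4 := (hP.pf w).cpv
  have c12 := hP.comm x y
  have c13 := hP.comm x z
  have c23 := hP.comm y z
  have hJ := (hP.pf4 x y z w).cpv
  refine slim_sup hJ (slim_sup hJ ?_ ?_) (slim_sup hJ ?_ ?_)
  · exact h123.congr fun n => (jn4_123 b1 b2 b3 b4 c12 c13 c23 _).symm
  · exact h124.congr fun n => (jn4_124 b1 b2 b3 b4 c12 c13 c23 _).symm
  · exact h134.congr fun n => (jn4_134 b1 b2 b3 b4 c12 c13 c23 _).symm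
  · exact h234.congr fun n => (jn4_234 b1 b2 b3 b4 c12 c13 c23 _).symm

end pair

end Vale.Agent.P092.H264.Op
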