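import Vale.Agent.P092.H103.IndFix
import Vale.Agent.P092.H933.HM4
import Vale.Agent.P092.H933.HMPA
import Vale.Agent.P092.H201.WLim

/-!
P092 (helper264), team A, block [S2b]: Howe–Moore for the induced representation of a lattice in
`H × H'`: a vector fixed by `H'` with values in a closed convex invariant set.
-/

set_option linter.all false

open scoped InnerProductSpace Topology ENNReal
open Filter Topology ContinuousLinearMap MeasureTheory

namespace Vale.Agent.P092.H264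

open Vale.Agent.P092.H933 (fixedSub mem_fixedSub isClosed_fixedSub HoweMoore)

/-- Howe–Moore along one sequence. -/
def HMSeq (H' : Type) [Group H'] [TopologicalSpace H'] (b : ℕ → H') : Prop :=
  ∀ (E : Type) [NormedAddCommGroup E] [InnerProductSpace ℂ E] [CompleteSpace E]
    (π : H' →* (E →L[ℂ] E)), (∀ g ξ, ‖π g ξ‖ = ‖ξ‖) → (∀ ξ, Continuous fun g => π g ξ) →
    (∀ ξ, (∀ g, π g ξ = ξ) → ξ = 0) →
    ∀ ξ η, Tendsto (fun N => ⟪π (b N) ξ, η⟫_ℂ) atTop (𝓝 0)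

theorem HMSeq.of {H' : Type} [Group H'] [TopologicalSpace H'] (h : HoweMoore H') {b : ℕ → H'}
    (hb : Tendsto b atTop (cocompact H')) : HMSeq H' b :=
  fun E _ _ _ π h1 h2 h3 ξ η => (h E π h1 h2 h3 ξ η).comp hb

section proj

variable {H' : Type} [Group H'] [TopologicalSpace H'] {X : Type} [NormedAddCommGroup X]
  [InnerProductSpace ℂ X] [CompleteSpace X] {σ : H' →* (X →L[ℂ] X)}

theorem inner_inv (hσ : ∀ g ξ, ‖σ g ξ‖ = ‖ξ‖) (g : H') (ξ η : X) :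
    ⟪σ g ξ, η⟫_ℂ = ⟪ξ, σ g⁻¹ η⟫_ℂ := by
  have h1 : ⟪σ g ξ, σ g (σ g⁻¹ η)⟫_ℂ = ⟪ξ, σ g⁻¹ η⟫_ℂ :=
    (LinearIsometry.mk (σ g).toLinearMap (hσ g)).inner_map_map _ _
  have h2 : σ g (σ g⁻¹ η) = η := by
    have h3 : (σ g * σ g⁻¹) η = η := by rw [← map_mul, mul_inv_cancel, map_one]; rfl
    exact h3
  rwa [h2] at h1

theorem mem_orth (hσ : ∀ g ξ, ‖σ g ξ‖ = ‖ξ‖) (g : H') {ξ : X} (hξ : ξ ∈ (fixedSub σ)ᗮ) :
    σ g ξ ∈ (fixedSub σ)ᗮ := by
  rw [Submodule.mem_orthogonal'] at hξ ⊢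
  intro η hη
  rw [inner_inv hσ, mem_fixedSub.1 hη g⁻¹]
  exact hξ η hη

/-- The representation on the orthogonal complement of the fixed vectors. -/
noncomputable def rorth (hσ : ∀ g ξ, ‖σ g ξ‖ = ‖ξ‖) :
    H' →* (((fixedSub σ)ᗮ : Submodule ℂ X) →L[ℂ] ((fixedSub σ)ᗮ : Submodule ℂ X)) where
  toFun g := ((σ g).comp (fixedSub σ)ᗮ.subtypeL).codRestrict _ fun ξ => mem_orth hσ g ξ.2
  map_one' := by
    ext ξ
    change σ 1 (ξ : X) = ξ
    rw [map_one]; rfl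
  map_mul' g g' := by
    ext ξ
    change σ (g * g') (ξ : X) = σ g (σ g' ξ)
    rw [map_mul]; rfl

theorem rorth_coe (hσ : ∀ g ξ, ‖σ g ξ‖ = ‖ξ‖) (g : H') (ξ : ((fixedSub σ)ᗮ : Submodule ℂ X)) :
    ((rorth hσ g ξ : ((fixedSub σ)ᗮ : Submodule ℂ X)) : X) = σ g ξ := rfl

/-- **Howe–Moore, projection form.** -/
theorem tendsto_proj {b : ℕ → H'} (hM : HMSeq H' b) (hσ : ∀ g ξ, ‖σ g ξ‖ = ‖ξ‖)
    (hc : ∀ ξ, Continuous fun g => σ g ξ) (ξ z : X) :
    Tendsto (fun N => ⟪σ (b N) ξ, z⟫_ℂ) atTop (𝓝 ⟪(fixedSub σ).starProjection ξ, z⟫_ℂ) := by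
  have hY : CompleteSpace ((fixedSub σ)ᗮ : Submodule ℂ X) :=
    (Submodule.isClosed_orthogonal _).completeSpace_coe
  have key := hM ((fixedSub σ)ᗮ : Submodule ℂ X) (rorth hσ)
    (fun g ξ => hσ g ξ)
    (fun ξ => Continuous.subtype_mk (hc (ξ : X)) _)
    (fun ξ hξ => by
      have h1 : (ξ : X) ∈ fixedSub σ := fun g => congrArg Subtype.val (hξ g)
      have h2 := (Submodule.mem_orthogonal' _ _).1 ξ.2 _ h1
      exact Subtype.ext (inner_self_eq_zero.1 h2))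
  obtain ⟨P, hP⟩ : ∃ P : X →L[ℂ] X, P = (fixedSub σ).starProjection := ⟨_, rfl⟩
  have hPm : ∀ x, P x ∈ fixedSub σ := fun x => by
    rw [hP]; exact Submodule.starProjection_apply_mem _ _
  have hPo : ∀ x, x - P x ∈ (fixedSub σ)ᗮ := fun x => by
    rw [hP]; exact Submodule.sub_starProjection_mem_orthogonal _
  rw [← hP]
  have h1 := key ⟨_, hPo ξ⟩ ⟨_, hPo z⟩
  have h2 : ∀ N, ⟪σ (b N) ξ, z⟫_ℂ = ⟪P ξ, z⟫_ℂ + ⟪σ (b N) (ξ - P ξ), z - P z⟫_ℂ := by
    intro N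
    have e1 : σ (b N) ξ = P ξ + σ (b N) (ξ - P ξ) := by
      rw [map_sub, mem_fixedSub.1 (hPm ξ) (b N)]; abel
    rw [e1, inner_add_left, inner_sub_right (𝕜 := ℂ) (σ (b N) (ξ - P ξ)) z (P z)]
    have e2 : ⟪σ (b N) (ξ - P ξ), P z⟫_ℂ = 0 :=
      (Submodule.mem_orthogonal' _ _).1 (mem_orth hσ (b N) (hPo ξ)) _ (hPm z)
    rw [e2, sub_zero]
  simp_rw [h2]
  have h3 : Tendsto (fun N => ⟪σ (b N) (ξ - P ξ), z - P z⟫_ℂ) atTop (𝓝 0) := h1
  simpa using h3.const_add ⟪P ξ, z⟫_ℂ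

/-- The projection is in every closed convex set which contains the vectors `σ (b N) ξ`. -/
theorem proj_mem {b : ℕ → H'} (hM : HMSeq H' b) (hσ : ∀ g ξ, ‖σ g ξ‖ = ‖ξ‖)
    (hc : ∀ ξ, Continuous fun g => σ g ξ) (ξ : X) {C : Set X} (hC : Convex ℝ C)
    (hC2 : IsClosed C) (h : ∀ N, σ (b N) ξ ∈ C) : (fixedSub σ).starProjection ξ ∈ C := by
  refine H201.mem_of_weak (l := atTop) (v := fun N => σ (b N) ξ) (fun z => ?_) hC hC2
    (Eventually.of_forall h)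
  have h1 := (Complex.continuous_conj.tendsto _).comp (tendsto_proj hM hσ hc ξ z)
  rw [inner_conj_symm] at h1
  refine h1.congr fun N => ?_
  simp only [Function.comp_apply]
  exact inner_conj_symm _ _

end proj

section secC

variable {α : Type} [MeasurableSpace α] {ν : Measure α} {X : Type} [NormedAddCommGroup X]
  [InnerProductSpace ℂ X] [CompleteSpace X]

/-- The vectors of `L²` with values in `C`. -/
def secC (ν : Measure α) (C : Set X) : Set (Lp X 2 ν) := {η | ∀ᵐ x ∂ν, η x ∈ C}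

theorem mem_secC {C : Set X} {η : Lp X 2 ν} : η ∈ secC ν C ↔ ∀ᵐ x ∂ν, η x ∈ C := Iff.rfl

theorem convex_secC {C : Set X} (hC : Convex ℝ C) : Convex ℝ (secC ν C) := by
  intro η hη ζ hζ a b ha hb hab
  rw [mem_secC] at hη hζ ⊢
  filter_upwards [hη, hζ, Lp.coeFn_add (a • η) (b • ζ), Lp.coeFn_smul a η, Lp.coeFn_smul b ζ]
    with x h1 h2 h3 h4 h5
  rw [h3, Pi.add_apply, h4, h5]
  exact hC h1 h2 ha hb hab

theorem isClosed_secC {C : Set X} (hC : IsClosed C) : IsClosed (secC ν C) := by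
  refine IsSeqClosed.isClosed fun η ζ hη hζ => ?_
  have h1 := tendstoInMeasure_of_tendsto_Lp hζ
  obtain ⟨ns, -, h2⟩ := h1.exists_seq_tendsto_ae
  have h3 : ∀ᵐ x ∂ν, ∀ n, η n x ∈ C := ae_all_iff.2 fun n => hη n
  rw [mem_secC]
  filter_upwards [h2, h3] with x h4 h5
  exact hC.mem_of_tendsto h4 (Eventually.of_forall fun n => h5 _)

end secC

section cont

variable {E : Type} [Group E] [TopologicalSpace E] [IsTopologicalGroup E] {X : Type}
  [NormedAddCommGroup X] [InnerProductSpace ℂ X] [CompleteSpace X] {σ : E →* (X →L[ℂ] X)}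

theorem continuous_of_one (hσ : ∀ g ξ, ‖σ g ξ‖ = ‖ξ‖)
    (h : ∀ ξ, Tendsto (fun g => σ g ξ) (𝓝 1) (𝓝 ξ)) (ξ : X) : Continuous fun g => σ g ξ := by
  rw [continuous_iff_continuousAt]
  intro g₀
  have h1 : Tendsto (fun g => g₀⁻¹ * g) (𝓝 g₀) (𝓝 1) := by
    have h2 : Continuous fun g => g₀⁻¹ * g := by fun_prop
    have h3 := h2.tendsto g₀
    rwa [inv_mul_cancel] at h3
  have h2 := (h ξ).comp h1
  have h3 := ((σ g₀).continuous.tendsto ξ).comp h2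
  refine h3.congr fun g => ?_
  change (σ g₀ * σ (g₀⁻¹ * g)) ξ = _
  rw [← map_mul, mul_inv_cancel_left]

end cont

section ind

open Vale.Agent.P092.H790 Vale.Agent.P092.H85 Vale.Agent.P092.H103

section one

variable {E : Type} [Group E] [TopologicalSpace E] [IsTopologicalGroup E] [LocallyCompactSpace E]
  [SecondCountableTopology E] [T2Space E] [MeasurableSpace E] [BorelSpace E]
  {Λ : Subgroup E} [DiscreteTopology Λ] [MeasurableSpace (E ⧸ Λ)] [BorelSpace (E ⧸ Λ)]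
  {ν : Measure (E ⧸ Λ)} [IsProbabilityMeasure ν] (hν : ∀ g : E, ν.map (fun x => g • x) = ν)
  {X : Type} [NormedAddCommGroup X] [InnerProductSpace ℂ X] [CompleteSpace X]
  {π : Λ →* (X →L[ℂ] X)} (hπ : ∀ g, adjoint (π g) = π g⁻¹) [Countable Λ]

include hπ in
/-- The translates of a constant section. -/
theorem const_ae (g : E) (f : X) :
    ⇑(iro hν π g (Lp.const 2 ν f)) =ᵐ[ν] fun x => π (coc Λ g (g⁻¹ • x)) f := by
  have c1 : ⇑(Lp.const 2 ν f) =ᵐ[ν] Function.const _ f := Lp.coeFn_const ..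
  have c3 : ∀ᵐ x ∂ν, (Lp.const 2 ν f : Lp X 2 ν) (g⁻¹ • x) = f := ae_comp (mpres hν g⁻¹) c1
  filter_upwards [iro_ae hν hπ g (Lp.const 2 ν f), c3] with x a1 a2
  rw [a1, a2]

include hπ in
/-- The coefficient of a constant section. -/
theorem coef (g : E) (f : X) :
    ⟪iro hν π g (Lp.const 2 ν f), Lp.const 2 ν f⟫_ℂ = ∫ x, ⟪π (coc Λ g x) f, f⟫_ℂ ∂ν := by
  rw [L2.inner_def]
  have c1 : ⇑(Lp.const 2 ν f) =ᵐ[ν] Function.const _ f := Lp.coeFn_const ..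
  have h1 : (fun x => ⟪(iro hν π g (Lp.const 2 ν f) : E ⧸ Λ → X) x,
      (Lp.const 2 ν f : E ⧸ Λ → X) x⟫_ℂ) =ᵐ[ν]
      fun x => ⟪π (coc Λ g (g⁻¹ • x)) f, f⟫_ℂ := by
    filter_upwards [const_ae hν hπ g f, c1] with x a1 a2
    rw [a1, a2]; rfl
  rw [integral_congr_ae h1]
  have h2 : MeasurableEmbedding fun x : E ⧸ Λ => g⁻¹ • x :=
    (Homeomorph.smul g⁻¹).measurableEmbedding
  exact (mpres hν g⁻¹).integral_comp h2 (fun x => ⟪π (coc Λ g x) f, f⟫_ℂ)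

include hπ in
theorem iro_const_mem {C : Set X} (hC : ∀ v, ∀ ξ ∈ C, π v ξ ∈ C) (g : E) {f : X} (hf : f ∈ C) :
    iro hν π g (Lp.const 2 ν f) ∈ secC ν C := by
  rw [mem_secC]
  filter_upwards [const_ae hν hπ g f] with x hx
  rw [hx]
  exact hC _ _ hf

end one

section two

variable {H H' : Type} [Group H] [TopologicalSpace H] [IsTopologicalGroup H]
    [LocallyCompactSpace H] [SecondCountableTopology H] [T2Space H] [MeasurableSpace H]
    [BorelSpace H] [Group H'] [TopologicalSpace H'] [IsTopologicalGroup H']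
    [LocallyCompactSpace H'] [SecondCountableTopology H'] [T2Space H'] [MeasurableSpace H']
    [BorelSpace H'] {Λ : Subgroup (H × H')} [DiscreteTopology Λ]
    [MeasurableSpace ((H × H') ⧸ Λ)] [BorelSpace ((H × H') ⧸ Λ)]
    {ν : Measure ((H × H') ⧸ Λ)} [IsProbabilityMeasure ν]
    (hν : ∀ g : H × H', ν.map (fun x => g • x) = ν)
    {X : Type} [NormedAddCommGroup X] [InnerProductSpace ℂ X] [CompleteSpace X]
    {π : Λ →* (X →L[ℂ] X)} (hπ : ∀ g, adjoint (π g) = π g⁻¹) [Countable Λ]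

include hπ in
/-- **A vector fixed by `H'` with values in `C`.** -/
theorem exists_fixed_C {b : ℕ → H'} (hM : HMSeq H' b) (f : X) {c : ℝ} (hc : 0 < c)
    (hm : ∀ N, c ≤ ‖∫ x, ⟪π (coc Λ ((1 : H), b N) x) f, f⟫_ℂ ∂ν‖) {C : Set X}
    (hC1 : Convex ℝ C) (hC2 : IsClosed C) (hf : f ∈ C) (hC3 : ∀ v, ∀ ξ ∈ C, π v ξ ∈ C) :
    ∃ η : Lp X 2 ν, η ≠ 0 ∧ (∀ g : H', iro hν π ((1 : H), g) η = η) ∧ ∀ᵐ x ∂ν, η x ∈ C := by
  obtain ⟨σ, hσ⟩ : ∃ σ : H' →* (Lp X 2 ν →L[ℂ] Lp X 2 ν),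
      σ = (irep hν hπ).comp (MonoidHom.inr H H') := ⟨_, rfl⟩
  have hσ1 : ∀ g, σ g = iro hν π ((1 : H), g) := fun g => by rw [hσ]; rfl
  have hcr := irep_crep hν hπ
  have hiso : ∀ g ξ, ‖σ g ξ‖ = ‖ξ‖ := fun g ξ => by
    rw [hσ]
    exact Vale.Agent.P092.H885.u_norm hcr.adj _ ξ
  have hct : ∀ ξ, Continuous fun g => σ g ξ := by
    refine continuous_of_one hiso fun ξ => ?_
    have h1 : Tendsto (fun g : H' => ((1 : H), g)) (𝓝 1) (𝓝 1) := by
      have h2 : Continuous fun g : H' => ((1 : H), g) := by fun_prop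
      exact h2.tendsto 1
    rw [hσ]
    exact (hcr.cont ξ).comp h1
  obtain ⟨F, hF⟩ : ∃ F : Lp X 2 ν, F = Lp.const 2 ν f := ⟨_, rfl⟩
  refine ⟨(fixedSub σ).starProjection F, ?_, ?_, ?_⟩
  · intro h0
    have h1 := (tendsto_proj hM hiso hct F F).norm
    rw [h0, inner_zero_left, norm_zero] at h1
    have h2 : ∀ N, c ≤ ‖⟪σ (b N) F, F⟫_ℂ‖ := fun N => by
      rw [hσ1, hF, coef hν hπ]
      exact hm N
    have h3 := ge_of_tendsto h1 (Eventually.of_forall h2)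
    linarith
  · intro g
    have h1 := mem_fixedSub.1 (Submodule.starProjection_apply_mem (fixedSub σ) F) g
    rwa [hσ1] at h1
  · refine proj_mem hM hiso hct F (convex_secC hC1) (isClosed_secC hC2) fun N => ?_
    rw [hσ1, hF]
    exact iro_const_mem hν hπ hC3 _ hf

end two

end ind

end Vale.Agent.P092.H264
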