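import Vale.Agent.P092.H242.Sct
import Vale.Agent.P092.H200.Coc
import Vale.Agent.P092.H701.SLn

/-!
P092 (helper264), Team C, block [A-HAT] (G) of helper242: the group facts. `b = diag(w^m, w⁻¹, ..)`,
`L` = the block diagonal part of `SL_(m+1)(O)`, `N` = the unipotent radical of the stabiliser.
-/

set_option linter.all false

open Matrix Topology TopologicalSpace Filter
open scoped LinearAlgebra.Projectivization

namespace Vale.Agent.P092.H264.GrpC

open Vale.Agent.P092.RC Vale.Agent.P092.H575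
open Vale.Agent.P092.H242.Sct (tg tg_val sc mkP exists_sc)

section unif

variable {k : Type} [NontriviallyNormedField k] [ProperSpace k] [IsUltrametricDist k]

/-- a uniformiser -/
theorem exists_unif : ∃ w : k, w ≠ 0 ∧ ‖w‖ < 1 ∧ ∀ s : k, s ≠ 0 → ∃ j : ℤ, ‖s‖ = ‖w‖ ^ j := by
  have hcl : IsClosed {x : k | ‖x‖ < 1} := by
    have : {x : k | ‖x‖ < 1} = Metric.ball 0 1 := by ext x; simp
    rw [this]
    exact IsUltrametricDist.isClosed_ball 0 1
  have hco : IsCompact {x : k | ‖x‖ < 1} := by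
    refine (isCompact_closedBall (0 : k) 1).of_isClosed_subset hcl fun x hx => ?_
    rw [mem_closedBall_zero_iff]
    exact le_of_lt hx
  obtain ⟨w, hw, hmax⟩ := hco.exists_isMaxOn ⟨0, by simp⟩ continuous_norm.continuousOn
  obtain ⟨c, hc0, hc1⟩ := NormedField.exists_norm_lt_one k
  have hw0 : 0 < ‖w‖ := lt_of_lt_of_le hc0 (hmax hc1)
  have hw1 : ‖w‖ < 1 := hw
  refine ⟨w, norm_pos_iff.1 hw0, hw1, fun s hs => ?_⟩
  have hs0 : 0 < ‖s‖ := norm_pos_iff.2 hs
  obtain ⟨j, hj1, hj2⟩ := exists_mem_Ico_zpow hs0 ((one_lt_inv₀ hw0).2 hw1)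
  refine ⟨-j, ?_⟩
  rw [_root_.inv_zpow, ← _root_.zpow_neg] at hj1 hj2
  by_contra hne
  have h1 : ‖w‖ ^ (-j) < ‖s‖ := lt_of_le_of_ne hj1 (Ne.symm hne)
  -- `w^(-j) / s` is a larger element of the maximal ideal
  have h2 : ‖w ^ (-j) * s⁻¹‖ < 1 := by
    rw [norm_mul, norm_zpow, norm_inv, ← div_eq_mul_inv, div_lt_one hs0]
    exact h1
  have h3 : ‖w ^ (-j) * s⁻¹‖ ≤ ‖w‖ := hmax h2
  rw [norm_mul, norm_zpow, norm_inv, ← div_eq_mul_inv, div_le_iff₀ hs0] at h3
  have h4 : ‖w‖ * ‖w‖ ^ (-(j + 1)) = ‖w‖ ^ (-j) := by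
    rw [← zpow_one_add₀ hw0.ne']
    congr 1; ring
  have h5 : ‖w‖ * ‖s‖ < ‖w‖ * ‖w‖ ^ (-(j + 1)) := mul_lt_mul_of_pos_left hj2 hw0
  rw [h4] at h5
  exact absurd h3 (not_le.2 h5)

end unif

section grp

variable {k : Type} [NontriviallyNormedField k] {m : ℕ}

theorem mul_ap (g h : GG k m) (i j : Fin (m + 1)) : (g * h).1 i j = ∑ l, g.1 i l * h.1 l j := by
  have : (g * h).1 = g.1 * h.1 := rfl
  rw [this, Matrix.mul_apply]

theorem one_ap (i j : Fin (m + 1)) : (1 : GG k m).1 i j = if i = j then 1 else 0 := by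
  have : (1 : GG k m).1 = 1 := rfl
  rw [this, Matrix.one_apply]

theorem mul_inv_ap (g : GG k m) (i j : Fin (m + 1)) :
    ∑ l, g.1 i l * (g⁻¹).1 l j = if i = j then 1 else 0 := by
  rw [← mul_ap, mul_inv_cancel, one_ap]

theorem inv_mul_ap (g : GG k m) (i j : Fin (m + 1)) :
    ∑ l, (g⁻¹).1 i l * g.1 l j = if i = j then 1 else 0 := by
  rw [← mul_ap, inv_mul_cancel, one_ap]

variable {w : k} (hw : w ≠ 0)

/-- the wall element -/
abbrev bb (m : ℕ) {w : k} (hw : w ≠ 0) : GG k m := H701.tor m hw 0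

/-- the diagonal entries -/
theorem bb_zero : (bb m hw).1 0 0 = w ^ m := by
  change Matrix.diagonal (H701.dg m w 0) 0 0 = _
  rw [Matrix.diagonal_apply_eq, H701.dg]
  simp

theorem bb_succ (i : Fin m) : (bb m hw).1 i.succ i.succ = w⁻¹ := by
  change Matrix.diagonal (H701.dg m w 0) i.succ i.succ = _
  rw [Matrix.diagonal_apply_eq, H701.dg, if_neg (Fin.succ_ne_zero i), if_pos (Fin.succ_pos i),
    one_mul]

theorem bb_ne {i j : Fin (m + 1)} (h : i ≠ j) : (bb m hw).1 i j = 0 := by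
  change Matrix.diagonal (H701.dg m w 0) i j = _
  rw [Matrix.diagonal_apply_ne _ h]

/-- the diagonal entries, as a function -/
def dd (m : ℕ) (w : k) (i : Fin (m + 1)) : k := if i = 0 then w ^ m else w⁻¹

include hw in
theorem dd_ne (i : Fin (m + 1)) : dd m w i ≠ 0 := by
  unfold dd
  split_ifs
  · exact pow_ne_zero _ hw
  · exact inv_ne_zero hw

theorem bb_val : (bb m hw).1 = Matrix.diagonal (dd m w) := by
  ext i j
  by_cases h : i = j
  · subst h
    rw [Matrix.diagonal_apply_eq, dd]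
    refine Fin.cases ?_ (fun i => ?_) i
    · rw [if_pos rfl, bb_zero]
    · rw [if_neg (Fin.succ_ne_zero i), bb_succ]
  · rw [bb_ne hw h, Matrix.diagonal_apply_ne _ h]

theorem bb_pow (t : ℕ) : (bb m hw ^ t).1 = Matrix.diagonal fun i => dd m w i ^ t := by
  have h1 : (bb m hw ^ t).1 = (bb m hw).1 ^ t := by
    induction t with
    | zero => rfl
    | succ t ih => rw [pow_succ, pow_succ, ← ih]; rfl
  rw [h1, bb_val, Matrix.diagonal_pow]
  rfl

theorem bb_inv : ((bb m hw)⁻¹).1 = Matrix.diagonal fun i => (dd m w i)⁻¹ := by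
  have h1 : (bb m hw).1 * ((bb m hw)⁻¹).1 = 1 := by
    have : ((bb m hw) * (bb m hw)⁻¹).1 = 1 := by rw [mul_inv_cancel]; rfl
    exact this
  have h2 : (Matrix.diagonal fun i => (dd m w i)⁻¹) * (bb m hw).1 = 1 := by
    rw [bb_val, Matrix.diagonal_mul_diagonal]
    rw [← Matrix.diagonal_one]
    congr 1
    funext i
    exact inv_mul_cancel₀ (dd_ne hw i)
  calc ((bb m hw)⁻¹).1 = ((Matrix.diagonal fun i => (dd m w i)⁻¹) * (bb m hw).1) *
        ((bb m hw)⁻¹).1 := by rw [h2, one_mul]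
    _ = _ := by rw [mul_assoc, h1, mul_one]

theorem bb_zpow (t : ℤ) : (bb m hw ^ t).1 = Matrix.diagonal fun i => dd m w i ^ t := by
  have key : ∀ n : ℕ, ((bb m hw ^ n)⁻¹).1 = Matrix.diagonal fun i => (dd m w i ^ n)⁻¹ := by
    intro n
    have h1 : (bb m hw ^ n).1 * ((bb m hw ^ n)⁻¹).1 = 1 := by
      have : ((bb m hw ^ n) * (bb m hw ^ n)⁻¹).1 = 1 := by rw [mul_inv_cancel]; rfl
      exact this
    have h2 : (Matrix.diagonal fun i => (dd m w i ^ n)⁻¹) * (bb m hw ^ n).1 = 1 := by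
      rw [bb_pow, Matrix.diagonal_mul_diagonal]
      rw [← Matrix.diagonal_one]
      congr 1
      funext i
      exact inv_mul_cancel₀ (pow_ne_zero _ (dd_ne hw i))
    calc ((bb m hw ^ n)⁻¹).1 = ((Matrix.diagonal fun i => (dd m w i ^ n)⁻¹) * (bb m hw ^ n).1) *
          ((bb m hw ^ n)⁻¹).1 := by rw [h2, one_mul]
      _ = _ := by rw [mul_assoc, h1, mul_one]
  rcases Int.eq_nat_or_neg t with ⟨n, rfl | rfl⟩
  · rw [_root_.zpow_natCast, bb_pow]
    congr 1
    exact funext fun i => (_root_.zpow_natCast _ _).symm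
  · rw [_root_.zpow_neg, _root_.zpow_natCast, key]
    congr 1
    funext i
    rw [_root_.zpow_neg, _root_.zpow_natCast]

/-- block diagonal = commuting with `b` -/
theorem blk_iff (hw1 : ‖w‖ < 1) (g : GG k m) :
    ((∀ i, i ≠ 0 → g.1 i 0 = 0) ∧ ∀ j, j ≠ 0 → g.1 0 j = 0) ↔ g * bb m hw = bb m hw * g := by
  have hd : ∀ i : Fin (m + 1), i ≠ 0 → dd m w 0 ≠ dd m w i := by
    intro i hi h
    rw [dd, if_pos rfl, dd, if_neg hi] at h
    have h1 : w ^ (m + 1) = 1 := by rw [pow_succ, h, inv_mul_cancel₀ hw]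
    have h2 : ‖w‖ ^ (m + 1) = 1 := by rw [← norm_pow, h1, norm_one]
    exact absurd h2 (pow_lt_one₀ (norm_nonneg _) hw1 (Nat.succ_ne_zero m)).ne
  have h0 : g * bb m hw = bb m hw * g ↔ ∀ i j, g.1 i j * dd m w j = dd m w i * g.1 i j := by
    have e1 : ∀ i j, (g * bb m hw).1 i j = g.1 i j * dd m w j := by
      intro i j
      have : (g * bb m hw).1 = g.1 * (bb m hw).1 := rfl
      rw [this, bb_val, Matrix.mul_diagonal]
    have e2 : ∀ i j, (bb m hw * g).1 i j = dd m w i * g.1 i j := by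
      intro i j
      have : (bb m hw * g).1 = (bb m hw).1 * g.1 := rfl
      rw [this, bb_val, Matrix.diagonal_mul]
    constructor
    · intro h i j
      rw [← e1, ← e2, h]
    · intro h
      refine Subtype.ext (Matrix.ext fun i j => ?_)
      exact (e1 i j).trans ((h i j).trans (e2 i j).symm)
  rw [h0]
  constructor
  · rintro ⟨h1, h2⟩ i j
    by_cases hi : i = 0
    · by_cases hj : j = 0
      · rw [hi, hj, mul_comm]
      · rw [hi, h2 j hj, zero_mul, mul_zero]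
    · by_cases hj : j = 0
      · rw [hj, h1 i hi, zero_mul, mul_zero]
      · rw [dd, if_neg hj, dd, if_neg hi, mul_comm]
  · intro h
    refine ⟨fun i hi => ?_, fun j hj => ?_⟩
    · have h1 := h i 0
      by_contra hg
      rw [mul_comm] at h1
      exact hd i hi (mul_right_cancel₀ hg h1)
    · have h1 := h 0 j
      by_contra hg
      rw [mul_comm] at h1
      exact hd j hj (mul_right_cancel₀ hg h1).symm

end grp

section lev

variable {k : Type} [NontriviallyNormedField k] [IsUltrametricDist k] {m : ℕ} {w : k} (hw : w ≠ 0)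

/-- the compact open subgroup `SL_(m+1)(O)` -/
def V (k : Type) [NontriviallyNormedField k] [IsUltrametricDist k] (m : ℕ) : Subgroup (GG k m) :=
  (KK k (Fin (m + 1))).comap tg

theorem mem_V (g : GG k m) : g ∈ V k m ↔ Bd 1 (tg g) := by
  rw [V, Subgroup.mem_comap, mem_KK]

theorem tg_inv_val (g : GG k m) : ((tg g)⁻¹).1 = (g⁻¹).1 := by
  rw [← map_inv]; rfl

theorem mem_V' (g : GG k m) : g ∈ V k m ↔ (∀ i j, ‖g.1 i j‖ ≤ 1) ∧ ∀ i j, ‖(g⁻¹).1 i j‖ ≤ 1 := by
  rw [mem_V, Bd, tg_inv_val]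
  rfl

/-- the block diagonal part of `SL_(m+1)(O)` -/
def L (m : ℕ) {w : k} (hw : w ≠ 0) : Subgroup (GG k m) :=
  V k m ⊓ Subgroup.centralizer {bb m hw}

theorem mem_L' (g : GG k m) : g ∈ L m hw ↔ g ∈ V k m ∧ g * bb m hw = bb m hw * g := by
  rw [L, Subgroup.mem_inf, Subgroup.mem_centralizer_singleton_iff]

theorem mem_L (hw1 : ‖w‖ < 1) (g : GG k m) : g ∈ L m hw ↔
    Bd 1 (tg g) ∧ (∀ i, i ≠ 0 → g.1 i 0 = 0) ∧ ∀ j, j ≠ 0 → g.1 0 j = 0 := by
  rw [mem_L', mem_V, blk_iff hw hw1]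

theorem L_y0 (hw1 : ‖w‖ < 1) {l : GG k m} (hl : l ∈ L m hw) : l • (y0 : YY k m) = y0 :=
  (H200.Coc.smul_y0_y0 l).2 fun i => ((mem_L hw hw1 l).1 hl).2.1 _ (Fin.succ_ne_zero i)

theorem L_b {l : GG k m} (hl : l ∈ L m hw) : l * bb m hw = bb m hw * l := ((mem_L' hw l).1 hl).2

theorem b_y0 : bb m hw • (y0 : YY k m) = y0 :=
  (H200.Coc.smul_y0_y0 _).2 fun i => bb_ne hw (Fin.succ_ne_zero i)

theorem continuous_entry (i j : Fin (m + 1)) : Continuous fun g : GG k m => g.1 i j :=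
  (continuous_apply j).comp ((continuous_apply i).comp continuous_subtype_val)

/-- `SL_(m+1)(O)` is open -/
theorem isOpen_V : IsOpen (V k m : Set (GG k m)) := by
  have h1 : (V k m : Set (GG k m)) = (⋂ i, ⋂ j, {g | ‖g.1 i j‖ ≤ 1}) ∩
      ⋂ i, ⋂ j, {g | ‖(g⁻¹).1 i j‖ ≤ 1} := by
    ext g
    rw [SetLike.mem_coe, mem_V']
    simp
  have h2 : ∀ i j, IsOpen {g : GG k m | ‖g.1 i j‖ ≤ 1} := fun i j => by
    have : {g : GG k m | ‖g.1 i j‖ ≤ 1} = (fun g : GG k m => g.1 i j) ⁻¹' Metric.closedBall 0 1 := by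
      ext g; simp
    rw [this]
    exact (IsUltrametricDist.isOpen_closedBall 0 one_ne_zero).preimage (continuous_entry i j)
  rw [h1]
  refine IsOpen.inter ?_ ?_
  · exact isOpen_iInter_of_finite fun i => isOpen_iInter_of_finite fun j => h2 i j
  · refine isOpen_iInter_of_finite fun i => isOpen_iInter_of_finite fun j => ?_
    have : {g : GG k m | ‖(g⁻¹).1 i j‖ ≤ 1} =
        (fun g : GG k m => g⁻¹) ⁻¹' {g : GG k m | ‖g.1 i j‖ ≤ 1} := rfl
    rw [this]
    exact (h2 i j).preimage continuous_inv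

theorem isCompact_V [ProperSpace k] : IsCompact (V k m : Set (GG k m)) := by
  have h1 : (V k m : Set (GG k m)) ⊆ Subtype.val ⁻¹' (Set.univ.pi fun _ => Set.univ.pi fun _ =>
      Metric.closedBall (0 : k) 1 : Set (Matrix (Fin (m + 1)) (Fin (m + 1)) k)) := by
    intro g hg i _ j _
    rw [mem_closedBall_zero_iff]
    exact ((mem_V' g).1 hg).1 i j
  have h2 : IsCompact (Set.univ.pi fun _ => Set.univ.pi fun _ =>
      Metric.closedBall (0 : k) 1 : Set (Matrix (Fin (m + 1)) (Fin (m + 1)) k)) :=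
    isCompact_univ_pi fun _ => isCompact_univ_pi fun _ => isCompact_closedBall _ _
  have h3 : Topology.IsClosedEmbedding (Subtype.val : GG k m → Matrix (Fin (m + 1)) (Fin (m + 1)) k) := by
    refine Topology.IsClosedEmbedding.subtypeVal ?_
    exact isClosed_singleton.preimage (f := fun A : Matrix (Fin (m + 1)) (Fin (m + 1)) k => A.det)
      (Continuous.matrix_det continuous_id)
  exact (h3.isCompact_preimage h2).of_isClosed_subset
    (Subgroup.isClosed_of_isOpen (V k m) isOpen_V) h1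

theorem isCompact_L [ProperSpace k] : IsCompact (L m hw : Set (GG k m)) := by
  refine isCompact_V.of_isClosed_subset ?_ (fun g hg => ((mem_L' hw g).1 hg).1)
  have : (L m hw : Set (GG k m)) = (V k m : Set (GG k m)) ∩ {g | g * bb m hw = bb m hw * g} := by
    ext g
    rw [SetLike.mem_coe, mem_L']
    rfl
  rw [this]
  exact (Subgroup.isClosed_of_isOpen _ isOpen_V).inter
    (isClosed_eq (continuous_mul_const _) (continuous_const_mul _))

end lev

section uni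

variable {k : Type} [NontriviallyNormedField k] {m : ℕ}

/-- the unipotent radical -/
def N (k : Type) [NontriviallyNormedField k] (m : ℕ) : Subgroup (GG k m) where
  carrier := {g | g.1 0 0 = 1 ∧ ∀ i, i ≠ 0 → ∀ j, g.1 i j = if i = j then 1 else 0}
  one_mem' := ⟨by rw [one_ap, if_pos rfl], fun i _ j => one_ap i j⟩
  mul_mem' := by
    rintro g h ⟨g1, g2⟩ ⟨h1, h2⟩
    refine ⟨?_, fun i hi j => ?_⟩
    · rw [mul_ap, Finset.sum_eq_single 0, g1, h1, one_mul]
      · intro l _ hl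
        rw [h2 l hl, if_neg hl, mul_zero]
      · intro hn
        exact (hn (Finset.mem_univ _)).elim
    · rw [mul_ap, Finset.sum_eq_single i, g2 i hi, if_pos rfl, one_mul, h2 i hi]
      · intro l _ hl
        rw [g2 i hi, if_neg (Ne.symm hl), zero_mul]
      · intro hn
        exact (hn (Finset.mem_univ _)).elim
  inv_mem' := by
    rintro g ⟨g1, g2⟩
    have h2 : ∀ i, i ≠ 0 → ∀ j, (g⁻¹).1 i j = if i = j then 1 else 0 := by
      intro i hi j
      rw [← mul_inv_ap g i j, Finset.sum_eq_single i, g2 i hi, if_pos rfl, one_mul]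
      · intro l _ hl
        rw [g2 i hi, if_neg (Ne.symm hl), zero_mul]
      · intro hn
        exact (hn (Finset.mem_univ _)).elim
    refine ⟨?_, h2⟩
    have h3 := mul_inv_ap g 0 0
    rw [if_pos rfl, Finset.sum_eq_single 0, g1, one_mul] at h3
    · exact h3
    · intro l _ hl
      rw [h2 l hl, if_neg hl, mul_zero]
    · intro hn
      exact (hn (Finset.mem_univ _)).elim

theorem mem_N (g : GG k m) : g ∈ N k m ↔
    g.1 0 0 = 1 ∧ ∀ i, i ≠ 0 → ∀ j, g.1 i j = if i = j then 1 else 0 := Iff.rfl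

theorem N_y0 {n : GG k m} (hn : n ∈ N k m) : n • (y0 : YY k m) = y0 :=
  (H200.Coc.smul_y0_y0 n).2 fun i => by
    rw [hn.2 _ (Fin.succ_ne_zero i), if_neg (Fin.succ_ne_zero i)]

/-- the elements of the radical -/
def un (x : Fin (m + 1) → k) : Matrix (Fin (m + 1)) (Fin (m + 1)) k :=
  Matrix.of fun i j => if i = j then 1 else if i = 0 then x j else 0

theorem det_un (x : Fin (m + 1) → k) : (un x).det = 1 := by
  have h1 : (un x).BlockTriangular id := by
    intro i j hij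
    have hij' : j < i := hij
    rw [un, Matrix.of_apply, if_neg hij'.ne', if_neg (Fin.pos_iff_ne_zero.1 (lt_of_le_of_lt (Fin.zero_le j) hij'))]
  rw [Matrix.det_of_upperTriangular h1]
  refine Finset.prod_eq_one fun i _ => ?_
  rw [un, Matrix.of_apply, if_pos rfl]

/-- as an element of the group -/
def ug (x : Fin (m + 1) → k) : GG k m := ⟨un x, det_un x⟩

theorem ug_ap (x : Fin (m + 1) → k) (i j : Fin (m + 1)) :
    (ug x).1 i j = if i = j then 1 else if i = 0 then x j else 0 := rfl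

theorem ug_mem (x : Fin (m + 1) → k) : ug x ∈ N k m := by
  refine ⟨by rw [ug_ap, if_pos rfl], fun i hi j => ?_⟩
  rw [ug_ap, if_neg hi]

end uni

section fin

variable {k : Type} [NontriviallyNormedField k] [IsUltrametricDist k] {m : ℕ} {w : k} (hw : w ≠ 0)

theorem N_L (hw1 : ‖w‖ < 1) {n l : GG k m} (hn : n ∈ N k m) (hl : l ∈ L m hw) :
    l⁻¹ * n * l ∈ N k m := by
  have hb := ((mem_L hw hw1 l).1 hl).2
  have hb' := ((mem_L hw hw1 l⁻¹).1 (inv_mem hl)).2
  have h1 : ∀ a, a ≠ 0 → ∀ j, (n * l).1 a j = l.1 a j := by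
    intro a ha j
    rw [mul_ap, Finset.sum_eq_single a, hn.2 a ha, if_pos rfl, one_mul]
    · intro c _ hc
      rw [hn.2 a ha, if_neg (Ne.symm hc), zero_mul]
    · intro hn
      exact (hn (Finset.mem_univ _)).elim
  have h2 : (n * l).1 0 0 = l.1 0 0 := by
    rw [mul_ap, Finset.sum_eq_single 0, hn.1, one_mul]
    · intro c _ hc
      rw [hb.1 c hc, mul_zero]
    · intro hn
      exact (hn (Finset.mem_univ _)).elim
  rw [mem_N, mul_assoc]
  constructor
  · have e : (l⁻¹ * (n * l)).1 0 0 = (l⁻¹ * l).1 0 0 := by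
      rw [mul_ap, mul_ap]
      refine Finset.sum_congr rfl fun a _ => ?_
      by_cases ha : a = 0
      · rw [ha, h2]
      · rw [h1 a ha]
    rw [e, inv_mul_cancel, one_ap, if_pos rfl]
  · intro i hi j
    have e : (l⁻¹ * (n * l)).1 i j = (l⁻¹ * l).1 i j := by
      rw [mul_ap, mul_ap]
      refine Finset.sum_congr rfl fun a _ => ?_
      by_cases ha : a = 0
      · rw [ha, hb'.1 i hi, zero_mul, zero_mul]
      · rw [h1 a ha]
    rw [e, inv_mul_cancel, one_ap]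

theorem conj_pow (t : ℕ) (g : GG k m) (i j : Fin (m + 1)) :
    (bb m hw ^ t * g * (bb m hw ^ t)⁻¹).1 i j = dd m w i ^ t * g.1 i j * (dd m w j ^ t)⁻¹ := by
  have h1 : ((bb m hw ^ t)⁻¹).1 = Matrix.diagonal fun i => (dd m w i ^ t)⁻¹ := by
    have := bb_zpow (m := m) hw (-(t : ℤ))
    rw [_root_.zpow_neg, _root_.zpow_natCast] at this
    rw [this]
    congr 1
    funext i
    rw [_root_.zpow_neg, _root_.zpow_natCast]
  have h2 : (bb m hw ^ t * g * (bb m hw ^ t)⁻¹).1 = (bb m hw ^ t).1 * g.1 * ((bb m hw ^ t)⁻¹).1 := rfl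
  rw [h2, h1, bb_pow, Matrix.mul_diagonal, Matrix.diagonal_mul]

theorem N_tendsto (hw1 : ‖w‖ < 1) {n : GG k m} (hn : n ∈ N k m) :
    Tendsto (fun t : ℕ => bb m hw ^ t * n * (bb m hw ^ t)⁻¹) atTop (𝓝 1) := by
  refine Topology.IsInducing.subtypeVal.tendsto_nhds_iff.2 ?_
  refine tendsto_pi_nhds.2 fun i => tendsto_pi_nhds.2 fun j => ?_
  have e : ∀ t : ℕ, (bb m hw ^ t * n * (bb m hw ^ t)⁻¹ : GG k m).1 i j =
      dd m w i ^ t * n.1 i j * (dd m w j ^ t)⁻¹ := fun t => conj_pow hw t n i j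
  refine Tendsto.congr (fun t => (e t).symm) ?_
  have e1 : ((1 : GG k m) : Matrix (Fin (m + 1)) (Fin (m + 1)) k) i j = if i = j then 1 else 0 :=
    one_ap i j
  rw [e1]
  by_cases hij : i = j
  · subst hij
    rw [if_pos rfl]
    have h1 : n.1 i i = 1 := by
      by_cases hi : i = 0
      · rw [hi]; exact hn.1
      · rw [hn.2 i hi, if_pos rfl]
    refine Tendsto.congr (fun t => ?_) tendsto_const_nhds
    rw [h1, mul_one, mul_inv_cancel₀ (pow_ne_zero _ (dd_ne hw i))]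
  · rw [if_neg hij]
    by_cases hi : i = 0
    · have hj : j ≠ 0 := fun h => hij (by rw [hi, h])
      have h1 : ∀ t : ℕ, dd m w i ^ t * n.1 i j * (dd m w j ^ t)⁻¹ = n.1 i j * (w ^ (m + 1)) ^ t := by
        intro t
        rw [dd, if_pos hi, dd, if_neg hj, inv_pow, inv_inv, pow_succ, mul_pow]
        ring
      simp only [h1]
      have h2 : Tendsto (fun t : ℕ => (w ^ (m + 1)) ^ t) atTop (𝓝 0) := by
        refine tendsto_pow_atTop_nhds_zero_of_norm_lt_one ?_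
        rw [norm_pow]
        exact pow_lt_one₀ (norm_nonneg _) hw1 (Nat.succ_ne_zero m)
      simpa using h2.const_mul (n.1 i j)
    · have h1 : n.1 i j = 0 := by rw [hn.2 i hi, if_neg hij]
      simp only [h1, mul_zero, zero_mul]
      exact tendsto_const_nhds

/-- **(G4)** -/
theorem G4 (hw1 : ‖w‖ < 1) {p : GG k m} (hp : p ∈ V k m) (hpy : p • (y0 : YY k m) = y0) :
    ∃ l ∈ L m hw, ∃ n ∈ N k m, p = l * n := by
  have h0 : ∀ i, i ≠ 0 → p.1 i 0 = 0 := by
    intro i hi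
    obtain ⟨i', rfl⟩ := Fin.exists_succ_eq.2 hi
    exact (H200.Coc.smul_y0_y0 p).1 hpy i'
  have hpi : (p⁻¹) • (y0 : YY k m) = y0 := by
    conv_lhs => rw [← hpy]
    rw [inv_smul_smul]
  have h0' : ∀ i, i ≠ 0 → (p⁻¹).1 i 0 = 0 := by
    intro i hi
    obtain ⟨i', rfl⟩ := Fin.exists_succ_eq.2 hi
    exact (H200.Coc.smul_y0_y0 p⁻¹).1 hpi i'
  have ha : p.1 0 0 * (p⁻¹).1 0 0 = 1 := by
    have := mul_inv_ap p 0 0
    rw [if_pos rfl, Finset.sum_eq_single 0] at this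
    · exact this
    · intro l _ hl
      rw [h0' l hl, mul_zero]
    · intro hn
      exact (hn (Finset.mem_univ _)).elim
  have ha0 : p.1 0 0 ≠ 0 := left_ne_zero_of_mul_eq_one ha
  obtain ⟨x, hx⟩ : ∃ x : Fin (m + 1) → k, ∀ j, x j = -(p.1 0 0)⁻¹ * p.1 0 j := ⟨_, fun j => rfl⟩
  obtain ⟨l, hl⟩ : ∃ l, l = p * ug x := ⟨_, rfl⟩
  have l1 : ∀ i, i ≠ 0 → ∀ j, l.1 i j = p.1 i j := by
    intro i hi j
    rw [hl, mul_ap, Finset.sum_eq_single j, ug_ap, if_pos rfl, mul_one]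
    · intro c _ hc
      rw [ug_ap, if_neg hc]
      by_cases hc0 : c = 0
      · rw [if_pos hc0, hc0, h0 i hi, zero_mul]
      · rw [if_neg hc0, mul_zero]
    · intro hn
      exact (hn (Finset.mem_univ _)).elim
  have l2 : l.1 0 0 = p.1 0 0 := by
    rw [hl, mul_ap, Finset.sum_eq_single 0, ug_ap, if_pos rfl, mul_one]
    · intro c _ hc
      rw [ug_ap, if_neg hc, if_neg hc, mul_zero]
    · intro hn
      exact (hn (Finset.mem_univ _)).elim
  have l3 : ∀ j, j ≠ 0 → l.1 0 j = 0 := by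
    intro j hj
    rw [hl, mul_ap]
    have h1 : ∀ c, p.1 0 c * (ug x).1 c j = (if c = j then p.1 0 j else 0) +
        (if c = 0 then p.1 0 0 * x j else 0) := by
      intro c
      rw [ug_ap]
      by_cases hc : c = j
      · rw [if_pos hc, if_pos hc, if_neg (fun h => hj (by rw [← hc, h])), add_zero, mul_one, hc]
      · rw [if_neg hc, if_neg hc, zero_add]
        by_cases hc0 : c = 0
        · rw [if_pos hc0, if_pos hc0, hc0]
        · rw [if_neg hc0, if_neg hc0, mul_zero]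
    simp only [h1]
    rw [Finset.sum_add_distrib, Finset.sum_ite_eq', Finset.sum_ite_eq', if_pos (Finset.mem_univ _),
      if_pos (Finset.mem_univ _), hx]
    field_simp
    ring
  have hlb : (∀ i, i ≠ 0 → l.1 i 0 = 0) ∧ ∀ j, j ≠ 0 → l.1 0 j = 0 :=
    ⟨fun i hi => by rw [l1 i hi, h0 i hi], l3⟩
  have hlb' : (∀ i, i ≠ 0 → (l⁻¹).1 i 0 = 0) ∧ ∀ j, j ≠ 0 → (l⁻¹).1 0 j = 0 := by
    have h1 := (blk_iff hw hw1 l).1 hlb
    refine (blk_iff hw hw1 l⁻¹).2 ?_
    have h2 : l⁻¹ * (l * bb m hw) * l⁻¹ = l⁻¹ * (bb m hw * l) * l⁻¹ := by rw [h1]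
    calc l⁻¹ * bb m hw = l⁻¹ * (bb m hw * l) * l⁻¹ := by group
      _ = l⁻¹ * (l * bb m hw) * l⁻¹ := h2.symm
      _ = _ := by group
  have hli : l⁻¹ = (ug x)⁻¹ * p⁻¹ := by rw [hl, _root_.mul_inv_rev]
  have hun := inv_mem (ug_mem x)
  have l4 : ∀ i, i ≠ 0 → ∀ j, (l⁻¹).1 i j = (p⁻¹).1 i j := by
    intro i hi j
    rw [hli, mul_ap, Finset.sum_eq_single i, hun.2 i hi, if_pos rfl, one_mul]
    · intro c _ hc
      rw [hun.2 i hi, if_neg (Ne.symm hc), zero_mul]
    · intro hn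
      exact (hn (Finset.mem_univ _)).elim
  have l5 : (l⁻¹).1 0 0 = (p⁻¹).1 0 0 := by
    rw [hli, mul_ap, Finset.sum_eq_single 0, hun.1, one_mul]
    · intro c _ hc
      rw [h0' c hc, mul_zero]
    · intro hn
      exact (hn (Finset.mem_univ _)).elim
  have hpV := (mem_V' p).1 hp
  refine ⟨l, ?_, (ug x)⁻¹, hun, by rw [hl]; group⟩
  rw [mem_L hw hw1]
  refine ⟨?_, hlb⟩
  rw [← mem_V, mem_V']
  constructor
  · intro i j
    by_cases hi : i = 0
    · by_cases hj : j = 0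
      · rw [hi, hj, l2]; exact hpV.1 0 0
      · rw [hi, l3 j hj, norm_zero]; exact zero_le_one
    · rw [l1 i hi]; exact hpV.1 i j
  · intro i j
    by_cases hi : i = 0
    · by_cases hj : j = 0
      · rw [hi, hj, l5]; exact hpV.2 0 0
      · rw [hi, hlb'.2 j hj, norm_zero]; exact zero_le_one
    · rw [l4 i hi]; exact hpV.2 i j

theorem diag_inv {g : GG k m} {d : Fin (m + 1) → k} (hg : g.1 = Matrix.diagonal d)
    (hd : ∀ i, d i ≠ 0) : (g⁻¹).1 = Matrix.diagonal fun i => (d i)⁻¹ := by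
  have h1 : g.1 * (g⁻¹).1 = 1 := by
    have : (g * g⁻¹).1 = 1 := by rw [mul_inv_cancel]; rfl
    exact this
  have h2 : (Matrix.diagonal fun i => (d i)⁻¹) * g.1 = 1 := by
    rw [hg, Matrix.diagonal_mul_diagonal]
    rw [← Matrix.diagonal_one]
    congr 1
    funext i
    exact inv_mul_cancel₀ (hd i)
  calc (g⁻¹).1 = ((Matrix.diagonal fun i => (d i)⁻¹) * g.1) * (g⁻¹).1 := by rw [h2, one_mul]
    _ = _ := by rw [mul_assoc, h1, mul_one]

/-- **(G3)** -/
theorem G3 (hw1 : ‖w‖ < 1) (hun : ∀ s : k, s ≠ 0 → ∃ j : ℤ, ‖s‖ = ‖w‖ ^ j) {r : GG k m}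
    (hr : r • (y0 : YY k m) = y0) (hc : cc r (y0 : YY k m) = 1) :
    ∃ l ∈ L m hw, ∃ j : ℤ, ∃ n ∈ N k m, r = l * bb m hw ^ j * n := by
  have h0 : ∀ i, i ≠ 0 → r.1 i 0 = 0 := by
    intro i hi
    obtain ⟨i', rfl⟩ := Fin.exists_succ_eq.2 hi
    exact (H200.Coc.smul_y0_y0 r).1 hr i'
  rw [H200.Coc.cc_eq] at hc
  obtain ⟨z, hz⟩ := exists_sc ((QuotientGroup.eq_one_iff _).1 hc)
  have hb : ∀ i j : Fin m, r.1 i.succ j.succ = if i = j then (z : k) else 0 := by
    intro i j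
    have h1 : (H200.Coc.bu r y0).1 i j = (sc z : (Matrix (Fin m) (Fin m) k)ˣ).1 i j := by rw [hz]
    rw [H200.Coc.bu_val, H200.Coc.blk_y0 hr, Matrix.submatrix_apply, H242.Sct.sc_val,
      Matrix.scalar_apply, Matrix.diagonal_apply] at h1
    exact h1
  have hb' : ∀ i, i ≠ 0 → ∀ j, r.1 i j = if i = j then (z : k) else 0 := by
    intro i hi j
    obtain ⟨i', rfl⟩ := Fin.exists_succ_eq.2 hi
    refine Fin.cases ?_ (fun j' => ?_) j
    · rw [h0 _ hi, if_neg hi]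
    · rw [hb]
      by_cases h : i' = j'
      · rw [if_pos h, if_pos (by rw [h])]
      · rw [if_neg h, if_neg (fun e => h (Fin.succ_injective _ e))]
  have hz0 : (z : k) ≠ 0 := z.ne_zero
  -- the determinant
  have hdet : r.1 0 0 * (z : k) ^ m = 1 := by
    have h1 : r.1.BlockTriangular id := by
      intro i j hij
      have hij' : j < i := hij
      rw [hb' i (Fin.pos_iff_ne_zero.1 (lt_of_le_of_lt (Fin.zero_le j) hij')), if_neg hij'.ne']
    have h2 := Matrix.det_of_upperTriangular h1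
    rw [r.2, Fin.prod_univ_succ] at h2
    refine Eq.trans ?_ h2.symm
    congr 1
    rw [Finset.prod_congr rfl (fun i _ => (hb i i).trans (if_pos rfl)), Finset.prod_const,
      Finset.card_univ, Fintype.card_fin]
  obtain ⟨j', hj'⟩ := hun z hz0
  obtain ⟨j, hj⟩ : ∃ j, j = -j' := ⟨_, rfl⟩
  obtain ⟨u, hu⟩ : ∃ u : k, u = z * w ^ j := ⟨_, rfl⟩
  have hwj : w ^ j ≠ 0 := zpow_ne_zero _ hw
  have hu0 : u ≠ 0 := by rw [hu]; exact mul_ne_zero hz0 hwj
  have hu1 : ‖u‖ = 1 := by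
    rw [hu, norm_mul, norm_zpow, hj', hj, ← zpow_add₀ (norm_ne_zero_iff.2 hw), add_neg_cancel,
      zpow_zero]
  have hui : u⁻¹ ≠ 0 := inv_ne_zero hu0
  obtain ⟨l, hl⟩ : ∃ l : GG k m, l = bb m hui := ⟨_, rfl⟩
  have hlv : l.1 = Matrix.diagonal (dd m u⁻¹) := by rw [hl, bb_val]
  have hln : ∀ i, ‖dd m u⁻¹ i‖ = 1 := by
    intro i
    unfold dd
    split_ifs
    · rw [norm_pow, norm_inv, hu1, inv_one, one_pow]
    · rw [inv_inv, hu1]
  have hld : ∀ i, dd m u⁻¹ i ≠ 0 := fun i => dd_ne hui i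
  have hlL : l ∈ L m hw := by
    rw [mem_L', mem_V']
    refine ⟨⟨fun a b => ?_, fun a b => ?_⟩, ?_⟩
    · rw [hlv, Matrix.diagonal_apply]
      split_ifs
      · exact (hln a).le
      · rw [norm_zero]; exact zero_le_one
    · rw [diag_inv hlv hld, Matrix.diagonal_apply]
      split_ifs
      · rw [norm_inv, hln, inv_one]
      · rw [norm_zero]; exact zero_le_one
    · refine (blk_iff hw hw1 l).1 ⟨fun i hi => ?_, fun i hi => ?_⟩
      · rw [hlv, Matrix.diagonal_apply_ne _ hi]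
      · rw [hlv, Matrix.diagonal_apply_ne _ (Ne.symm hi)]
  obtain ⟨D, hD⟩ : ∃ D : GG k m, D = l * bb m hw ^ j := ⟨_, rfl⟩
  have hDv : D.1 = Matrix.diagonal fun i => dd m u⁻¹ i * dd m w i ^ j := by
    have e : D.1 = l.1 * (bb m hw ^ j).1 := by rw [hD]; rfl
    rw [e, hlv, bb_zpow, Matrix.diagonal_mul_diagonal]
  have hd0 : dd m u⁻¹ 0 * dd m w 0 ^ j = r.1 0 0 := by
    have e1 : dd m u⁻¹ 0 * dd m w 0 ^ j = ((z : k) ^ m)⁻¹ := by
      rw [dd, if_pos rfl, dd, if_pos rfl, hu, inv_pow, mul_pow, ← _root_.zpow_natCast (w ^ j) m,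
        ← _root_.zpow_natCast w m, ← _root_.zpow_mul, ← _root_.zpow_mul, mul_comm (m : ℤ) j]
      have : w ^ (j * (m : ℤ)) ≠ 0 := zpow_ne_zero _ hw
      field_simp
    rw [e1]
    exact (eq_inv_of_mul_eq_one_left hdet).symm
  have hds : ∀ i, i ≠ 0 → dd m u⁻¹ i * dd m w i ^ j = z := by
    intro i hi
    rw [dd, if_neg hi, dd, if_neg hi, hu, inv_inv, _root_.inv_zpow]
    field_simp
  have hne : ∀ i, dd m u⁻¹ i * dd m w i ^ j ≠ 0 := fun i =>
    mul_ne_zero (hld i) (zpow_ne_zero _ (dd_ne hw i))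
  refine ⟨l, hlL, j, D⁻¹ * r, ?_, by rw [← hD]; group⟩
  have hv : ∀ a b, (D⁻¹ * r).1 a b = (dd m u⁻¹ a * dd m w a ^ j)⁻¹ * r.1 a b := by
    intro a b
    have e : (D⁻¹ * r).1 = (D⁻¹).1 * r.1 := rfl
    rw [e, diag_inv hDv hne, Matrix.diagonal_mul]
  have hr0 : r.1 0 0 ≠ 0 := left_ne_zero_of_mul_eq_one hdet
  refine ⟨?_, fun i hi b => ?_⟩
  · rw [hv, hd0, inv_mul_cancel₀ hr0]
  · rw [hv, hds i hi, hb' i hi]
    split_ifs
    · exact inv_mul_cancel₀ hz0
    · rw [mul_zero]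

/-- the same as in the list -/
theorem exists_G4 (hw1 : ‖w‖ < 1) : ∃ V : Subgroup (GG k m), IsOpen (V : Set (GG k m)) ∧
    ∀ p ∈ V, p • (y0 : YY k m) = y0 → ∃ l ∈ L m hw, ∃ n ∈ N k m, p = l * n :=
  ⟨V k m, isOpen_V, fun p hp hpy => G4 hw hw1 hp hpy⟩

end fin

end Vale.Agent.P092.H264.GrpC
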