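import Vale.Agent.P092.H828.EndCore
import Vale.Agent.P092.H866.Cpt

/-!
P092 (helper264), [END-T], abstract part: a family of selfadjoint operators `T s`, commuting for
almost every pair together with their translates, each one annihilated by its own translates, and
permuted by the source group, gives OVERLAP of the source representation with the target
representation. The target representation has any finite Parseval family (all amplifications).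
-/

set_option linter.all false

open scoped InnerProductSpace
open Filter Topology ContinuousLinearMap MeasureTheory

namespace Vale.Agent.P092.H264.Amp

open Vale.Agent.P092.H828

section vec

variable {E : Type} [NormedAddCommGroup E] [InnerProductSpace ℂ E] [CompleteSpace E]
variable {X : Type} [Group X] {R : X → (E →L[ℂ] E)} {ι : Type} [Fintype ι] {ξ : ι → E}

/-- A unitary representation with a finite Parseval family. -/
structure Pars (R : X → (E →L[ℂ] E)) (ξ : ι → E) : Prop extends URep R where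
  frame : ∀ η : E, HasSum (fun p : ι × X => ‖⟪R p.2 (ξ p.1), η⟫_ℂ‖ ^ 2) (‖η‖ ^ 2)

/-- the translates of `T` annihilate `T` -/
def Orth (R : X → (E →L[ℂ] E)) (T : E →L[ℂ] E) : Prop :=
  ∀ x, x ≠ 1 → T * (R x * T * R x⁻¹) = 0

theorem inv_ap (h : URep R) (x : X) (u : E) : R x⁻¹ (R x u) = u := by
  have := congrArg (fun S : E →L[ℂ] E => S u) (h.mul x⁻¹ x)
  rw [inv_mul_cancel, h.one] at this
  exact this.symm

theorem ap_inv (h : URep R) (x : X) (u : E) : R x (R x⁻¹ u) = u := by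
  have := congrArg (fun S : E →L[ℂ] E => S u) (h.mul x x⁻¹)
  rw [mul_inv_cancel, h.one] at this
  exact this.symm

theorem mul_app (h : URep R) (x y : X) (u : E) : R (x * y) u = R x (R y u) := by
  rw [h.mul]; rfl

theorem inner_l (h : URep R) (x : X) (u v : E) : ⟪R x u, v⟫_ℂ = ⟪u, R x⁻¹ v⟫_ℂ := by
  rw [← h.adj, adjoint_inner_right]

theorem inner_r (h : URep R) (x : X) (u v : E) : ⟪u, R x v⟫_ℂ = ⟪R x⁻¹ u, v⟫_ℂ := by
  rw [← h.adj, adjoint_inner_left]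

theorem nrm (h : URep R) (x : X) (u : E) : ‖R x u‖ = ‖u‖ := by
  have h1 : ⟪R x u, R x u⟫_ℂ = ⟪u, u⟫_ℂ := by rw [inner_l h, inv_ap h]
  rw [inner_self_eq_norm_sq_to_K, inner_self_eq_norm_sq_to_K] at h1
  have h2 : ‖R x u‖ ^ 2 = ‖u‖ ^ 2 := by exact_mod_cast h1
  exact (pow_left_inj₀ (norm_nonneg _) (norm_nonneg _) two_ne_zero).mp h2

theorem Orth.ap (h : URep R) {T : E →L[ℂ] E} (hT : Orth R T) {x : X} (hx : x ≠ 1) (v : E) :
    T (R x (T v)) = 0 := by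
  have h1 := congrArg (fun S : E →L[ℂ] E => S (R x v)) (hT x hx)
  have h2 : T (R x (T (R x⁻¹ (R x v)))) = 0 := h1
  rwa [inv_ap h] at h2

/-- orthogonality of the translates of the range -/
theorem Orth.inner (h : URep R) {T : E →L[ℂ] E} (hTa : adjoint T = T) (hT : Orth R T) {x y : X}
    (hxy : x ≠ y) (u v : E) : ⟪R x⁻¹ (T u), R y⁻¹ (T v)⟫_ℂ = 0 := by
  rw [inner_l h, inv_inv, ← mul_app h, ← hTa, adjoint_inner_left, hTa,
    hT.ap h (fun e => hxy (by rwa [mul_inv_eq_one] at e)), inner_zero_right]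

theorem sum_le (h : URep R) {T : E →L[ℂ] E} (hTa : adjoint T = T) (hT : Orth R T)
    (F : Finset X) (u : E) : ∑ x ∈ F, ‖T (R x u)‖ ^ 2 ≤ ‖T‖ ^ 2 * ‖u‖ ^ 2 := by
  classical
  set Q : ℝ := ∑ x ∈ F, ‖T (R x u)‖ ^ 2 with hQ
  have hQ0 : 0 ≤ Q := Finset.sum_nonneg fun x _ => sq_nonneg _
  set b : E := ∑ x ∈ F, R x⁻¹ (T (T (R x u))) with hb
  have h1 : ⟪b, u⟫_ℂ = (Q : ℂ) := by
    rw [hb, sum_inner, hQ, Complex.ofReal_sum]
    refine Finset.sum_congr rfl fun x _ => ?_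
    rw [inner_l h, inv_inv, ← adjoint_inner_right, hTa, inner_self_eq_norm_sq_to_K]
    norm_cast
  have h2 : ‖b‖ ^ 2 ≤ ‖T‖ ^ 2 * Q := by
    have e1 : ‖b‖ ^ 2 = ∑ x ∈ F, ‖T (T (R x u))‖ ^ 2 := by
      have e2 : ((‖b‖ ^ 2 : ℝ) : ℂ) = ((∑ x ∈ F, ‖T (T (R x u))‖ ^ 2 : ℝ) : ℂ) := by
        have e3 : ((‖b‖ ^ 2 : ℝ) : ℂ) = ⟪b, b⟫_ℂ := by
          rw [inner_self_eq_norm_sq_to_K]; norm_cast
        rw [e3]
        nth_rewrite 1 [hb]
        rw [sum_inner, Complex.ofReal_sum]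
        refine Finset.sum_congr rfl fun x hx => ?_
        rw [hb, inner_sum, Finset.sum_eq_single x]
        · rw [inner_self_eq_norm_sq_to_K, nrm h]
          norm_cast
        · intro y _ hy
          exact hT.inner h hTa (Ne.symm hy) _ _
        · intro hn
          exact (hn hx).elim
      exact_mod_cast e2
    rw [e1, hQ, Finset.mul_sum]
    refine Finset.sum_le_sum fun x _ => ?_
    rw [← mul_pow]
    exact pow_le_pow_left₀ (norm_nonneg _) (T.le_opNorm _) 2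
  have h3 : Q ≤ ‖b‖ * ‖u‖ := by
    have e1 : Q = ‖⟪b, u⟫_ℂ‖ := by
      rw [h1, Complex.norm_real, Real.norm_eq_abs, abs_of_nonneg hQ0]
    rw [e1]
    exact norm_inner_le_norm _ _
  have h4 : Q * Q ≤ (‖T‖ ^ 2 * ‖u‖ ^ 2) * Q := by
    calc Q * Q ≤ (‖b‖ * ‖u‖) * (‖b‖ * ‖u‖) := mul_self_le_mul_self hQ0 h3
      _ = ‖b‖ ^ 2 * ‖u‖ ^ 2 := by ring
      _ ≤ (‖T‖ ^ 2 * Q) * ‖u‖ ^ 2 := by gcongr
      _ = _ := by ring
  rcases hQ0.eq_or_lt with h5 | h5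
  · rw [← h5]; positivity
  · exact le_of_mul_le_mul_right h4 h5

theorem sum_pair_le (h : URep R) {T : E →L[ℂ] E} (hTa : adjoint T = T) (hT : Orth R T)
    (ξ : ι → E) (F : Finset (ι × X)) :
    ∑ p ∈ F, ‖T (R p.2 (ξ p.1))‖ ^ 2 ≤ ‖T‖ ^ 2 * ∑ i, ‖ξ i‖ ^ 2 := by
  classical
  have h1 : F ⊆ Finset.univ ×ˢ F.image Prod.snd := fun p hp =>
    Finset.mem_product.2 ⟨Finset.mem_univ _, Finset.mem_image_of_mem _ hp⟩
  calc ∑ p ∈ F, ‖T (R p.2 (ξ p.1))‖ ^ 2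
      ≤ ∑ p ∈ Finset.univ ×ˢ F.image Prod.snd, ‖T (R p.2 (ξ p.1))‖ ^ 2 :=
        Finset.sum_le_sum_of_subset_of_nonneg h1 fun _ _ _ => sq_nonneg _
    _ = ∑ i, ∑ x ∈ F.image Prod.snd, ‖T (R x (ξ i))‖ ^ 2 := Finset.sum_product _ _ _
    _ ≤ ∑ i, ‖T‖ ^ 2 * ‖ξ i‖ ^ 2 := Finset.sum_le_sum fun i _ => sum_le h hTa hT _ _
    _ = _ := by rw [Finset.mul_sum]

/-- **compactness** -/
theorem compact_of_orth (h : Pars R ξ) {T : E →L[ℂ] E} (hTa : adjoint T = T) (hT : Orth R T) :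
    IsCompactOperator T := by
  refine H866.compact_of_sums T (‖T‖ ^ 2 * ∑ i, ‖ξ i‖ ^ 2) fun n ζ hζ => ?_
  have h1 : HasSum (fun p : ι × X => ∑ a, ‖⟪R p.2 (ξ p.1), T (ζ a)⟫_ℂ‖ ^ 2)
      (∑ a, ‖T (ζ a)‖ ^ 2) := hasSum_sum fun a _ => h.frame _
  refine hasSum_le_of_sum_le h1 fun F => ?_
  refine le_trans (Finset.sum_le_sum fun p _ => ?_) (sum_pair_le h.toURep hTa hT ξ F)
  have h2 : ∀ a, ⟪R p.2 (ξ p.1), T (ζ a)⟫_ℂ = (starRingEnd ℂ) ⟪ζ a, T (R p.2 (ξ p.1))⟫_ℂ := by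
    intro a
    rw [inner_conj_symm]
    nth_rewrite 1 [← hTa]
    exact adjoint_inner_right T _ _
  simp only [h2, RCLike.norm_conj]
  exact hζ.sum_inner_products_le _

/-- **Bessel** for the translates of finitely many vectors -/
theorem card_le (h : Pars R ξ) {m : ℕ} {ζ : Fin m → E} (h1 : ∀ j, ‖ζ j‖ = 1)
    (h2 : ∀ i j x, (i ≠ j ∨ x ≠ 1) → ⟪ζ i, R x (ζ j)⟫_ℂ = 0) : (m : ℝ) ≤ ∑ i, ‖ξ i‖ ^ 2 := by
  classical
  have hU := h.toURep
  have e1 : (m : ℝ) = ∑ j, ‖ζ j‖ ^ 2 := by simp [h1]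
  rw [e1]
  have h3 : HasSum (fun p : ι × X => ∑ j, ‖⟪R p.2 (ξ p.1), ζ j⟫_ℂ‖ ^ 2)
      (∑ j, ‖ζ j‖ ^ 2) := hasSum_sum fun a _ => h.frame _
  refine hasSum_le_of_sum_le h3 fun F => ?_
  have h4 : F ⊆ Finset.univ ×ˢ F.image Prod.snd := fun p hp =>
    Finset.mem_product.2 ⟨Finset.mem_univ _, Finset.mem_image_of_mem _ hp⟩
  have hon : Orthonormal ℂ (fun q : X × Fin m => R q.1⁻¹ (ζ q.2)) := by
    rw [orthonormal_iff_ite]
    rintro ⟨x, i⟩ ⟨y, j⟩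
    simp only
    rw [inner_l hU, inv_inv, ← mul_app hU]
    split_ifs with hc
    · rw [Prod.mk.injEq] at hc
      rw [hc.1, hc.2, mul_inv_cancel, hU.one]
      change ⟪ζ j, ζ j⟫_ℂ = 1
      rw [inner_self_eq_norm_sq_to_K, h1]; simp
    · refine h2 i j _ ?_
      by_contra hcon
      push Not at hcon
      refine hc (Prod.ext ?_ hcon.1)
      exact mul_inv_eq_one.1 hcon.2
  calc ∑ p ∈ F, ∑ j, ‖⟪R p.2 (ξ p.1), ζ j⟫_ℂ‖ ^ 2
      ≤ ∑ p ∈ Finset.univ ×ˢ F.image Prod.snd, ∑ j, ‖⟪R p.2 (ξ p.1), ζ j⟫_ℂ‖ ^ 2 :=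
        Finset.sum_le_sum_of_subset_of_nonneg h4 fun _ _ _ =>
          Finset.sum_nonneg fun _ _ => sq_nonneg _
    _ = ∑ i, ∑ x ∈ F.image Prod.snd, ∑ j, ‖⟪R x (ξ i), ζ j⟫_ℂ‖ ^ 2 := Finset.sum_product _ _ _
    _ ≤ ∑ i, ‖ξ i‖ ^ 2 := by
        refine Finset.sum_le_sum fun i _ => ?_
        have e2 : ∑ x ∈ F.image Prod.snd, ∑ j, ‖⟪R x (ξ i), ζ j⟫_ℂ‖ ^ 2 =
            ∑ q ∈ (F.image Prod.snd) ×ˢ (Finset.univ : Finset (Fin m)),
              ‖⟪R q.1⁻¹ (ζ q.2), ξ i⟫_ℂ‖ ^ 2 := by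
          rw [Finset.sum_product]
          refine Finset.sum_congr rfl fun x _ => Finset.sum_congr rfl fun j _ => ?_
          simp only
          rw [inner_l hU, ← RCLike.norm_conj, inner_conj_symm]
        rw [e2]
        exact hon.sum_inner_products_le _

/-- a common vector of two eigenspaces of commuting selfadjoint operators -/
theorem common_vec {A B : E →L[ℂ] E} (hA : adjoint A = A) (hB : adjoint B = B)
    (hc : A * B = B * A) {s t : ℂ} {a b : E} (ha : A a = s • a) (hb : B b = t • b)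
    (hab : ⟪a, b⟫_ℂ ≠ 0) : ∃ u, ‖u‖ = 1 ∧ A u = s • u ∧ B u = t • u := by
  have hcm : ∀ v, A (B v) = B (A v) := fun v => congrArg (fun S : E →L[ℂ] E => S v) hc
  obtain ⟨M, hM⟩ : ∃ M : Submodule ℂ E, M = LinearMap.ker (A - s • (1 : E →L[ℂ] E)).toLinearMap :=
    ⟨_, rfl⟩
  have hmem : ∀ v, v ∈ M ↔ A v = s • v := by
    intro v
    rw [hM, LinearMap.mem_ker]
    change A v - s • v = 0 ↔ _
    rw [sub_eq_zero]
  have hcl : IsClosed (M : Set E) := by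
    have : (M : Set E) = {v | A v = s • v} := Set.ext fun v => hmem v
    rw [this]
    exact isClosed_eq A.continuous (continuous_const_smul s)
  haveI : CompleteSpace M := hcl.completeSpace_coe
  haveI : M.HasOrthogonalProjection := inferInstance
  obtain ⟨u, hu⟩ : ∃ u, u = M.starProjection b := ⟨_, rfl⟩
  have hu1 : u ∈ M := by rw [hu]; exact Submodule.starProjection_apply_mem _ _
  have hq : b - u ∈ Mᗮ := by rw [hu]; exact Submodule.sub_starProjection_mem_orthogonal _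
  have hBu : B u ∈ M := (hmem _).2 (by rw [hcm, (hmem _).1 hu1, map_smul])
  have hBq : B (b - u) ∈ Mᗮ := by
    rw [Submodule.mem_orthogonal]
    intro v hv
    rw [← adjoint_inner_left, hB]
    exact (Submodule.mem_orthogonal _ _).1 hq _ ((hmem _).2 (by rw [hcm, (hmem _).1 hv, map_smul]))
  have h1 : B u - t • u = t • (b - u) - B (b - u) := by
    have e : B b = B u + B (b - u) := by rw [← map_add]; congr 1; abel
    rw [hb] at e
    have e2 : t • b = t • u + t • (b - u) := by rw [← smul_add]; congr 1; abel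
    rw [e2] at e
    have e3 : B u - t • u = (B u + B (b - u)) - t • u - B (b - u) := by abel
    rw [e3, ← e]
    abel
  have h2 : B u - t • u ∈ M := M.sub_mem hBu (M.smul_mem _ hu1)
  have h3 : B u - t • u ∈ Mᗮ := by
    rw [h1]; exact Mᗮ.sub_mem (Mᗮ.smul_mem _ hq) hBq
  have h4 : B u - t • u = 0 := by
    have := (Submodule.mem_orthogonal _ _).1 h3 _ h2
    exact inner_self_eq_zero.1 this
  have h5 : u ≠ 0 := by
    intro h0
    apply hab
    have := (Submodule.mem_orthogonal _ _).1 hq a ((hmem _).2 ha)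
    rwa [h0, sub_zero] at this
  have h6 : ‖u‖ ≠ 0 := norm_ne_zero_iff.2 h5
  refine ⟨((‖u‖⁻¹ : ℝ) : ℂ) • u, ?_, ?_, ?_⟩
  · rw [norm_smul, Complex.norm_real, norm_inv, norm_norm, inv_mul_cancel₀ h6]
  · rw [map_smul, (hmem _).1 hu1, smul_comm]
  · rw [map_smul, sub_eq_zero.1 h4, smul_comm]

/-- **overlap** of two isometries which share a vector of a finite-dimensional space -/
theorem overlap_fin (N : Submodule ℂ E) [FiniteDimensional ℂ N] {U W : E →L[ℂ] E} {a b : E}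
    (ha : a ∈ N) (hb : b ∈ N) (h : U a = W b) (ha1 : ‖a‖ ≤ 1) (hb1 : ‖b‖ ≤ 1) (hn : ‖U a‖ = 1) :
    ∃ k l : Fin (Module.finrank ℂ N), 1 / ((Module.finrank ℂ N : ℝ) + 1) ^ 2 ≤
      ‖⟪U (stdOrthonormalBasis ℂ N k : N), W (stdOrthonormalBasis ℂ N l : N)⟫_ℂ‖ := by
  set r := Module.finrank ℂ N with hr
  set e := stdOrthonormalBasis ℂ N with he
  by_contra hcon
  push Not at hcon
  have h1 : a = ∑ k, ⟪(e k : E), a⟫_ℂ • (e k : E) := by
    have := e.sum_repr' ⟨a, ha⟩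
    have h2 := congrArg (fun v : N => (v : E)) this
    simpa using h2.symm
  have h2 : b = ∑ k, ⟪(e k : E), b⟫_ℂ • (e k : E) := by
    have := e.sum_repr' ⟨b, hb⟩
    have h2 := congrArg (fun v : N => (v : E)) this
    simpa using h2.symm
  have hen : ∀ k, ‖(e k : E)‖ = 1 := fun k => e.orthonormal.1 k
  have ca : ∀ k, ‖⟪(e k : E), a⟫_ℂ‖ ≤ 1 := fun k => by
    refine (norm_inner_le_norm _ _).trans ?_
    rw [hen, one_mul]; exact ha1
  have cb : ∀ k, ‖⟪(e k : E), b⟫_ℂ‖ ≤ 1 := fun k => by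
    refine (norm_inner_le_norm _ _).trans ?_
    rw [hen, one_mul]; exact hb1
  have h3 : ⟪U a, W b⟫_ℂ = 1 := by
    rw [← h, inner_self_eq_norm_sq_to_K, hn]; simp
  have h4 : ⟪U a, W b⟫_ℂ = ∑ k, ∑ l, (starRingEnd ℂ) ⟪(e k : E), a⟫_ℂ *
      (⟪(e l : E), b⟫_ℂ * ⟪U (e k : E), W (e l : E)⟫_ℂ) := by
    nth_rewrite 1 [h1]
    nth_rewrite 1 [h2]
    rw [map_sum, map_sum, sum_inner]
    refine Finset.sum_congr rfl fun k _ => ?_
    rw [inner_sum]
    refine Finset.sum_congr rfl fun l _ => ?_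
    rw [map_smul, map_smul, inner_smul_left, inner_smul_right]
  have h5 : (1 : ℝ) ≤ ∑ k : Fin r, ∑ l : Fin r, 1 / ((r : ℝ) + 1) ^ 2 := by
    have e1 : (1 : ℝ) = ‖⟪U a, W b⟫_ℂ‖ := by rw [h3]; simp
    refine e1.le.trans ?_
    rw [h4]
    refine (norm_sum_le _ _).trans (Finset.sum_le_sum fun k _ => ?_)
    refine (norm_sum_le _ _).trans (Finset.sum_le_sum fun l _ => ?_)
    rw [norm_mul, norm_mul, RCLike.norm_conj]
    calc ‖⟪(e k : E), a⟫_ℂ‖ * (‖⟪(e l : E), b⟫_ℂ‖ * ‖⟪U (e k : E), W (e l : E)⟫_ℂ‖)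
        ≤ 1 * (1 * (1 / ((r : ℝ) + 1) ^ 2)) := by
          refine mul_le_mul (ca k) ?_ (by positivity) zero_le_one
          exact mul_le_mul (cb l) (hcon k l).le (norm_nonneg _) zero_le_one
      _ = _ := by ring
  simp only [Finset.sum_const, Finset.card_univ, Fintype.card_fin, nsmul_eq_mul] at h5
  have h6 : (r : ℝ) * (r * (1 / ((r : ℝ) + 1) ^ 2)) < 1 := by
    have hp : (0 : ℝ) < ((r : ℝ) + 1) ^ 2 := by positivity
    rw [show (r : ℝ) * (r * (1 / ((r : ℝ) + 1) ^ 2)) = (r * r) / ((r : ℝ) + 1) ^ 2 by ring,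
      div_lt_one hp]
    have : (0 : ℝ) ≤ r := Nat.cast_nonneg _
    nlinarith
  linarith

end vec

section meas

variable {E : Type} [NormedAddCommGroup E] [InnerProductSpace ℂ E] [CompleteSpace E]
variable {X Λ : Type} [Group X] [Group Λ] [Countable Λ] {R : X → (E →L[ℂ] E)} {ι : Type}
  [Fintype ι] {ξ : ι → E}
variable {S : Type*} [MeasurableSpace S] {ν : Measure S}

/-- a good point of the family -/
structure Gd (ν : Measure S) (R : X → (E →L[ℂ] E)) (T : S → (E →L[ℂ] E)) (s : S) : Prop where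
  sa : adjoint (T s) = T s
  orth : Orth R (T s)
  cm : ∀ᵐ s' ∂ν, ∀ x, T s' * (R x * T s * R x⁻¹) = (R x * T s * R x⁻¹) * T s'

/-- a system of mutually orthogonal eigenspaces -/
structure IsSys (ν : Measure S) (R : X → (E →L[ℂ] E)) (T : S → (E →L[ℂ] E)) {m : ℕ}
    (s : Fin m → S) (μ : Fin m → ℂ) : Prop where
  gd : ∀ j, Gd ν R T (s j)
  ne : ∀ j, μ j ≠ 0
  ex : ∀ j, ∃ u, u ≠ 0 ∧ T (s j) u = μ j • u
  or : ∀ i j, i ≠ j → ∀ x a b, T (s i) a = μ i • a → T (s j) b = μ j • b → ⟪a, R x b⟫_ℂ = 0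

theorem IsSys.le (h : Pars R ξ) {T : S → (E →L[ℂ] E)} {m : ℕ} {s : Fin m → S} {μ : Fin m → ℂ}
    (hs : IsSys ν R T s μ) : (m : ℝ) ≤ ∑ i, ‖ξ i‖ ^ 2 := by
  have hU := h.toURep
  have h1 : ∀ j, ∃ u, ‖u‖ = 1 ∧ T (s j) u = μ j • u := by
    intro j
    obtain ⟨u, hu, hu2⟩ := hs.ex j
    have h6 : ‖u‖ ≠ 0 := norm_ne_zero_iff.2 hu
    refine ⟨((‖u‖⁻¹ : ℝ) : ℂ) • u, ?_, ?_⟩
    · rw [norm_smul, Complex.norm_real, norm_inv, norm_norm, inv_mul_cancel₀ h6]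
    · rw [map_smul, hu2, smul_comm]
  choose ζ hζ1 hζ2 using h1
  refine card_le h hζ1 fun i j x hx => ?_
  by_cases hij : i = j
  · subst hij
    have hx1 : x ≠ 1 := by
      rcases hx with hx | hx
      · exact (hx rfl).elim
      · exact hx
    have h2 : ζ i = (μ i)⁻¹ • T (s i) (ζ i) := by
      rw [hζ2, smul_smul, inv_mul_cancel₀ (hs.ne i), one_smul]
    have h3 : ⟪T (s i) (ζ i), R x (T (s i) (ζ i))⟫_ℂ = 0 := by
      nth_rewrite 1 [← (hs.gd i).sa]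
      rw [adjoint_inner_left, (hs.gd i).orth.ap hU hx1, inner_zero_right]
    rw [h2, map_smul, inner_smul_left, inner_smul_right, h3, mul_zero, mul_zero]
  · exact hs.or i j hij x _ _ (hζ2 i) (hζ2 j)

/-- there is a maximal system -/
theorem exists_max (h : Pars R ξ) (T : S → (E →L[ℂ] E)) :
    ∃ (m : ℕ) (s : Fin m → S) (μ : Fin m → ℂ), IsSys ν R T s μ ∧
      ∀ (s' : Fin (m + 1) → S) (μ' : Fin (m + 1) → ℂ), ¬ IsSys ν R T s' μ' := by
  by_contra hcon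
  push Not at hcon
  have h1 : ∀ m : ℕ, ∃ (s : Fin m → S) (μ : Fin m → ℂ), IsSys ν R T s μ := by
    intro m
    induction m with
    | zero => exact ⟨Fin.elim0, Fin.elim0, ⟨fun j => j.elim0, fun j => j.elim0, fun j => j.elim0,
        fun j => j.elim0⟩⟩
    | succ m ih =>
      obtain ⟨s, μ, hs⟩ := ih
      exact hcon m s μ hs
  obtain ⟨m, hm⟩ := exists_nat_gt (∑ i, ‖ξ i‖ ^ 2)
  obtain ⟨s, μ, hs⟩ := h1 m
  exact absurd (hs.le h) (not_le.2 hm)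

/-- **[END-T], abstract form.** -/
theorem overlap_abs (h : Pars R ξ) {V : Λ → (E →L[ℂ] E)} (hV : URep V) (act : Λ → S → S)
    (hq : ∀ v, Measure.QuasiMeasurePreserving (act v) ν ν) {T : S → (E →L[ℂ] E)}
    (hTa : ∀ᵐ s ∂ν, adjoint (T s) = T s) (hT0 : ¬ ∀ᵐ s ∂ν, T s = 0)
    (hTo : ∀ᵐ s ∂ν, Orth R (T s))
    (hTV : ∀ v, ∀ᵐ s ∂ν, T (act v s) = V v * T s * V v⁻¹)
    (hTc : ∀ᵐ s ∂ν, ∀ᵐ s' ∂ν, ∀ x, T s' * (R x * T s * R x⁻¹) = (R x * T s * R x⁻¹) * T s') :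
    ∃ (r : ℕ) (η : Fin r → E) (κ : ℝ), 0 < κ ∧
      ∀ v, ∃ i j x, κ ≤ ‖⟪V v (η i), R x (η j)⟫_ℂ‖ := by
  have hU := h.toURep
  have hG : ∀ᵐ s ∂ν, Gd ν R T s := by
    filter_upwards [hTa, hTo, hTc] with s h1 h2 h3
    exact ⟨h1, h2, h3⟩
  obtain ⟨m, s, μ, hs, hmax⟩ := exists_max (ν := ν) h T
  -- maximality
  have hC : ∀ᵐ t ∂ν, ∀ μ₀ : ℂ, μ₀ ≠ 0 → ∀ u, u ≠ 0 → T t u = μ₀ • u →
      ∃ x j a b, T t a = μ₀ • a ∧ T (s j) b = μ j • b ∧ ⟪a, R x b⟫_ℂ ≠ 0 := by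
    filter_upwards [hG] with t ht μ₀ hμ u hu hu2
    by_contra hn
    push Not at hn
    refine hmax (Fin.cons t s) (Fin.cons μ₀ μ) ⟨?_, ?_, ?_, ?_⟩
    · intro j
      refine Fin.cases ?_ (fun j => ?_) j
      · exact ht
      · exact hs.gd j
    · intro j
      refine Fin.cases ?_ (fun j => ?_) j
      · exact hμ
      · exact hs.ne j
    · intro j
      refine Fin.cases ?_ (fun j => ?_) j
      · exact ⟨u, hu, hu2⟩
      · exact hs.ex j
    · intro i j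
      refine Fin.cases ?_ (fun i => ?_) i
      · refine Fin.cases ?_ (fun j => ?_) j
        · intro hne
          exact (hne rfl).elim
        · intro _ x a b ha hb
          simp only [Fin.cons_zero, Fin.cons_succ] at ha hb
          exact hn x j a b ha hb
      · refine Fin.cases ?_ (fun j => ?_) j
        · intro _ x a b ha hb
          simp only [Fin.cons_zero, Fin.cons_succ] at ha hb
          rw [inner_r hU, ← inner_conj_symm, hn x⁻¹ i b a hb ha, map_zero]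
        · intro hne x a b ha hb
          simp only [Fin.cons_succ] at ha hb
          exact hs.or i j (fun e => hne (by rw [e])) x a b ha hb
  have hCm : ∀ᵐ t ∂ν, ∀ j x, T t * (R x * T (s j) * R x⁻¹) = (R x * T (s j) * R x⁻¹) * T t := by
    rw [ae_all_iff]
    intro j
    exact (hs.gd j).cm
  -- a good point
  have hall : ∀ᵐ t ∂ν, (Gd ν R T t) ∧ ∀ v, (T (act v t) = V v * T t * V v⁻¹) ∧
      (Gd ν R T (act v t)) ∧
      (∀ μ₀ : ℂ, μ₀ ≠ 0 → ∀ u, u ≠ 0 → T (act v t) u = μ₀ • u →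
        ∃ x j a b, T (act v t) a = μ₀ • a ∧ T (s j) b = μ j • b ∧ ⟪a, R x b⟫_ℂ ≠ 0) ∧
      ∀ j x, T (act v t) * (R x * T (s j) * R x⁻¹) = (R x * T (s j) * R x⁻¹) * T (act v t) := by
    refine hG.and (ae_all_iff.2 fun v => ?_)
    filter_upwards [hTV v, (hq v).ae hG, (hq v).ae hC, (hq v).ae hCm] with t h1 h2 h3 h4
    exact ⟨h1, h2, h3, h4⟩
  obtain ⟨t, ht0, htG, htv⟩ : ∃ t, T t ≠ 0 ∧ (Gd ν R T t) ∧ ∀ v,
      (T (act v t) = V v * T t * V v⁻¹) ∧ (Gd ν R T (act v t)) ∧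
      (∀ μ₀ : ℂ, μ₀ ≠ 0 → ∀ u, u ≠ 0 → T (act v t) u = μ₀ • u →
        ∃ x j a b, T (act v t) a = μ₀ • a ∧ T (s j) b = μ j • b ∧ ⟪a, R x b⟫_ℂ ≠ 0) ∧
      ∀ j x, T (act v t) * (R x * T (s j) * R x⁻¹) = (R x * T (s j) * R x⁻¹) * T (act v t) := by
    by_contra hn
    push Not at hn
    refine hT0 ?_
    filter_upwards [hall] with t ht
    by_contra h0
    obtain ⟨v, hv⟩ := hn t h0 ht.1
    obtain ⟨j, x, hjx⟩ := hv (ht.2 v).1 (ht.2 v).2.1 (ht.2 v).2.2.1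
    exact hjx ((ht.2 v).2.2.2 j x)
  -- an eigenvalue
  have hsym : ∀ {A : E →L[ℂ] E}, adjoint A = A → (A : E →ₗ[ℂ] E).IsSymmetric := by
    intro A hA u v
    change ⟪A u, v⟫_ℂ = ⟪u, A v⟫_ℂ
    rw [← adjoint_inner_right, hA]
  have hcomp := compact_of_orth h htG.sa htG.orth
  obtain ⟨μ₀, hμ0, hμe⟩ : ∃ μ₀ : ℂ, μ₀ ≠ 0 ∧ Module.End.HasEigenvalue (T t : Module.End ℂ E) μ₀ := by
    by_contra hn
    push Not at hn
    refine ht0 ((ContinuousLinearMap.eq_zero_of_forall_hasEigenvalue_eq_zero hcomp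
      (hsym htG.sa)).1 fun z hz => ?_)
    by_contra hz0
    exact hn z hz0 hz
  obtain ⟨u₀, hu₀⟩ := hμe.exists_hasEigenvector
  have hu1 : T t u₀ = μ₀ • u₀ := Module.End.mem_eigenspace_iff.1 hu₀.1
  have hu2 : u₀ ≠ 0 := hu₀.2
  -- the finite-dimensional space
  have hfd : ∀ (A : E →L[ℂ] E) (z : ℂ), adjoint A = A → Orth R A → z ≠ 0 →
      FiniteDimensional ℂ (Module.End.eigenspace (A : E →ₗ[ℂ] E) z) := fun A z h1 h2 hz =>
    ContinuousLinearMap.finite_dimensional_eigenspace (compact_of_orth h h1 h2) z hz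
  haveI h0f := hfd (T t) μ₀ htG.sa htG.orth hμ0
  haveI hjf : ∀ j, FiniteDimensional ℂ (Module.End.eigenspace (T (s j) : E →ₗ[ℂ] E) (μ j)) :=
    fun j => hfd _ _ (hs.gd j).sa (hs.gd j).orth (hs.ne j)
  obtain ⟨N, hN⟩ : ∃ N : Submodule ℂ E, N = Module.End.eigenspace (T t : E →ₗ[ℂ] E) μ₀ ⊔
      ⨆ j, Module.End.eigenspace (T (s j) : E →ₗ[ℂ] E) (μ j) := ⟨_, rfl⟩
  haveI hNf : FiniteDimensional ℂ N := by
    rw [hN]
    infer_instance
  refine ⟨Module.finrank ℂ N, fun i => (stdOrthonormalBasis ℂ N i : N),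
    1 / ((Module.finrank ℂ N : ℝ) + 1) ^ 2, by positivity, fun v => ?_⟩
  obtain ⟨e1, e2, e3, e4⟩ := htv v
  have hVi : ∀ w, V v⁻¹ (V v w) = w := fun w => inv_ap hV v w
  have hVi' : ∀ w, V v (V v⁻¹ w) = w := fun w => ap_inv hV v w
  have e5 : T (act v t) (V v u₀) = μ₀ • V v u₀ := by
    rw [e1]
    change V v (T t (V v⁻¹ (V v u₀))) = _
    rw [hVi, hu1, map_smul]
  have e6 : V v u₀ ≠ 0 := by
    intro h0
    apply hu2
    rw [← hVi u₀, h0, map_zero]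
  obtain ⟨x, j, a, b, f1, f2, f3⟩ := e3 μ₀ hμ0 _ e6 e5
  have hBa : adjoint (R x * T (s j) * R x⁻¹) = R x * T (s j) * R x⁻¹ := by
    rw [← star_eq_adjoint, star_mul, star_mul, star_eq_adjoint, star_eq_adjoint, star_eq_adjoint,
      hU.adj, hU.adj, (hs.gd j).sa, inv_inv, mul_assoc]
  have hBb : (R x * T (s j) * R x⁻¹) (R x b) = μ j • R x b := by
    change R x (T (s j) (R x⁻¹ (R x b))) = _
    rw [inv_ap hU, f2, map_smul]
  obtain ⟨u, g1, g2, g3⟩ := common_vec e2.sa hBa (e4 j x) f1 hBb f3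
  have k1 : T t (V v⁻¹ u) = μ₀ • V v⁻¹ u := by
    have : V v (T t (V v⁻¹ u)) = μ₀ • u := by rw [← g2, e1]; rfl
    rw [← hVi (T t (V v⁻¹ u)), this, map_smul]
  have k2 : T (s j) (R x⁻¹ u) = μ j • R x⁻¹ u := by
    have : R x (T (s j) (R x⁻¹ u)) = μ j • u := g3
    rw [← inv_ap hU x (T (s j) (R x⁻¹ u)), this, map_smul]
  have m1 : V v⁻¹ u ∈ N := by
    rw [hN]
    exact Submodule.mem_sup_left (Module.End.mem_eigenspace_iff.2 k1)
  have m2 : R x⁻¹ u ∈ N := by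
    rw [hN]
    exact Submodule.mem_sup_right (Submodule.mem_iSup_of_mem j (Module.End.mem_eigenspace_iff.2 k2))
  obtain ⟨k, l, hkl⟩ := overlap_fin N (U := V v) (W := R x) m1 m2
    (by rw [hVi', ap_inv hU]) (by rw [nrm hV, g1]) (by rw [nrm hU, g1]) (by rw [hVi', g1])
  exact ⟨k, l, x, hkl⟩

end meas

end Vale.Agent.P092.H264.Amp
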