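import Vale.Agent.P092.H264.EndAbs
import Vale.Agent.P092.H100.Cerg
import Vale.Agent.P092.H34.Ind

/-!
P092 (helper264), team C (one simple factor), block [C-END]: from one decomposable projection on
`L²(E / Λ; ℋ)`, annihilated by its own translates and commuting with the translates of its
conjugates under the source group, to the monomial vector.
-/

set_option linter.all false

open scoped InnerProductSpace ENNReal
open Filter Topology ContinuousLinearMap TopologicalSpace MeasureTheory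

namespace Vale.Agent.P092.H264

open Vale.Agent.P092.H790 Vale.Agent.P092.H85 Vale.Agent.P092.H103 Vale.Agent.P092.H160
open Vale.Agent.P092.H828 (Reg URep)
open Vale.Agent.P092.H100 (ae_sec ae_left ae_right coc_inv')

section pairs

variable {E K : Type*} [Group E] [MeasurableSpace E] [MeasurableMul₂ E] {μ : Measure E} [SFinite μ]
  [NormedAddCommGroup K] [InnerProductSpace ℂ K]

/-- From all left translates to almost all pairs; no right invariance. -/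
theorem ae_pairs_left {F G : E × E → K} (hF : AEStronglyMeasurable F (μ.prod μ))
    (hG : AEStronglyMeasurable G (μ.prod μ))
    (hr : ∀ (p : E → Prop), (∀ᵐ h ∂μ, p h) → ∀ g, ∀ᵐ h ∂μ, p (h * g))
    (hr' : ∀ (p : E → Prop) (g : E), (∀ᵐ h ∂μ, p (h * g)) → ∀ᵐ h ∂μ, p h)
    (hc : ∀ m, ∀ᵐ h ∂μ, F (h, m * h) = G (h, m * h)) :
    ∀ᵐ z ∂(μ.prod μ), F z = G z := by
  obtain ⟨F', hF', hFF⟩ := hF
  obtain ⟨G', hG', hGG⟩ := hG
  have hFG : ∀ᵐ z ∂(μ.prod μ), F z = F' z ∧ G z = G' z := hFF.and hGG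
  obtain ⟨N, hN⟩ : ∃ N : Set (E × E), N = toMeasurable (μ.prod μ) {z | ¬ (F z = F' z ∧ G z = G' z)} :=
    ⟨_, rfl⟩
  have hNm : MeasurableSet N := by rw [hN]; exact measurableSet_toMeasurable _ _
  have hN0 : ∀ᵐ z ∂(μ.prod μ), z ∉ N := by
    rw [← measure_eq_zero_iff_ae_notMem, hN, measure_toMeasurable]
    exact hFG
  have hNs : ∀ z, z ∉ N → F z = F' z ∧ G z = G' z := by
    intro z hz
    by_contra hcon
    exact hz (by rw [hN]; exact subset_toMeasurable _ _ hcon)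
  -- the shear
  have hχm : Measurable fun z : E × E => (z.2, z.1 * z.2) :=
    measurable_snd.prodMk (measurable_fst.mul measurable_snd)
  have h1 : ∀ᵐ m ∂μ, ∀ᵐ h ∂μ, (h, m * h) ∉ N := by
    refine (Measure.ae_ae_comm (μ := μ) (ν := μ) (p := fun m h => (h, m * h) ∉ N)
      (hχm hNm.compl)).2 ?_
    filter_upwards [Measure.ae_ae_of_ae_prod hN0] with h hh
    exact hr _ hh h
  have h2 : MeasurableSet {z : E × E | F' z = G' z} := hF'.measurableSet_eq_fun hG'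
  have h3 : ∀ᵐ m ∂μ, ∀ᵐ h ∂μ, F' (h, m * h) = G' (h, m * h) := by
    filter_upwards [h1] with m hm
    filter_upwards [hm, hc m] with h a1 a2
    have a3 := hNs _ a1
    rw [← a3.1, ← a3.2, a2]
  have h4 : ∀ᵐ h ∂μ, ∀ᵐ m ∂μ, F' (h, m * h) = G' (h, m * h) :=
    (Measure.ae_ae_comm (μ := μ) (ν := μ) (p := fun m h => F' (h, m * h) = G' (h, m * h))
      (hχm h2)).1 h3
  have h5 : ∀ᵐ z ∂(μ.prod μ), F' z = G' z := by
    rw [Measure.ae_prod_iff_ae_ae h2]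
    filter_upwards [h4] with h hh
    exact hr' (fun h' => F' (h, h') = G' (h, h')) h hh
  filter_upwards [h5, hFF, hGG] with z a1 a2 a3
  rw [a2, a3, a1]

end pairs

section fld

variable {X : Type} [MeasurableSpace X] {μ : Measure X} [IsFiniteMeasure μ] {K : Type}
  [NormedAddCommGroup K] [InnerProductSpace ℂ K] [CompleteSpace K]

/-- The field of an operator is unique. -/
theorem fld_uniq {I : Type} [Countable I] (b : HilbertBasis I ℂ K)
    {T : Lp K 2 μ →L[ℂ] Lp K 2 μ} {A B : X → K →L[ℂ] K} (hA : Fld T A) (hB : Fld T B) :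
    ∀ᵐ x ∂μ, A x = B x := by
  have h1 : ∀ᵐ x ∂μ, ∀ i, A x (b i) = B x (b i) := by
    rw [ae_all_iff]
    intro i
    filter_upwards [hA (Lp.const 2 μ (b i)), hB (Lp.const 2 μ (b i)),
      Lp.coeFn_const (p := 2) (μ := μ) (b i)] with x a1 a2 a3
    rw [a3] at a1 a2
    exact a1.symm.trans a2
  filter_upwards [h1] with x hx
  exact H34.ext_basis b hx

theorem fld_sa {I : Type} [Countable I] (b : HilbertBasis I ℂ K)
    {T : Lp K 2 μ →L[ℂ] Lp K 2 μ} (hT : H34.Dcm T) (hTa : adjoint T = T) {A : X → K →L[ℂ] K}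
    (hA : Fld T A) : ∀ᵐ x ∂μ, adjoint (A x) = A x := by
  have h0 : ∀ᵐ x ∂μ, ∀ i, (T (Lp.const 2 μ (b i)) : Lp K 2 μ) x = A x (b i) := by
    rw [ae_all_iff]
    intro i
    filter_upwards [hA (Lp.const 2 μ (b i)), Lp.coeFn_const (p := 2) (μ := μ) (b i)] with x a1 a2
    rw [a2] at a1
    exact a1
  have h1 : ∀ᵐ x ∂μ, ∀ i j, ⟪A x (b i), b j⟫_ℂ = ⟪b i, A x (b j)⟫_ℂ := by
    rw [ae_all_iff]
    intro i
    rw [ae_all_iff]
    intro j
    filter_upwards [h0, hT.inner_const (b j) (b i)] with x a1 a2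
    rw [hTa, a1, a1] at a2
    exact a2
  filter_upwards [h1] with x hx
  refine H34.ext_basis b fun j => ?_
  refine b.repr.injective ?_
  ext i
  rw [b.repr_apply_apply, b.repr_apply_apply, adjoint_inner_right]
  exact hx i j

theorem fld_pos [SeparableSpace K] {T : Lp K 2 μ →L[ℂ] Lp K 2 μ} (hT : H34.Dcm T)
    (hTp : ∀ ξ, 0 ≤ (⟪T ξ, ξ⟫_ℂ).re) {A : X → K →L[ℂ] K} (hA : Fld T A) :
    ∀ᵐ x ∂μ, ∀ u, 0 ≤ (⟪A x u, u⟫_ℂ).re := by
  obtain ⟨s, hs, hsd⟩ := exists_countable_dense K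
  have key : ∀ u : K, ∀ᵐ x ∂μ, 0 ≤ (⟪A x u, u⟫_ℂ).re := by
    intro u
    have hc := Lp.coeFn_const (p := 2) (μ := μ) u
    have e1 : (fun x => ⟪(T (Lp.const 2 μ u) : Lp K 2 μ) x, (Lp.const 2 μ u : Lp K 2 μ) x⟫_ℂ) =ᵐ[μ]
        fun x => ⟪A x u, u⟫_ℂ := by
      filter_upwards [hA (Lp.const 2 μ u), hc] with x a1 a2
      rw [a1, a2]
      rfl
    have hint : Integrable (fun x => ⟪A x u, u⟫_ℂ) μ :=
      (L2.integrable_inner (𝕜 := ℂ) (T (Lp.const 2 μ u)) (Lp.const 2 μ u)).congr e1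
    have hre : Integrable (fun x => (⟪A x u, u⟫_ℂ).re) μ := Integrable.re (𝕜 := ℂ) hint
    refine ae_nonneg_of_forall_setIntegral_nonneg hre fun S hS _ => ?_
    have h1 := hTp (H790.ind μ K S (Lp.const 2 μ u))
    have h2 : ⟪T (H790.ind μ K S (Lp.const 2 μ u)), H790.ind μ K S (Lp.const 2 μ u)⟫_ℂ =
        ∫ x in S, ⟪A x u, u⟫_ℂ ∂μ := by
      have h3 : H790.ind μ K S * H790.ind μ K S = H790.ind μ K S := by
        rw [ind_mul hS hS, Set.inter_self]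
      have h4 : ⟪T (H790.ind μ K S (Lp.const 2 μ u)), H790.ind μ K S (Lp.const 2 μ u)⟫_ℂ =
          ⟪H790.ind μ K S (T (Lp.const 2 μ u)), Lp.const 2 μ u⟫_ℂ := by
        rw [hT.apply hS, ← adjoint_inner_left (H790.ind μ K S), adjoint_ind hS]
        exact congrArg (fun v : Lp K 2 μ => ⟪v, Lp.const 2 μ u⟫_ℂ)
          (congrArg (fun B : Lp K 2 μ →L[ℂ] Lp K 2 μ => B (T (Lp.const 2 μ u))) h3)
      rw [h4, H34.inner_ind hS]
      exact setIntegral_congr_ae hS (e1.mono fun x hx _ => hx)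
    rw [h2] at h1
    have h5 : (∫ x in S, ⟪A x u, u⟫_ℂ ∂μ).re = ∫ x in S, (⟪A x u, u⟫_ℂ).re ∂μ :=
      (integral_re (𝕜 := ℂ) hint.integrableOn).symm
    rwa [h5] at h1
  have h3 : ∀ᵐ x ∂μ, ∀ u ∈ s, 0 ≤ (⟪A x u, u⟫_ℂ).re := (ae_ball_iff hs).2 fun u _ => key u
  filter_upwards [h3] with x hx
  intro u
  have h4 : IsClosed {u : K | 0 ≤ (⟪A x u, u⟫_ℂ).re} :=
    isClosed_le continuous_const
      (Complex.continuous_re.comp (((A x).continuous).inner continuous_id))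
  exact (h4.closure_subset_iff.2 hx) (hsd u)

end fld

section quo

variable {E : Type} [Group E] [TopologicalSpace E] [IsTopologicalGroup E] [LocallyCompactSpace E]
  [SecondCountableTopology E] [T2Space E] [MeasurableSpace E] [BorelSpace E]
  {Λ : Subgroup E} [DiscreteTopology Λ] [MeasurableSpace (E ⧸ Λ)] [BorelSpace (E ⧸ Λ)]
  {ν : Measure (E ⧸ Λ)} [IsProbabilityMeasure ν] (hν : ∀ g : E, ν.map (fun x => g • x) = ν)
  [Countable Λ]

include hν in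
/-- Null sets of the quotient pull back to null sets of the group. -/
theorem ae_quo {p : E ⧸ Λ → Prop} (hp : ∀ᵐ x ∂ν, p x) :
    ∀ᵐ h : E ∂(Measure.haar : Measure E), p (h : E ⧸ Λ) := by
  haveI hcl : IsClosed (Λ : Set E) := Subgroup.isClosed_of_discrete
  obtain ⟨N, hN⟩ : ∃ N : Set (E ⧸ Λ), N = toMeasurable ν {x | ¬ p x} := ⟨_, rfl⟩
  have hNm : MeasurableSet N := by rw [hN]; exact measurableSet_toMeasurable _ _
  have hN0 : ∀ᵐ x ∂ν, x ∉ N := by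
    rw [← measure_eq_zero_iff_ae_notMem, hN, measure_toMeasurable]; exact hp
  have hsm : Measurable fun q : E × (E ⧸ Λ) => q.1 • q.2 := continuous_smul.measurable
  have h1 : ∀ g : E, ∀ᵐ x ∂ν, g • x ∉ N := fun g => ae_comp (mpres hν g) hN0
  have h2 : ∀ᵐ x ∂ν, ∀ᵐ g ∂(Measure.haar : Measure E), g • x ∉ N :=
    (Measure.ae_ae_comm (μ := (Measure.haar : Measure E)) (ν := ν)
      (p := fun g x => g • x ∉ N) (hsm hNm.compl)).1 (Eventually.of_forall h1)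
  obtain ⟨x, hx⟩ := h2.exists
  have h3 := ae_right hx (sec Λ x)⁻¹
  filter_upwards [h3] with h hh
  by_contra hcon
  refine hh ?_
  have e : (h * (sec Λ x)⁻¹) • x = (h : E ⧸ Λ) := by
    have e0 : (h * (sec Λ x)⁻¹) • ((sec Λ x : E) : E ⧸ Λ) = (h : E ⧸ Λ) := by
      change (((h * (sec Λ x)⁻¹) * sec Λ x : E) : E ⧸ Λ) = _
      rw [inv_mul_cancel_right]
    rwa [sec_coe] at e0
  rw [e, hN]
  exact subset_toMeasurable _ _ hcon

omit [DiscreteTopology Λ] [Countable Λ] in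
theorem mk_meas : Measurable (fun h : E => (h : E ⧸ Λ)) :=
  (QuotientGroup.continuous_mk).measurable

include hν in
theorem null_quo {S : Set (E ⧸ Λ)} (hS : ν S = 0) :
    (Measure.haar : Measure E) ((fun h : E => (h : E ⧸ Λ)) ⁻¹' S) = 0 := by
  have h1 : ∀ᵐ x ∂ν, x ∉ S := measure_eq_zero_iff_ae_notMem.1 hS
  have h2 : ∀ᵐ h : E ∂(Measure.haar : Measure E), (h : E ⧸ Λ) ∉ S :=
    ae_quo hν (p := fun x => x ∉ S) h1
  exact measure_eq_zero_iff_ae_notMem.2 h2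

include hν in
theorem qmp_quo : Measure.QuasiMeasurePreserving (fun h : E => (h : E ⧸ Λ))
    (Measure.haar : Measure E) ν where
  measurable := mk_meas
  absolutelyContinuous := by
    refine Measure.AbsolutelyContinuous.mk fun S hSm hS => ?_
    rw [Measure.map_apply mk_meas hSm]
    exact null_quo hν hS

omit [Countable Λ] in
theorem tau_mem (h : E) : (sec Λ (h : E ⧸ Λ))⁻¹ * h ∈ Λ := by
  refine QuotientGroup.eq.1 ?_
  rw [sec_coe]

/-- The coordinate of `h` in its fibre: `h = s(h) t(h)`. -/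
noncomputable def tau (Λ : Subgroup E) [DiscreteTopology Λ] [MeasurableSpace (E ⧸ Λ)]
    [BorelSpace (E ⧸ Λ)] (h : E) : Λ := ⟨(sec Λ (h : E ⧸ Λ))⁻¹ * h, tau_mem h⟩

theorem tau_mul (h : E) (v : Λ) : tau Λ (h * v) = tau Λ h * v := by
  apply Subtype.ext
  have e : ((h * v : E) : E ⧸ Λ) = (h : E ⧸ Λ) := by
    rw [eq_comm, QuotientGroup.eq, inv_mul_cancel_left]
    exact v.2
  change (sec Λ ((h * v : E) : E ⧸ Λ))⁻¹ * (h * v) = (sec Λ (h : E ⧸ Λ))⁻¹ * h * v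
  rw [e, mul_assoc]

theorem tau_left (g h : E) : tau Λ (g * h) = coc Λ g (h : E ⧸ Λ) * tau Λ h := by
  apply Subtype.ext
  have e : ((g * h : E) : E ⧸ Λ) = g • (h : E ⧸ Λ) := rfl
  change (sec Λ ((g * h : E) : E ⧸ Λ))⁻¹ * (g * h) =
    (sec Λ (g • (h : E ⧸ Λ)))⁻¹ * g * sec Λ (h : E ⧸ Λ) * ((sec Λ (h : E ⧸ Λ))⁻¹ * h)
  rw [e]
  group

theorem tau_meas (v : Λ) : MeasurableSet {h : E | tau Λ h = v} := by
  have e : {h : E | tau Λ h = v} = (fun h : E => (sec Λ (h : E ⧸ Λ))⁻¹ * h) ⁻¹' {(v : E)} := by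
    ext h
    simp [Subtype.ext_iff, tau]
  rw [e]
  have h1 : Measurable fun h : E => (sec Λ (h : E ⧸ Λ))⁻¹ * h :=
    (((sec_meas Λ).comp (QuotientGroup.continuous_mk).measurable).inv).mul measurable_id
  exact h1 (measurableSet_singleton _)

end quo

section main

variable {E : Type} [Group E] [TopologicalSpace E] [IsTopologicalGroup E] [LocallyCompactSpace E]
  [SecondCountableTopology E] [T2Space E] [MeasurableSpace E] [BorelSpace E]
  {Λ : Subgroup E} [DiscreteTopology Λ] [MeasurableSpace (E ⧸ Λ)] [BorelSpace (E ⧸ Λ)]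
  {ν : Measure (E ⧸ Λ)} [IsProbabilityMeasure ν] (hν : ∀ g : E, ν.map (fun x => g • x) = ν)
  [Countable Λ] {𝒢 ℋ : Type} [Group 𝒢] [Countable 𝒢] [NormedAddCommGroup ℋ]
  [InnerProductSpace ℂ ℋ] [CompleteSpace ℋ] {ρ : 𝒢 →* (ℋ →L[ℂ] ℋ)} {ω : ℋ}
  {V : Λ →* (ℋ →L[ℂ] ℋ)}

omit [Countable 𝒢] in
theorem reg_of_rep (h : RegRep ρ ω) : Reg (fun x => ρ x) ω where
  one := map_one ρ
  mul := map_mul ρ
  adj := h.adj
  norm_one := h.norm_one
  orth x hx := h.inner_zero x hx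
  total v hv := h.total v hv

include hν in
/-- **[C-END]**, from one positive operator on the induced space to the monomial vector. -/
theorem end_iro_pos (h : RegRep ρ ω) (hV : ∀ v, adjoint (V v) = V v⁻¹)
    (hc : ∀ v x, V v * ρ x = ρ x * V v) {T : Lp ℋ 2 ν →L[ℂ] Lp ℋ 2 ν} (hd : H34.Dcm T)
    (hTa : adjoint T = T) (hTp : ∀ ξ, 0 ≤ (⟪T ξ, ξ⟫_ℂ).re) (hT0 : T ≠ 0)
    (hTo : ∀ x, x ≠ 1 → T * ((ρ x).compLpL 2 ν * T * (ρ x⁻¹).compLpL 2 ν) = 0)
    (hTc : ∀ g x, T * (iro hν V g * ((ρ x).compLpL 2 ν * T * (ρ x⁻¹).compLpL 2 ν) *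
      iro hν V g⁻¹) = iro hν V g * ((ρ x).compLpL 2 ν * T * (ρ x⁻¹).compLpL 2 ν) *
      iro hν V g⁻¹ * T) :
    ∃ (w : ℋ) (δ : Λ →* 𝒢) (χ : Λ →* ℂ), Reg (fun x => ρ x) w ∧
      (∀ g, ‖χ g‖ = 1) ∧ ∀ g, V g w = χ g • ρ (δ g)⁻¹ w := by
  haveI hcl : IsClosed (Λ : Set E) := Subgroup.isClosed_of_discrete
  have hR : Reg (fun x => ρ x) ω := reg_of_rep h
  haveI hsep : SeparableSpace ℋ := H34.separable_of_basis h.basis
  -- the field
  obtain ⟨A, hAn, hAm, hA⟩ := hd.exists_fld h.basis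
  have hAa : ∀ᵐ x ∂ν, adjoint (A x) = A x := fld_sa h.basis hd hTa hA
  have hAp : ∀ᵐ x ∂ν, ∀ u, 0 ≤ (⟪A x u, u⟫_ℂ).re := fld_pos hd hTp hA
  have hρf : ∀ x, Fld ((ρ x).compLpL 2 ν * T * (ρ x⁻¹).compLpL 2 ν)
      fun y => ρ x * A y * ρ x⁻¹ := fun x => ((fld_comp (ρ x)).mul hA).mul (fld_comp (ρ x⁻¹))
  have hAo : ∀ᵐ y ∂ν, ∀ x, x ≠ 1 → A y * (ρ x * A y * ρ x⁻¹) = 0 := by
    rw [ae_all_iff]
    intro x
    by_cases hx : x = 1
    · exact Eventually.of_forall fun y hy => (hy hx).elim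
    · have h1 := hA.mul (hρf x)
      rw [hTo x hx] at h1
      filter_upwards [fld_uniq h.basis h1 fld_zero] with y hy
      exact fun _ => hy
  have hAc : ∀ g x, ∀ᵐ y ∂ν, A y * (V (coc Λ g (g⁻¹ • y)) * (ρ x * A (g⁻¹ • y) * ρ x⁻¹) *
      V (coc Λ g (g⁻¹ • y))⁻¹) = V (coc Λ g (g⁻¹ • y)) * (ρ x * A (g⁻¹ • y) * ρ x⁻¹) *
      V (coc Λ g (g⁻¹ • y))⁻¹ * A y := by
    intro g x
    have h1 : Fld (iro hν V g * ((ρ x).compLpL 2 ν * T * (ρ x⁻¹).compLpL 2 ν) * iro hν V g⁻¹)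
        fun y => V (coc Λ g (g⁻¹ • y)) * (ρ x * A (g⁻¹ • y) * ρ x⁻¹) *
          V (coc Λ g (g⁻¹ • y))⁻¹ :=
      H34.Ind.fld_conj (d := cdat ν hν) hV (hρf x) g
    have h2 := hA.mul h1
    have h3 := h1.mul hA
    rw [hTc g x] at h2
    exact fld_uniq h.basis h2 h3
  -- the field on the group
  obtain ⟨S, hS⟩ : ∃ S : E → (ℋ →L[ℂ] ℋ), ∀ g : E, S g = V (tau Λ g)⁻¹ * A (g : E ⧸ Λ) *
      V (tau Λ g) := ⟨_, fun g => rfl⟩
  have eV : ∀ v, V v⁻¹ * V v = 1 := fun v => by rw [← map_mul, inv_mul_cancel, map_one]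
  have eV' : ∀ v, V v * V v⁻¹ = 1 := fun v => by rw [← map_mul, mul_inv_cancel, map_one]
  have cj : ∀ v (B C : ℋ →L[ℂ] ℋ), (V v⁻¹ * B * V v) * (V v⁻¹ * C * V v) =
      V v⁻¹ * (B * C) * V v := by
    intro v B C
    calc (V v⁻¹ * B * V v) * (V v⁻¹ * C * V v) = V v⁻¹ * B * (V v * V v⁻¹) * C * V v := by
          simp only [mul_assoc]
      _ = V v⁻¹ * (B * C) * V v := by rw [eV', mul_one]; simp only [mul_assoc]
  have cjρ : ∀ v x (B : ℋ →L[ℂ] ℋ), ρ x * (V v⁻¹ * B * V v) * ρ x⁻¹ =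
      V v⁻¹ * (ρ x * B * ρ x⁻¹) * V v := by
    intro v x B
    calc ρ x * (V v⁻¹ * B * V v) * ρ x⁻¹ = (ρ x * V v⁻¹) * B * (V v * ρ x⁻¹) := by
          simp only [mul_assoc]
      _ = V v⁻¹ * (ρ x * B * ρ x⁻¹) * V v := by
          rw [← hc v⁻¹ x, hc v x⁻¹]; simp only [mul_assoc]
  have hq := qmp_quo hν
  have hSm : ∀ u, AEStronglyMeasurable (fun g => S g u) (Measure.haar : Measure E) := by
    intro u
    simp only [hS]
    refine aesm_countable (k := tau Λ) (F := fun v g => V v⁻¹ (A (g : E ⧸ Λ) (V v u)))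
      tau_meas fun v => ?_
    exact (V v⁻¹).continuous.comp_aestronglyMeasurable
      ((hAm (V v u)).comp_quasiMeasurePreserving hq)
  have hSb : ∀ g, ‖S g‖ ≤ ‖T‖ := by
    intro g
    have hn : ∀ v, ‖V v‖ ≤ 1 := fun v => pi_norm_le hV v
    rw [hS]
    calc ‖V (tau Λ g)⁻¹ * A (g : E ⧸ Λ) * V (tau Λ g)‖ ≤
          ‖V (tau Λ g)⁻¹ * A (g : E ⧸ Λ)‖ * ‖V (tau Λ g)‖ := norm_mul_le _ _
      _ ≤ ‖V (tau Λ g)⁻¹‖ * ‖A (g : E ⧸ Λ)‖ * ‖V (tau Λ g)‖ :=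
          mul_le_mul_of_nonneg_right (norm_mul_le _ _) (norm_nonneg _)
      _ ≤ 1 * ‖T‖ * 1 := by
          refine mul_le_mul ?_ (hn _) (norm_nonneg _) (by positivity)
          exact mul_le_mul (hn _) (hAn _) (norm_nonneg _) zero_le_one
      _ = ‖T‖ := by rw [one_mul, mul_one]
  have hSa : ∀ᵐ g ∂(Measure.haar : Measure E), adjoint (S g) = S g := by
    filter_upwards [hq.ae hAa] with g hg
    rw [hS, ← star_eq_adjoint, star_mul, star_mul, star_eq_adjoint, star_eq_adjoint,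
      star_eq_adjoint, hV, hV, hg, inv_inv, mul_assoc]
  have hSp : ∀ᵐ g ∂(Measure.haar : Measure E), ∀ u, 0 ≤ (⟪S g u, u⟫_ℂ).re := by
    filter_upwards [hq.ae hAp] with g hg
    intro u
    have e1 : ⟪S g u, u⟫_ℂ = ⟪A (g : E ⧸ Λ) (V (tau Λ g) u), V (tau Λ g) u⟫_ℂ := by
      rw [hS]
      change ⟪V (tau Λ g)⁻¹ (A (g : E ⧸ Λ) (V (tau Λ g) u)), u⟫_ℂ = _
      rw [← hV, adjoint_inner_left]
    rw [e1]
    exact hg _
  have hSo : ∀ᵐ g ∂(Measure.haar : Measure E), ∀ x, x ≠ 1 → S g * (ρ x * S g * ρ x⁻¹) = 0 := by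
    filter_upwards [hq.ae hAo] with g hg
    intro x hx
    rw [hS, cjρ, cj, hg x hx, mul_zero, zero_mul]
  have hSc : ∀ m x, ∀ᵐ g ∂(Measure.haar : Measure E), S g * (ρ x * S (m * g) * ρ x⁻¹) =
      (ρ x * S (m * g) * ρ x⁻¹) * S g := by
    intro m x
    filter_upwards [hq.ae (hAc m⁻¹ x)] with g hg
    rw [inv_inv] at hg
    have e1 : coc Λ m⁻¹ (m • (g : E ⧸ Λ)) = (coc Λ m (g : E ⧸ Λ))⁻¹ := by
      have := coc_inv' (Λ := Λ) m⁻¹ (g : E ⧸ Λ)
      rwa [inv_inv] at this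
    rw [e1, inv_inv] at hg
    have e2 : ρ x * S (m * g) * ρ x⁻¹ = V (tau Λ g)⁻¹ * (V (coc Λ m (g : E ⧸ Λ))⁻¹ *
        (ρ x * A (m • (g : E ⧸ Λ)) * ρ x⁻¹) * V (coc Λ m (g : E ⧸ Λ))) * V (tau Λ g) := by
      rw [hS, cjρ, tau_left, mul_inv_rev, map_mul, map_mul]
      have e3 : ((m * g : E) : E ⧸ Λ) = m • (g : E ⧸ Λ) := rfl
      rw [e3]
      simp only [mul_assoc]
    rw [e2, hS, cj, cj, hg]
  -- a finite measure
  obtain ⟨μ, hμf, hμ1, hμ2⟩ :=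
    exists_isFiniteMeasure_absolutelyContinuous (Measure.haar : Measure E)
  have hr1 : ∀ (p : E → Prop), (∀ᵐ h ∂(Measure.haar : Measure E), p h) → ∀ g,
      ∀ᵐ h ∂(Measure.haar : Measure E), p (h * g) := fun p hp g => ae_right hp g
  have hr2 : ∀ (p : E → Prop) (g : E), (∀ᵐ h ∂(Measure.haar : Measure E), p (h * g)) →
      ∀ᵐ h ∂(Measure.haar : Measure E), p h := by
    intro p g hp
    have := ae_right hp g⁻¹
    filter_upwards [this] with h hh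
    rwa [inv_mul_cancel_right] at hh
  have hqν : ∀ v : Λ, Measure.QuasiMeasurePreserving (fun g : E => g * ((v⁻¹ : Λ) : E)) μ μ :=
    fun v => (quasiMeasurePreserving_mul_right (Measure.haar : Measure E) _).mono hμ2 hμ1
  refine end_abs (S := E) (ν := μ) (T := S) (V := fun v => V v) (C := ‖T‖) hR
    ⟨map_one V, map_mul V, hV⟩ hc (fun v g => g * ((v⁻¹ : Λ) : E)) hqν
    (fun u => (hSm u).mono_ac hμ2) (Eventually.of_forall hSb) (hμ2.ae_le hSa) ?_ ?_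
    (hμ2.ae_le hSo) ?_ ?_
  · exact hμ2.ae_le hSp
  · intro hcon
    have h1 : ∀ᵐ g ∂(Measure.haar : Measure E), S g = 0 := hμ1.ae_le hcon
    have h2 : ∀ᵐ g : E ∂(Measure.haar : Measure E), A (g : E ⧸ Λ) = 0 := by
      filter_upwards [h1] with g hg
      rw [hS] at hg
      have e1 : V (tau Λ g) * (V (tau Λ g)⁻¹ * A (g : E ⧸ Λ) * V (tau Λ g)) * V (tau Λ g)⁻¹ =
          A (g : E ⧸ Λ) := by
        calc _ = (V (tau Λ g) * V (tau Λ g)⁻¹) * A (g : E ⧸ Λ) *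
              (V (tau Λ g) * V (tau Λ g)⁻¹) := by simp only [mul_assoc]
          _ = A (g : E ⧸ Λ) := by rw [eV', one_mul, mul_one]
      rw [← e1, hg, mul_zero, zero_mul]
    have h3 : ∀ᵐ x ∂ν, A x = 0 := by
      filter_upwards [ae_sec hν h2] with x hx
      have h4 := hx 1
      rwa [Subgroup.coe_one, mul_one, sec_coe] at h4
    exact hT0 (hA.ext fld_zero h3)
  · intro v
    refine Eventually.of_forall fun g => ?_
    change S (g * ((v⁻¹ : Λ) : E)) = V v * S g * V v⁻¹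
    have e1 : ((g * ((v⁻¹ : Λ) : E) : E) : E ⧸ Λ) = (g : E ⧸ Λ) := by
      rw [eq_comm, QuotientGroup.eq, inv_mul_cancel_left]
      exact (v⁻¹ : Λ).2
    rw [hS, hS, tau_mul, e1, mul_inv_rev, inv_inv, map_mul, map_mul]
    simp only [mul_assoc]
  · have h1 : ∀ᵐ p ∂((Measure.haar : Measure E).prod (Measure.haar : Measure E)), ∀ x,
        S p.1 * (ρ x * S p.2 * ρ x⁻¹) = (ρ x * S p.2 * ρ x⁻¹) * S p.1 := by
      rw [ae_all_iff]
      intro x
      obtain ⟨s, hs, hsd⟩ := exists_countable_dense ℋ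
      have key : ∀ u, ∀ᵐ p ∂((Measure.haar : Measure E).prod (Measure.haar : Measure E)),
          S p.1 ((ρ x * S p.2 * ρ x⁻¹) u) = (ρ x * S p.2 * ρ x⁻¹) (S p.1 u) := by
        intro u
        have hρm : ∀ u, AEStronglyMeasurable (fun g => (ρ x * S g * ρ x⁻¹) u)
            (Measure.haar : Measure E) := fun u =>
          (ρ x).continuous.comp_aestronglyMeasurable (hSm (ρ x⁻¹ u))
        refine ae_pairs_left (F := fun p : E × E => S p.1 ((ρ x * S p.2 * ρ x⁻¹) u))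
          (G := fun p : E × E => (ρ x * S p.2 * ρ x⁻¹) (S p.1 u)) ?_ ?_ hr1 hr2 fun m => ?_
        · exact aesm_field (A := fun p : E × E => S p.1) (fun u => (hSm u).comp_fst)
            (hρm u).comp_snd
        · exact aesm_field (A := fun p : E × E => ρ x * S p.2 * ρ x⁻¹)
            (fun u => (hρm u).comp_snd) (hSm u).comp_fst
        · filter_upwards [hSc m x] with g hg
          exact congrArg (fun B : ℋ →L[ℂ] ℋ => B u) hg
      have h3 : ∀ᵐ p ∂((Measure.haar : Measure E).prod (Measure.haar : Measure E)), ∀ u ∈ s,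
          S p.1 ((ρ x * S p.2 * ρ x⁻¹) u) = (ρ x * S p.2 * ρ x⁻¹) (S p.1 u) :=
        (ae_ball_iff hs).2 fun u _ => key u
      filter_upwards [h3] with p hp
      refine ContinuousLinearMap.ext fun u => ?_
      have h4 : IsClosed {u : ℋ | S p.1 ((ρ x * S p.2 * ρ x⁻¹) u) =
          (ρ x * S p.2 * ρ x⁻¹) (S p.1 u)} :=
        isClosed_eq (((S p.1).continuous).comp (ρ x * S p.2 * ρ x⁻¹).continuous)
          (((ρ x * S p.2 * ρ x⁻¹).continuous).comp (S p.1).continuous)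
      exact (h4.closure_subset_iff.2 hp) (hsd u)
    exact (hμ2.prod hμ2).ae_le h1

include hν in
/-- **[C-END]**, from one projection on the induced space to the monomial vector. -/
theorem end_iro (h : RegRep ρ ω) (hV : ∀ v, adjoint (V v) = V v⁻¹)
    (hc : ∀ v x, V v * ρ x = ρ x * V v) {T : Lp ℋ 2 ν →L[ℂ] Lp ℋ 2 ν} (hd : H34.Dcm T)
    (hTa : adjoint T = T) (hTp : T * T = T) (hT0 : T ≠ 0)
    (hTo : ∀ x, x ≠ 1 → T * ((ρ x).compLpL 2 ν * T * (ρ x⁻¹).compLpL 2 ν) = 0)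
    (hTc : ∀ g x, T * (iro hν V g * ((ρ x).compLpL 2 ν * T * (ρ x⁻¹).compLpL 2 ν) *
      iro hν V g⁻¹) = iro hν V g * ((ρ x).compLpL 2 ν * T * (ρ x⁻¹).compLpL 2 ν) *
      iro hν V g⁻¹ * T) :
    ∃ (w : ℋ) (δ : Λ →* 𝒢) (χ : Λ →* ℂ), Reg (fun x => ρ x) w ∧
      (∀ g, ‖χ g‖ = 1) ∧ ∀ g, V g w = χ g • ρ (δ g)⁻¹ w :=
  end_iro_pos hν h hV hc hd hTa (fun ξ => by
    have e2 : T ξ = T (T ξ) := congrArg (fun B : Lp ℋ 2 ν →L[ℂ] Lp ℋ 2 ν => B ξ) hTp.symm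
    have e1 : ⟪T ξ, ξ⟫_ℂ = ⟪T ξ, T ξ⟫_ℂ := by
      conv_lhs => rw [e2]
      rw [← adjoint_inner_right, hTa]
    rw [e1]
    exact inner_self_nonneg (𝕜 := ℂ)) hT0 hTo hTc

end main

end Vale.Agent.P092.H264
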