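import Vale.Agent.P092.H264.AmpA
import Vale.Agent.P092.H264.EndQ

/-!
P092 (helper264), [END-T]: from one localised decomposable operator on `L²(E / Λ; ℋ)` to overlap of
the source representation with the target representation; any finite Parseval family (all `t`).
-/

set_option linter.all false

open scoped InnerProductSpace ENNReal
open Filter Topology ContinuousLinearMap TopologicalSpace MeasureTheory

namespace Vale.Agent.P092.H264.Amp

open Vale.Agent.P092.H264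
open Vale.Agent.P092.H790 Vale.Agent.P092.H85 Vale.Agent.P092.H103 Vale.Agent.P092.H160
open Vale.Agent.P092.H828 (Reg URep)
open Vale.Agent.P092.H100 (ae_sec ae_left ae_right coc_inv')

section bas

variable {E : Type} [NormedAddCommGroup E] [InnerProductSpace ℂ E] [CompleteSpace E]
variable {X : Type} [Group X] [Countable X] {R : X → (E →L[ℂ] E)} {ι : Type} [Fintype ι]
  {ξ : ι → E}

/-- a countable Hilbert basis -/
theorem exists_basis (h : Pars R ξ) :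
    ∃ (I : Type) (_ : Countable I), Nonempty (HilbertBasis I ℂ E) := by
  obtain ⟨w, b, hb⟩ := exists_hilbertBasis ℂ E
  have h1 : ∀ p : ι × X, {u : w | ‖⟪(b u : E), R p.2 (ξ p.1)⟫_ℂ‖ ^ 2 ≠ 0}.Countable := fun p =>
    (b.orthonormal.inner_products_summable (R p.2 (ξ p.1))).countable_support
  have h2 : (Set.univ : Set w) ⊆ ⋃ p : ι × X, {u : w | ‖⟪(b u : E), R p.2 (ξ p.1)⟫_ℂ‖ ^ 2 ≠ 0} := by
    intro u _
    by_contra hn
    rw [Set.mem_iUnion] at hn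
    push Not at hn
    have h3 : ∀ p : ι × X, ‖⟪R p.2 (ξ p.1), (b u : E)⟫_ℂ‖ ^ 2 = 0 := by
      intro p
      have := hn p
      simp only [Set.mem_setOf_eq, not_not] at this
      rw [← inner_conj_symm, RCLike.norm_conj]
      exact this
    have h4 := h.frame (b u)
    simp only [h3] at h4
    have h5 := h4.unique hasSum_zero
    have h6 : ‖b u‖ = 1 := b.orthonormal.1 u
    rw [h6] at h5
    norm_num at h5
  have h3 : Countable w := Set.countable_univ_iff.1 ((Set.countable_iUnion h1).mono h2)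
  exact ⟨w, h3, ⟨b⟩⟩

end bas

section main

variable {E : Type} [Group E] [TopologicalSpace E] [IsTopologicalGroup E] [LocallyCompactSpace E]
  [SecondCountableTopology E] [T2Space E] [MeasurableSpace E] [BorelSpace E]
  {Λ : Subgroup E} [DiscreteTopology Λ] [MeasurableSpace (E ⧸ Λ)] [BorelSpace (E ⧸ Λ)]
  {ν : Measure (E ⧸ Λ)} [IsProbabilityMeasure ν] (hν : ∀ g : E, ν.map (fun x => g • x) = ν)
  [Countable Λ] {𝒢 ℋ : Type} [Group 𝒢] [Countable 𝒢] [NormedAddCommGroup ℋ]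
  [InnerProductSpace ℂ ℋ] [CompleteSpace ℋ] {ρ : 𝒢 →* (ℋ →L[ℂ] ℋ)} {ι : Type} [Fintype ι]
  {ξ : ι → ℋ} {V : Λ →* (ℋ →L[ℂ] ℋ)}

include hν in
/-- **[END-T]**, from one localised operator on the induced space to overlap. -/
theorem overlap_iro (h : Pars (fun x => ρ x) ξ) (hV : ∀ v, adjoint (V v) = V v⁻¹)
    (hc : ∀ v x, V v * ρ x = ρ x * V v) {T : Lp ℋ 2 ν →L[ℂ] Lp ℋ 2 ν} (hd : H34.Dcm T)
    (hTa : adjoint T = T) (hT0 : T ≠ 0)
    (hTo : ∀ x, x ≠ 1 → T * ((ρ x).compLpL 2 ν * T * (ρ x⁻¹).compLpL 2 ν) = 0)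
    (hTc : ∀ g x, T * (iro hν V g * ((ρ x).compLpL 2 ν * T * (ρ x⁻¹).compLpL 2 ν) *
      iro hν V g⁻¹) = iro hν V g * ((ρ x).compLpL 2 ν * T * (ρ x⁻¹).compLpL 2 ν) *
      iro hν V g⁻¹ * T) :
    ∃ (r : ℕ) (η : Fin r → ℋ) (κ : ℝ), 0 < κ ∧
      ∀ v, ∃ i j x, κ ≤ ‖⟪V v (η i), ρ x (η j)⟫_ℂ‖ := by
  haveI hcl : IsClosed (Λ : Set E) := Subgroup.isClosed_of_discrete
  obtain ⟨I, hI, ⟨bas⟩⟩ := exists_basis h
  haveI hsep : SeparableSpace ℋ := H34.separable_of_basis bas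
  -- the field
  obtain ⟨A, hAn, hAm, hA⟩ := hd.exists_fld bas
  have hAa : ∀ᵐ x ∂ν, adjoint (A x) = A x := fld_sa bas hd hTa hA
  have hρf : ∀ x, Fld ((ρ x).compLpL 2 ν * T * (ρ x⁻¹).compLpL 2 ν)
      fun y => ρ x * A y * ρ x⁻¹ := fun x => ((fld_comp (ρ x)).mul hA).mul (fld_comp (ρ x⁻¹))
  have hAo : ∀ᵐ y ∂ν, ∀ x, x ≠ 1 → A y * (ρ x * A y * ρ x⁻¹) = 0 := by
    rw [ae_all_iff]
    intro x
    by_cases hx : x = 1
    · exact Eventually.of_forall fun y hy => (hy hx).elim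
    · have h1 := hA.mul (hρf x)
      rw [hTo x hx] at h1
      filter_upwards [fld_uniq bas h1 fld_zero] with y hy
      exact fun _ => hy
  have hAc : ∀ g x, ∀ᵐ y ∂ν, A y * (V (coc Λ g (g⁻¹ • y)) * (ρ x * A (g⁻¹ • y) * ρ x⁻¹) *
      V (coc Λ g (g⁻¹ • y))⁻¹) = V (coc Λ g (g⁻¹ • y)) * (ρ x * A (g⁻¹ • y) * ρ x⁻¹) *
      V (coc Λ g (g⁻¹ • y))⁻¹ * A y := by
    intro g x
    have h1 : Fld (iro hν V g * ((ρ x).compLpL 2 ν * T * (ρ x⁻¹).compLpL 2 ν) * iro hν V g⁻¹)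
        fun y => V (coc Λ g (g⁻¹ • y)) * (ρ x * A (g⁻¹ • y) * ρ x⁻¹) *
          V (coc Λ g (g⁻¹ • y))⁻¹ :=
      H34.Ind.fld_conj (d := cdat ν hν) hV (hρf x) g
    have h2 := hA.mul h1
    have h3 := h1.mul hA
    rw [hTc g x] at h2
    exact fld_uniq bas h2 h3
  -- the field on the group
  obtain ⟨S, hS⟩ : ∃ S : E → (ℋ →L[ℂ] ℋ), ∀ g : E, S g = V (tau Λ g)⁻¹ * A (g : E ⧸ Λ) *
      V (tau Λ g) := ⟨_, fun g => rfl⟩
  have eV : ∀ v, V v⁻¹ * V v = 1 := fun v => by rw [← map_mul, inv_mul_cancel, map_one]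
  have eV' : ∀ v, V v * V v⁻¹ = 1 := fun v => by rw [← map_mul, mul_inv_cancel, map_one]
  have cj : ∀ v (B C : ℋ →L[ℂ] ℋ), (V v⁻¹ * B * V v) * (V v⁻¹ * C * V v) =
      V v⁻¹ * (B * C) * V v := by
    intro v B C
    calc (V v⁻¹ * B * V v) * (V v⁻¹ * C * V v) = V v⁻¹ * B * (V v * V v⁻¹) * C * V v := by
          simp only [mul_assoc]
      _ = V v⁻¹ * (B * C) * V v := by rw [eV', mul_one]; simp only [mul_assoc]
  have cjρ : ∀ v x (B : ℋ →L[ℂ] ℋ), ρ x * (V v⁻¹ * B * V v) * ρ x⁻¹ =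
      V v⁻¹ * (ρ x * B * ρ x⁻¹) * V v := by
    intro v x B
    calc ρ x * (V v⁻¹ * B * V v) * ρ x⁻¹ = (ρ x * V v⁻¹) * B * (V v * ρ x⁻¹) := by
          simp only [mul_assoc]
      _ = V v⁻¹ * (ρ x * B * ρ x⁻¹) * V v := by
          rw [← hc v⁻¹ x, hc v x⁻¹]; simp only [mul_assoc]
  have hq := qmp_quo hν
  have hSm : ∀ u, AEStronglyMeasurable (fun g => S g u) (Measure.haar : Measure E) := by
    intro u
    simp only [hS]
    refine aesm_countable (k := tau Λ) (F := fun v g => V v⁻¹ (A (g : E ⧸ Λ) (V v u)))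
      tau_meas fun v => ?_
    exact (V v⁻¹).continuous.comp_aestronglyMeasurable
      ((hAm (V v u)).comp_quasiMeasurePreserving hq)
  have hSb : ∀ g, ‖S g‖ ≤ ‖T‖ := by
    intro g
    have hn : ∀ v, ‖V v‖ ≤ 1 := fun v => pi_norm_le hV v
    rw [hS]
    calc ‖V (tau Λ g)⁻¹ * A (g : E ⧸ Λ) * V (tau Λ g)‖ ≤
          ‖V (tau Λ g)⁻¹ * A (g : E ⧸ Λ)‖ * ‖V (tau Λ g)‖ := norm_mul_le _ _
      _ ≤ ‖V (tau Λ g)⁻¹‖ * ‖A (g : E ⧸ Λ)‖ * ‖V (tau Λ g)‖ :=
          mul_le_mul_of_nonneg_right (norm_mul_le _ _) (norm_nonneg _)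
      _ ≤ 1 * ‖T‖ * 1 := by
          refine mul_le_mul ?_ (hn _) (norm_nonneg _) (by positivity)
          exact mul_le_mul (hn _) (hAn _) (norm_nonneg _) zero_le_one
      _ = ‖T‖ := by rw [one_mul, mul_one]
  have hSa : ∀ᵐ g ∂(Measure.haar : Measure E), adjoint (S g) = S g := by
    filter_upwards [hq.ae hAa] with g hg
    rw [hS, ← star_eq_adjoint, star_mul, star_mul, star_eq_adjoint, star_eq_adjoint,
      star_eq_adjoint, hV, hV, hg, inv_inv, mul_assoc]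
  have hSo : ∀ᵐ g ∂(Measure.haar : Measure E), ∀ x, x ≠ 1 → S g * (ρ x * S g * ρ x⁻¹) = 0 := by
    filter_upwards [hq.ae hAo] with g hg
    intro x hx
    rw [hS, cjρ, cj, hg x hx, mul_zero, zero_mul]
  have hSc : ∀ m x, ∀ᵐ g ∂(Measure.haar : Measure E), S g * (ρ x * S (m * g) * ρ x⁻¹) =
      (ρ x * S (m * g) * ρ x⁻¹) * S g := by
    intro m x
    filter_upwards [hq.ae (hAc m⁻¹ x)] with g hg
    rw [inv_inv] at hg
    have e1 : coc Λ m⁻¹ (m • (g : E ⧸ Λ)) = (coc Λ m (g : E ⧸ Λ))⁻¹ := by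
      have := coc_inv' (Λ := Λ) m⁻¹ (g : E ⧸ Λ)
      rwa [inv_inv] at this
    rw [e1, inv_inv] at hg
    have e2 : ρ x * S (m * g) * ρ x⁻¹ = V (tau Λ g)⁻¹ * (V (coc Λ m (g : E ⧸ Λ))⁻¹ *
        (ρ x * A (m • (g : E ⧸ Λ)) * ρ x⁻¹) * V (coc Λ m (g : E ⧸ Λ))) * V (tau Λ g) := by
      rw [hS, cjρ, tau_left, mul_inv_rev, map_mul, map_mul]
      have e3 : ((m * g : E) : E ⧸ Λ) = m • (g : E ⧸ Λ) := rfl
      rw [e3]
      simp only [mul_assoc]
    rw [e2, hS, cj, cj, hg]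
  -- a finite measure
  obtain ⟨μ, hμf, hμ1, hμ2⟩ :=
    exists_isFiniteMeasure_absolutelyContinuous (Measure.haar : Measure E)
  have hr1 : ∀ (p : E → Prop), (∀ᵐ h ∂(Measure.haar : Measure E), p h) → ∀ g,
      ∀ᵐ h ∂(Measure.haar : Measure E), p (h * g) := fun p hp g => ae_right hp g
  have hr2 : ∀ (p : E → Prop) (g : E), (∀ᵐ h ∂(Measure.haar : Measure E), p (h * g)) →
      ∀ᵐ h ∂(Measure.haar : Measure E), p h := by
    intro p g hp
    have := ae_right hp g⁻¹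
    filter_upwards [this] with h hh
    rwa [inv_mul_cancel_right] at hh
  have hqν : ∀ v : Λ, Measure.QuasiMeasurePreserving (fun g : E => g * ((v⁻¹ : Λ) : E)) μ μ :=
    fun v => (quasiMeasurePreserving_mul_right (Measure.haar : Measure E) _).mono hμ2 hμ1
  refine overlap_abs (S := E) (ν := μ) (T := S) (V := fun v => V v) h
    ⟨map_one V, map_mul V, hV⟩ (fun v g => g * ((v⁻¹ : Λ) : E)) hqν
    (hμ2.ae_le hSa) ?_ (hμ2.ae_le hSo) ?_ ?_
  · intro hcon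
    have h1 : ∀ᵐ g ∂(Measure.haar : Measure E), S g = 0 := hμ1.ae_le hcon
    have h2 : ∀ᵐ g : E ∂(Measure.haar : Measure E), A (g : E ⧸ Λ) = 0 := by
      filter_upwards [h1] with g hg
      rw [hS] at hg
      have e1 : V (tau Λ g) * (V (tau Λ g)⁻¹ * A (g : E ⧸ Λ) * V (tau Λ g)) * V (tau Λ g)⁻¹ =
          A (g : E ⧸ Λ) := by
        calc _ = (V (tau Λ g) * V (tau Λ g)⁻¹) * A (g : E ⧸ Λ) *
              (V (tau Λ g) * V (tau Λ g)⁻¹) := by simp only [mul_assoc]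
          _ = A (g : E ⧸ Λ) := by rw [eV', one_mul, mul_one]
      rw [← e1, hg, mul_zero, zero_mul]
    have h3 : ∀ᵐ x ∂ν, A x = 0 := by
      filter_upwards [ae_sec hν h2] with x hx
      have h4 := hx 1
      rwa [Subgroup.coe_one, mul_one, sec_coe] at h4
    exact hT0 (hA.ext fld_zero h3)
  · intro v
    refine Eventually.of_forall fun g => ?_
    change S (g * ((v⁻¹ : Λ) : E)) = V v * S g * V v⁻¹
    have e1 : ((g * ((v⁻¹ : Λ) : E) : E) : E ⧸ Λ) = (g : E ⧸ Λ) := by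
      rw [eq_comm, QuotientGroup.eq, inv_mul_cancel_left]
      exact (v⁻¹ : Λ).2
    rw [hS, hS, tau_mul, e1, mul_inv_rev, inv_inv, map_mul, map_mul]
    simp only [mul_assoc]
  · have h1 : ∀ᵐ p ∂((Measure.haar : Measure E).prod (Measure.haar : Measure E)), ∀ x,
        S p.1 * (ρ x * S p.2 * ρ x⁻¹) = (ρ x * S p.2 * ρ x⁻¹) * S p.1 := by
      rw [ae_all_iff]
      intro x
      obtain ⟨s, hs, hsd⟩ := exists_countable_dense ℋ
      have key : ∀ u, ∀ᵐ p ∂((Measure.haar : Measure E).prod (Measure.haar : Measure E)),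
          S p.1 ((ρ x * S p.2 * ρ x⁻¹) u) = (ρ x * S p.2 * ρ x⁻¹) (S p.1 u) := by
        intro u
        have hρm : ∀ u, AEStronglyMeasurable (fun g => (ρ x * S g * ρ x⁻¹) u)
            (Measure.haar : Measure E) := fun u =>
          (ρ x).continuous.comp_aestronglyMeasurable (hSm (ρ x⁻¹ u))
        refine ae_pairs_left (F := fun p : E × E => S p.1 ((ρ x * S p.2 * ρ x⁻¹) u))
          (G := fun p : E × E => (ρ x * S p.2 * ρ x⁻¹) (S p.1 u)) ?_ ?_ hr1 hr2 fun m => ?_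
        · exact aesm_field (A := fun p : E × E => S p.1) (fun u => (hSm u).comp_fst)
            (hρm u).comp_snd
        · exact aesm_field (A := fun p : E × E => ρ x * S p.2 * ρ x⁻¹)
            (fun u => (hρm u).comp_snd) (hSm u).comp_fst
        · filter_upwards [hSc m x] with g hg
          exact congrArg (fun B : ℋ →L[ℂ] ℋ => B u) hg
      have h3 : ∀ᵐ p ∂((Measure.haar : Measure E).prod (Measure.haar : Measure E)), ∀ u ∈ s,
          S p.1 ((ρ x * S p.2 * ρ x⁻¹) u) = (ρ x * S p.2 * ρ x⁻¹) (S p.1 u) :=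
        (ae_ball_iff hs).2 fun u _ => key u
      filter_upwards [h3] with p hp
      refine ContinuousLinearMap.ext fun u => ?_
      have h4 : IsClosed {u : ℋ | S p.1 ((ρ x * S p.2 * ρ x⁻¹) u) =
          (ρ x * S p.2 * ρ x⁻¹) (S p.1 u)} :=
        isClosed_eq (((S p.1).continuous).comp (ρ x * S p.2 * ρ x⁻¹).continuous)
          (((ρ x * S p.2 * ρ x⁻¹).continuous).comp (S p.1).continuous)
      exact (h4.closure_subset_iff.2 hp) (hsd u)
    have h5 := Measure.ae_ae_of_ae_prod ((hμ2.prod hμ2).ae_le h1)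
    filter_upwards [h5] with s hs
    filter_upwards [hs] with s' hs' x
    have h6 := hs' x⁻¹
    rw [inv_inv] at h6
    have r1 : ∀ y, ρ y * ρ y⁻¹ = 1 := fun y => by rw [← map_mul, mul_inv_cancel, map_one]
    have r2 : ∀ y, ρ y⁻¹ * ρ y = 1 := fun y => by rw [← map_mul, inv_mul_cancel, map_one]
    calc S s' * (ρ x * S s * ρ x⁻¹) = ρ x * ((ρ x⁻¹ * S s' * ρ x) * S s) * ρ x⁻¹ := by
          calc S s' * (ρ x * S s * ρ x⁻¹) = (ρ x * ρ x⁻¹) * S s' * ρ x * S s * ρ x⁻¹ := by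
                rw [r1, one_mul]; simp only [mul_assoc]
            _ = _ := by simp only [mul_assoc]
      _ = ρ x * (S s * (ρ x⁻¹ * S s' * ρ x)) * ρ x⁻¹ := by rw [h6]
      _ = (ρ x * S s * ρ x⁻¹) * S s' * (ρ x * ρ x⁻¹) := by simp only [mul_assoc]
      _ = _ := by rw [r1, mul_one]

end main

end Vale.Agent.P092.H264.Amp
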