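import Vale.Agent.P092.H264.EndQ
import Vale.Agent.P092.RC.Top
import Vale.Agent.P092.H839.Tri

/-!
P092 (helper264), teams C and D (one simple factor), block [C-END] / [E-FLD]: one positive operator
on the concrete picture gives the monomial vector of the frame.
-/

set_option linter.all false

open scoped InnerProductSpace ENNReal
open Filter Topology ContinuousLinearMap TopologicalSpace MeasureTheory

namespace Vale.Agent.P092.H264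

open Vale.Agent.P092.H790 Vale.Agent.P092.H85 Vale.Agent.P092.H103 Vale.Agent.P092.H160
open Vale.Agent.P092.SR
open Vale.Agent.P092.H839 (RR RR_eq adj_VV regRep_RR comm_VV₁ comm_VV₂ comm_RR)
open Vale.Agent.P092.H828 (Reg URep)

section mono

variable {E : Type} [Group E] [TopologicalSpace E] [IsTopologicalGroup E] [LocallyCompactSpace E]
  [SecondCountableTopology E] [T2Space E] [MeasurableSpace E] [BorelSpace E]
  {Γ : Subgroup E} [DiscreteTopology Γ] [MeasurableSpace (E ⧸ Γ)] [BorelSpace (E ⧸ Γ)]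
  {ν : Measure (E ⧸ Γ)} [IsProbabilityMeasure ν] (hν : ∀ g : E, ν.map (fun x => g • x) = ν)
  [Countable Γ] {Λ : Type} [Group Λ] {α : Γ →* (Ell2 Λ →L[ℂ] Ell2 Λ)}

/-- The representation of `Γ × Γ` by constant operators. -/
noncomputable def RK (hν : ∀ g : E, ν.map (fun x => g • x) = ν)
    (α : Γ →* (Ell2 Λ →L[ℂ] Ell2 Λ)) (x : Γ × Γ) :
    Lp (Ell2 (Λ × Λ)) 2 (cdat ν hν).μ →L[ℂ] Lp (Ell2 (Λ × Λ)) 2 (cdat ν hν).μ :=
  H34.Ind.lam (cdat ν hν) (RR₁ α) x.1 * H34.Ind.lam (cdat ν hν) (RR₂ α) x.2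

theorem RK_eq (x : Γ × Γ) : RK hν α x = (RR α x).compLpL 2 (cdat ν hν).μ := by
  have e : RR α x = RR₁ α x.1 * RR₂ α x.2 := RR_eq x.1 x.2
  rw [e, comp_mul]
  rfl

/-- **[E-FLD]**: the literal of helper171. -/
theorem mono_of_op (hα : Frame α)
    {T : Lp (Ell2 (Λ × Λ)) 2 (cdat ν hν).μ →L[ℂ] Lp (Ell2 (Λ × Λ)) 2 (cdat ν hν).μ}
    (hd : ∀ S, MeasurableSet S → T * H790.ind (cdat ν hν).μ (Ell2 (Λ × Λ)) S =
      H790.ind (cdat ν hν).μ (Ell2 (Λ × Λ)) S * T)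
    (hTa : adjoint T = T) (hTp : ∀ ξ, 0 ≤ (⟪T ξ, ξ⟫_ℂ).re) (hT0 : T ≠ 0)
    (hTo : ∀ x : Γ × Γ, x ≠ 1 → T * (RK hν α x * T * RK hν α x⁻¹) = 0)
    (hTc : ∀ g x, T * (H34.Ind.pi (cdat ν hν) (V := VV α) (adj_VV hα) g *
        (RK hν α x * T * RK hν α x⁻¹) * H34.Ind.pi (cdat ν hν) (V := VV α) (adj_VV hα) g⁻¹) =
      H34.Ind.pi (cdat ν hν) (V := VV α) (adj_VV hα) g *
        (RK hν α x * T * RK hν α x⁻¹) * H34.Ind.pi (cdat ν hν) (V := VV α) (adj_VV hα) g⁻¹ * T) :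
    RC.MonoV α := by
  simp only [RK_eq] at hTo hTc
  obtain ⟨w, δ, χ, h1, h2, h3⟩ := end_iro_pos (Λ := Γ) hν (regRep_RR hα) (V := VV α) (adj_VV hα)
    (fun v x => by
      have e : RR α x = RR₁ α x.1 * RR₂ α x.2 := RR_eq x.1 x.2
      rw [e, ← mul_assoc, comm_VV₁ hα, mul_assoc, comm_VV₂ hα, mul_assoc]) (T := T)
    hd hTa hTp hT0 hTo hTc
  refine ⟨w, h1.norm_one, fun g => ⟨(δ g)⁻¹.1, (δ g)⁻¹.2, χ g, h2 g, ?_⟩⟩
  rw [h3 g]
  have e : RR α (δ g)⁻¹ = RR₁ α (δ g)⁻¹.1 * RR₂ α (δ g)⁻¹.2 := RR_eq (δ g)⁻¹.1 (δ g)⁻¹.2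
  change χ g • RR α (δ g)⁻¹ w = _
  rw [e]
  rfl

end mono

end Vale.Agent.P092.H264
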