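import Vale.Agent.P092.H264.EndN
import Vale.Agent.P092.H264.EndM
import Vale.Agent.P092.RC.Core
import Vale.Agent.P092.H100.PgE
import Vale.Agent.P092.H76.NoInvP

/-!
P092 (helper264), team C (one simple factor), block [C-END]: the literal statement `RC.EndStmt`.
-/

set_option linter.all false

open scoped InnerProductSpace ENNReal LinearAlgebra.Projectivization
open Filter Topology ContinuousLinearMap TopologicalSpace MeasureTheory

namespace Vale.Agent.P092.H264.Fin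

open Vale.Agent.P092.RC Vale.Agent.P092.SR Vale.Agent.P092.H160
open Vale.Agent.P092.H820 (Cpv)
open Vale.Agent.P092.H100.Pg (gaP geoP box_good lin lin_pair lin_triple lin_moore sl_moore2 pt_ne
  ct_ct ct_cont exists_smul_l0 rc_moore emb_ct_fin emb_ct_sc D3 ln)

section conv

variable {𝒢 X Y : Type*} [Group 𝒢] [TopologicalSpace X] [TopologicalSpace Y]

/-- the change of letters -/
def ga (A : H264.GA 𝒢 X) : Op.GA 𝒢 X := ⟨A.a, A.one, A.mul, A.cont⟩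

theorem geo {A : H264.GA 𝒢 X} {B : H264.GA 𝒢 Y} {ln : X × X → Y} {D₃ : Set ((X × X) × X)}
    (h : H264.Geo A B ln D₃) : Op.Geo (ga A) (ga B) ln D₃ where
  off := h.off
  lne := h.lne
  inv := h.inv
  l13 := h.l13
  l23 := h.l23

end conv

section lat

variable {k : Type} [NontriviallyNormedField k] [ProperSpace k]

/-- the contragredient automorphism -/
def ctE : GG k 2 ≃* GG k 2 where
  toFun := ct
  invFun := ct
  left_inv := ct_ct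
  right_inv := ct_ct
  map_mul' := map_mul ct

theorem lat_ct {Γ : Type} [Group Γ] {ι : Γ →* GG k 2} (h : H515.St.IsLattice ι.range) :
    H515.St.IsLattice ((ct : GG k 2 →* GG k 2).comp ι).range := by
  haveI h1 : LocallyCompactSpace (GG k 2) := H303.locallyCompact_SL
  haveI h2 : SecondCountableTopology (GG k 2) := H303.secondCountable_SL
  have h3 := H515.IsLattice.map_equiv (ctE (k := k)) ct_cont ct_cont (Λ := ι.range)
    ⟨h.disc, h.covol⟩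
  have e : (ι.range).map ((ctE (k := k) : GG k 2 ≃* GG k 2) : GG k 2 →* GG k 2) =
      ((ct : GG k 2 →* GG k 2).comp ι).range := by
    rw [MonoidHom.range_comp]
    rfl
  rw [e] at h3
  exact ⟨h3.disc, h3.covol⟩

variable [IsUltrametricDist k]

/-- no invariant mean on the plane -/
theorem ni {Γ : Type} [Group Γ] {ι : Γ →* GG k 2} (h : H515.St.IsLattice ι.range)
    (φ : Clopens (ℙ k (Fin 3 → k)) → ℝ) (h0 : ∀ U, 0 ≤ φ U)
    (hadd : ∀ U V : Clopens (ℙ k (Fin 3 → k)), Disjoint U V → φ (U ⊔ V) = φ U + φ V)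
    (h1 : φ ⊤ = 1) (hinv : ∀ γ U, φ ((ga (gaP ι)).tr γ U) = φ U) : False := by
  refine H76.NI.no_inv_clopens (ι := Fin 3) (i := 0) (j := 1) (by decide) ι.range h.covol φ h0
    hadd h1 ?_
  rintro _ ⟨γ, rfl⟩ U V hUV
  have e : V = (ga (gaP ι)).tr γ U := by
    refine SetLike.coe_injective ?_
    rw [hUV]
    ext x
    have e1 : x ∈ (ga (gaP ι)).tr γ U ↔ ι γ⁻¹ • x ∈ U := Iff.rfl
    rw [Set.mem_smul_set_iff_inv_smul_mem]
    change (ι γ)⁻¹ • x ∈ U ↔ ι γ⁻¹ • x ∈ U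
    rw [map_inv]
  rw [e, hinv]

end lat

section src

variable {k : Type} [NontriviallyNormedField k] [ProperSpace k] [IsUltrametricDist k]

theorem src : Op.Src (GG k 2) (lin (k := k)) where
  sup2 i j hij := lin_pair hij.ne
  sup3 i j l hij hjl := lin_triple hij.ne (hij.trans hjl).ne hjl.ne
  moore i j l hij hjl :=
    rc_moore (lin_moore (H933.LocK.ultra inferInstance) hij.ne (hij.trans hjl).ne hjl.ne)
  moore2 i j hij := rc_moore (sl_moore2 (H933.LocK.ultra inferInstance) (pt_ne hij.ne))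

end src

section leg

variable {k : Type} [NontriviallyNormedField k] [ProperSpace k] [IsUltrametricDist k]
  [ContinuousConstSMul (GG k 2) (LL k)] {Γ K : Type} [Group Γ] [NormedAddCommGroup K]
  [InnerProductSpace ℂ K] [CompleteSpace K] {π : GG k 2 →* (K →L[ℂ] K)}
  {lam : Γ →* (K →L[ℂ] K)} {W : Set (K →L[ℂ] K)} {Ω : K} {q : Γ →* GG k 2}
  {F : Clopens (LL k) → (K →L[ℂ] K)}

/-- the action of the target on its lines -/
noncomputable def aq (q : Γ →* GG k 2) : Op.GA Γ (ℙ k (Fin 3 → k)) :=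
  ga (gaP ((ct : GG k 2 →* GG k 2).comp q))

theorem sm_eq (γ : Γ) (U : Clopens (LL k)) :
    (sm (q γ) U : Clopens (LL k)) = (aq q).tr γ (U : Clopens (ℙ k (Fin 3 → k))) := by
  refine SetLike.coe_injective ?_
  ext x
  have h1 : x ∈ sm (q γ) U ↔ (q γ)⁻¹ • x ∈ U := Iff.rfl
  have h2 : (H100.Pg.cd x) ∈ (aq q).tr γ (U : Clopens (ℙ k (Fin 3 → k))) ↔
      (ct (q γ⁻¹) : GG k 2) • H100.Pg.cd x ∈ (U : Clopens (ℙ k (Fin 3 → k))) := Iff.rfl
  have h3 : (ct (q γ⁻¹) : GG k 2) • H100.Pg.cd x ∈ (U : Clopens (ℙ k (Fin 3 → k))) ↔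
      (q γ)⁻¹ • x ∈ U := by
    rw [map_inv]
    exact Iff.rfl
  exact h1.trans (h3.symm.trans h2.symm)

theorem pf_of (hc : Cpv F) (hm : ∀ C, Cm W (F C))
    (hv : ∀ γ C, lam γ * F C * lam γ⁻¹ = F (sm (q γ) C)) :
    Op.PF lam W (aq q) (F : Clopens (ℙ k (Fin 3 → k)) → (K →L[ℂ] K)) where
  cpv := hc
  cm U w hw := hm U w hw
  cov γ U := (hv γ U).trans (congrArg F (sm_eq γ U))

theorem erg_of (hp : Pic π lam W Ω) (R : Set (GG k 2)) (hR : RC.Moore R) :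
    Op.ErgS π lam W R := fun T h1 h2 h3 => hp.erg R hR T h1 h2 h3

theorem noC_of (hp : Pic π lam W Ω) {ι : Γ →* GG k 2} (h : H515.St.IsLattice ι.range) :
    Op.NoC π lam W (ga (gaP ι)) :=
  Op.noC_of_inv hp.nΩ hp.inv (ni h)

/-- one leg: the family of the lines is in general position. -/
theorem leg_gen (hp : Pic π lam W Ω) (hq : Emb q)
    {P : LL k → Clopens (ℙ k (Fin 3 → k)) → (K →L[ℂ] K)} (hP : Op.PFam π lam W (aq q) P)
    {O₃ : ℕ → Clopens ((ℙ k (Fin 3 → k) × ℙ k (Fin 3 → k)) × ℙ k (Fin 3 → k))}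
    (hO₃ : NB D3 O₃) : SLim (fun n => Op.J4 P lin (Op.bad4 O₃ n)) 0 := by
  have hl := lat_ct hq.lat
  have hl2 := lat_ct hl
  obtain ⟨O, hO⟩ := exists_nb {p : ℙ k (Fin 3 → k) × ℙ k (Fin 3 → k) | p.1 = p.2}
  exact hP.gen (geo (geoP ((ct : GG k 2 →* GG k 2).comp q))) hO hO₃ (noC_of hp hl)
    (noC_of hp hl2) (erg_of hp) src

/-- good boxes off the bad set -/
theorem good (hq : Emb q) (hicc : ∀ g : Γ, g ≠ 1 → Set.Infinite {y : Γ | ∃ h, y = h * g * h⁻¹})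
    {O₃ : ℕ → Clopens ((ℙ k (Fin 3 → k) × ℙ k (Fin 3 → k)) × ℙ k (Fin 3 → k))}
    (hO₃ : NB D3 O₃) (n : ℕ)
    (z : ((ℙ k (Fin 3 → k) × ℙ k (Fin 3 → k)) × ℙ k (Fin 3 → k)) × ℙ k (Fin 3 → k))
    (hz : z ∉ Op.bad4 O₃ n) :
    ∃ C : Clopens (((ℙ k (Fin 3 → k) × ℙ k (Fin 3 → k)) × ℙ k (Fin 3 → k)) × ℙ k (Fin 3 → k)),
      z ∈ C ∧ ∀ g, g ≠ 1 → Disjoint C (((((aq q).prod (aq q)).prod (aq q)).prod
        (aq q)).tr g C) :=
  box_good (MonoidHom.id Γ) ((ct : GG k 2 →* GG k 2).comp q) (emb_ct_fin hq) (emb_ct_sc hq hicc)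
    hO₃ n z hz

end leg

/-- **[C-END]**, any characteristic. -/
theorem end_of_out (k : Type) [NontriviallyNormedField k] [ProperSpace k] [IsUltrametricDist k]
    [ContinuousConstSMul (GG k 2) (LL k)]
    [LocallyCompactSpace (GG k 2)] [SecondCountableTopology (GG k 2)] [MeasurableSpace (GG k 2)]
    [BorelSpace (GG k 2)] {Γ : Subgroup (GG k 2)} [DiscreteTopology Γ] [Countable Γ]
    [MeasurableSpace (GG k 2 ⧸ Γ)] [BorelSpace (GG k 2 ⧸ Γ)] {ν : Measure (GG k 2 ⧸ Γ)}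
    [IsProbabilityMeasure ν] (hν : ∀ g : GG k 2, ν.map (fun x => g • x) = ν)
    (hicc : ∀ g : Γ, g ≠ 1 → Set.Infinite {y : Γ | ∃ h, y = h * g * h⁻¹})
    {Λ : Type} [Group Λ]
    {α : Γ →* (Ell2 Λ →L[ℂ] Ell2 Λ)} (hα : Frame α) (q₁ q₂ : Γ →* GG k 2)
    (F₁ F₂ : Clopens (LL k) → (KC hν Λ →L[ℂ] KC hν Λ))
    (hp : Pic2 (piC hν hα) (lamC hν (RR₁ α)) (lamC hν (RR₂ α)) (XC hν Λ) (OmC hν Λ))
    (ho : Out (piC hν hα) (lamC hν (RR₁ α)) (lamC hν (RR₂ α)) (XC hν Λ) q₁ q₂ F₁ F₂) :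
    MonoV α := by
  have htr : ∀ l : LL k, ∃ g : GG k 2, g • (l0 : LL k) = l := exists_smul_l0
  have P1 := Op.pfam htr hp.leg₁.adjP hp.leg₁.comm hp.leg₁.WP
    (pf_of ho.cpv₁ ho.cm₁ ho.cov₁) ho.par₁ ho.comm₁
  have P2 := Op.pfam htr hp.leg₂.adjP hp.leg₂.comm hp.leg₂.WP
    (pf_of ho.cpv₂ ho.cm₂ ho.cov₂) ho.par₂ ho.comm₂
  have c12 := Op.fam_comm htr ho.par₁ ho.par₂ ho.comm₁₂
  obtain ⟨O₃, hO₃⟩ := exists_nb (D3 : Set ((ℙ k (Fin 3 → k) × ℙ k (Fin 3 → k)) ×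
    ℙ k (Fin 3 → k)))
  have g1 := leg_gen hp.leg₁ ho.emb₁ P1 hO₃
  have g2 := leg_gen hp.leg₂ ho.emb₂ P2 hO₃
  haveI hnt : Nontrivial (KC hν Λ) := ⟨⟨OmC hν Λ, 0, fun e => by
    have h1 := hp.leg₁.nΩ
    rw [e, norm_zero] at h1
    exact zero_ne_one h1⟩⟩
  obtain ⟨T, t1, t2, t3, t4, t5, t6⟩ := Op.exists_op P1 P2 c12
    (fun γ => Or.inr ⟨γ, rfl⟩) (fun γ => Or.inr ⟨γ, rfl⟩) (Y := XC hν Λ)
    Set.subset_union_left Set.subset_union_left g1 g2 (good ho.emb₁ hicc hO₃)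
    (good ho.emb₂ hicc hO₃)
  have hcm : ∀ a b, lamC hν (RR₁ α) a * lamC hν (RR₂ α) b =
      lamC hν (RR₂ α) b * lamC hν (RR₁ α) a := fun a b =>
    (hp.leg₁.WL _ (Or.inr ⟨b, rfl⟩) a).symm
  have hRi : ∀ x : Γ × Γ, RK hν α x⁻¹ =
      lamC hν (RR₂ α) x.2⁻¹ * lamC hν (RR₁ α) x.1⁻¹ := fun x => hcm _ _
  have hR : ∀ x : Γ × Γ, RK hν α x =
      lamC hν (RR₁ α) x.1 * lamC hν (RR₂ α) x.2 := fun x => rfl
  have hpos : ∀ ξ, 0 ≤ (⟪T ξ, ξ⟫_ℂ).re := fun ξ => by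
    have e2 : T ξ = T (T ξ) := congrArg (fun B : KC hν Λ →L[ℂ] KC hν Λ => B ξ) t2.symm
    have e1 : ⟪T ξ, ξ⟫_ℂ = ⟪T ξ, T ξ⟫_ℂ := by
      conv_lhs => rw [e2]
      rw [← adjoint_inner_right, t1]
    rw [e1]
    exact inner_self_nonneg (𝕜 := ℂ)
  have hcj : ∀ x : Γ × Γ, RK hν α x * T * RK hν α x⁻¹ =
      lamC hν (RR₁ α) x.1 * lamC hν (RR₂ α) x.2 * T *
        (lamC hν (RR₂ α) x.2⁻¹ * lamC hν (RR₁ α) x.1⁻¹) := fun x => by
    rw [hRi x, hR x]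
  have h5 : ∀ x : Γ × Γ, x ≠ 1 → T * (RK hν α x * T * RK hν α x⁻¹) = 0 := fun x hx =>
    (congrArg (fun S => T * S) (hcj x)).trans (t5 x.1 x.2 hx)
  have h6 : ∀ g (x : Γ × Γ), T * (piC hν hα g * (RK hν α x * T * RK hν α x⁻¹) *
      piC hν hα g⁻¹) = piC hν hα g * (RK hν α x * T * RK hν α x⁻¹) * piC hν hα g⁻¹ * T :=
    fun g x => by
      have e := t6 g x.1 x.2
      rw [← hcj x] at e
      exact e
  exact mono_of_op hν hα (T := T) (fun S hS => t4 _ ⟨S, hS, rfl⟩) t1 hpos t3 h5 h6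

/-- **[C-END]** -/
theorem endStmt : RC.EndStmt := by
  intro k _ _ _ _ _ _ _ _ _ Γ _ _ _ _ ν _ hν hlat hicc Λ _ _ hΛ α hα q₁ q₂ F₁ F₂ hp ho
  exact end_of_out k hν hicc hα q₁ q₂ F₁ F₂ hp ho

end Vale.Agent.P092.H264.Fin
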