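import Vale.Agent.P092.H264.AmpC
import Vale.Agent.P092.H264.EndStmt

/-!
P092 (helper264), [END-T], Team C: from the line families (`RC.Out`) on `L²(G/Γ; ℋ)`, `ℋ` any fibre
with `SR.Tri V R₁ R₂ ξ`, to overlap; any characteristic, all amplifications.
-/

set_option linter.all false

open scoped InnerProductSpace ENNReal LinearAlgebra.Projectivization
open Filter Topology ContinuousLinearMap TopologicalSpace MeasureTheory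

namespace Vale.Agent.P092.H264.Amp

open Vale.Agent.P092.RC Vale.Agent.P092.SR Vale.Agent.P092.H160 Vale.Agent.P092.H264
open Vale.Agent.P092.H820 (Cpv)
open Vale.Agent.P092.H100.Pg (gaP geoP box_good lin lin_pair lin_triple lin_moore sl_moore2 pt_ne
  ct_ct ct_cont exists_smul_l0 rc_moore emb_ct_fin emb_ct_sc D3 ln)
open Vale.Agent.P092.H264.Fin (ga geo lat_ct ni src aq pf_of good)

section leg

variable {H Γ K : Type} [Group H] [TopologicalSpace H] [Group Γ] [NormedAddCommGroup K]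
  [InnerProductSpace ℂ K] [CompleteSpace K]

/-- What the end needs from the picture of one leg. -/
structure ELeg (π : H →* (K →L[ℂ] K)) (lam : Γ →* (K →L[ℂ] K)) (W : Set (K →L[ℂ] K)) : Prop where
  adjP : ∀ g, adjoint (π g) = π g⁻¹
  comm : ∀ g γ, π g * lam γ = lam γ * π g
  WP : ∀ w ∈ W, ∀ g, π g * w * π g⁻¹ ∈ W
  WL : ∀ w ∈ W, ∀ γ, w * lam γ = lam γ * w
  erg : ∀ S : Set H, RC.Moore S → ∀ T, Cm W T → (∀ γ, T * lam γ = lam γ * T) →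
    (∀ g ∈ S, T * π g = π g * T) → ∃ z : ℂ, T = z • (1 : K →L[ℂ] K)
  inv : ∃ (J : Type) (_ : Fintype J) (Ω : J → K), ∑ i, ‖Ω i‖ ^ 2 = 1 ∧
    ∀ T, Cm W T → (∀ g, T * π g = π g * T) → ∀ γ,
      ∑ i, ⟪Ω i, (lam γ * T * lam γ⁻¹) (Ω i)⟫_ℂ = ∑ i, ⟪Ω i, T (Ω i)⟫_ℂ

theorem ELeg.of_pic {π : H →* (K →L[ℂ] K)} {lam : Γ →* (K →L[ℂ] K)} {W : Set (K →L[ℂ] K)} {Ω : K}
    (h : Pic π lam W Ω) : ELeg π lam W :=
  ⟨h.adjP, h.comm, h.WP, h.WL, h.erg, PUnit, inferInstance, fun _ => Ω, by simp [h.nΩ],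
    fun T h1 h2 γ => by simpa using h.inv T h1 h2 γ⟩

variable {X : Type*} [TopologicalSpace X] {π : H →* (K →L[ℂ] K)} {lam : Γ →* (K →L[ℂ] K)}
  {W : Set (K →L[ℂ] K)} {A : Op.GA Γ X}

/-- No covariant measure commutes with the source group. -/
theorem ELeg.noC (h : ELeg π lam W)
    (hNI : ∀ φ : Clopens X → ℝ, (∀ U, 0 ≤ φ U) →
      (∀ U V : Clopens X, Disjoint U V → φ (U ⊔ V) = φ U + φ V) → φ ⊤ = 1 →
      (∀ γ U, φ (A.tr γ U) = φ U) → False) : Op.NoC π lam W A := by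
  intro P hP hc
  obtain ⟨J, _, Ω, hΩ, hinv⟩ := h.inv
  have h0 : ∀ U i, (⟪Ω i, P U (Ω i)⟫_ℂ).re = ‖P U (Ω i)‖ ^ 2 := by
    intro U i
    have e1 : ⟪Ω i, P U (Ω i)⟫_ℂ = ⟪P U (Ω i), P U (Ω i)⟫_ℂ := by
      have e2 : P U (Ω i) = P U (P U (Ω i)) :=
        congrArg (fun B : K →L[ℂ] K => B (Ω i)) (hP.cpv.idem U).symm
      conv_lhs => rw [e2]
      rw [← adjoint_inner_left]
      have e3 : adjoint (P U) = P U := hP.cpv.sa U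
      rw [e3]
    rw [e1]
    exact inner_self_eq_norm_sq (𝕜 := ℂ) (P U (Ω i))
  refine hNI (fun U => ∑ i, (⟪Ω i, P U (Ω i)⟫_ℂ).re) (fun U => ?_) (fun U V hUV => ?_) ?_
    fun γ U => ?_
  · refine Finset.sum_nonneg fun i _ => ?_
    rw [h0]
    positivity
  · have e1 : P (U ⊔ V) = P U + P V := by
      rw [hP.cpv.sup, hP.cpv.disj hUV, sub_zero]
    change ∑ i, (⟪Ω i, P (U ⊔ V) (Ω i)⟫_ℂ).re = ∑ i, (⟪Ω i, P U (Ω i)⟫_ℂ).re +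
      ∑ i, (⟪Ω i, P V (Ω i)⟫_ℂ).re
    rw [← Finset.sum_add_distrib]
    refine Finset.sum_congr rfl fun i _ => ?_
    rw [e1, ContinuousLinearMap.add_apply, inner_add_right, Complex.add_re]
  · change ∑ i, (⟪Ω i, P ⊤ (Ω i)⟫_ℂ).re = 1
    rw [← hΩ]
    refine Finset.sum_congr rfl fun i _ => ?_
    rw [h0, hP.cpv.top, ContinuousLinearMap.one_apply]
  · change ∑ i, (⟪Ω i, P (A.tr γ U) (Ω i)⟫_ℂ).re = ∑ i, (⟪Ω i, P U (Ω i)⟫_ℂ).re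
    rw [← Complex.re_sum, ← Complex.re_sum, ← hP.cov γ U,
      hinv (P U) (fun w hw => hP.cm U w hw) (fun g => hc g U) γ]

end leg

section legk

variable {k : Type} [NontriviallyNormedField k] [ProperSpace k] [IsUltrametricDist k]
  [ContinuousConstSMul (GG k 2) (LL k)] {Γ K : Type} [Group Γ] [NormedAddCommGroup K]
  [InnerProductSpace ℂ K] [CompleteSpace K] {π : GG k 2 →* (K →L[ℂ] K)}
  {lam : Γ →* (K →L[ℂ] K)} {W : Set (K →L[ℂ] K)} {q : Γ →* GG k 2}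
  {F : Clopens (LL k) → (K →L[ℂ] K)}

/-- one leg: the family of the lines is in general position. -/
theorem leg_gen (hp : ELeg π lam W) (hq : Emb q)
    {P : LL k → Clopens (ℙ k (Fin 3 → k)) → (K →L[ℂ] K)} (hP : Op.PFam π lam W (aq q) P)
    {O₃ : ℕ → Clopens ((ℙ k (Fin 3 → k) × ℙ k (Fin 3 → k)) × ℙ k (Fin 3 → k))}
    (hO₃ : NB D3 O₃) : SLim (fun n => Op.J4 P lin (Op.bad4 O₃ n)) 0 := by
  have hl := lat_ct hq.lat
  have hl2 := lat_ct hl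
  obtain ⟨O, hO⟩ := exists_nb {p : ℙ k (Fin 3 → k) × ℙ k (Fin 3 → k) | p.1 = p.2}
  exact hP.gen (geo (geoP ((ct : GG k 2 →* GG k 2).comp q))) hO hO₃ (hp.noC (ni hl))
    (hp.noC (ni hl2)) (fun R hR T h1 h2 h3 => hp.erg R hR T h1 h2 h3) src

end legk

/-- **[END-T], Team C.** -/
theorem over_of_out (k : Type) [NontriviallyNormedField k] [ProperSpace k] [IsUltrametricDist k]
    [ContinuousConstSMul (GG k 2) (LL k)]
    [LocallyCompactSpace (GG k 2)] [SecondCountableTopology (GG k 2)] [MeasurableSpace (GG k 2)]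
    [BorelSpace (GG k 2)] {Γ : Subgroup (GG k 2)} [DiscreteTopology Γ] [Countable Γ]
    [MeasurableSpace (GG k 2 ⧸ Γ)] [BorelSpace (GG k 2 ⧸ Γ)] {ν : Measure (GG k 2 ⧸ Γ)}
    [IsProbabilityMeasure ν] (hν : ∀ g : GG k 2, ν.map (fun x => g • x) = ν)
    (hicc : ∀ g : Γ, g ≠ 1 → Set.Infinite {y : Γ | ∃ h, y = h * g * h⁻¹})
    {ℋ ι : Type} [NormedAddCommGroup ℋ] [InnerProductSpace ℂ ℋ] [CompleteSpace ℋ] [Fintype ι]
    {V R₁ R₂ : Γ →* (ℋ →L[ℂ] ℋ)} {ξ : ι → ℋ} (hT : Tri V R₁ R₂ ξ) (q₁ q₂ : Γ →* GG k 2)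
    (F₁ F₂ : Clopens (LL k) → (Lp ℋ 2 (H85.cdat ν hν).μ →L[ℂ] Lp ℋ 2 (H85.cdat ν hν).μ))
    {X : Set (Lp ℋ 2 (H85.cdat ν hν).μ →L[ℂ] Lp ℋ 2 (H85.cdat ν hν).μ)}
    (hX : ∀ S, MeasurableSet S → H790.ind (H85.cdat ν hν).μ ℋ S ∈ X)
    (hp₁ : ELeg (H34.Ind.pi (H85.cdat ν hν) (V := V) hT.adjV) (H34.Ind.lam (H85.cdat ν hν) R₁)
      (X ∪ Set.range (H34.Ind.lam (H85.cdat ν hν) R₂)))
    (hp₂ : ELeg (H34.Ind.pi (H85.cdat ν hν) (V := V) hT.adjV) (H34.Ind.lam (H85.cdat ν hν) R₂)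
      (X ∪ Set.range (H34.Ind.lam (H85.cdat ν hν) R₁)))
    (ho : Out (H34.Ind.pi (H85.cdat ν hν) (V := V) hT.adjV) (H34.Ind.lam (H85.cdat ν hν) R₁)
      (H34.Ind.lam (H85.cdat ν hν) R₂) X q₁ q₂ F₁ F₂) :
    Over V R₁ R₂ := by
  have htr : ∀ l : LL k, ∃ g : GG k 2, g • (l0 : LL k) = l := exists_smul_l0
  have P1 := Op.pfam htr hp₁.adjP hp₁.comm hp₁.WP
    (pf_of ho.cpv₁ ho.cm₁ ho.cov₁) ho.par₁ ho.comm₁
  have P2 := Op.pfam htr hp₂.adjP hp₂.comm hp₂.WP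
    (pf_of ho.cpv₂ ho.cm₂ ho.cov₂) ho.par₂ ho.comm₂
  have c12 := Op.fam_comm htr ho.par₁ ho.par₂ ho.comm₁₂
  obtain ⟨O₃, hO₃⟩ := exists_nb (D3 : Set ((ℙ k (Fin 3 → k) × ℙ k (Fin 3 → k)) ×
    ℙ k (Fin 3 → k)))
  have g1 := leg_gen hp₁ ho.emb₁ P1 hO₃
  have g2 := leg_gen hp₂ ho.emb₂ P2 hO₃
  obtain ⟨k₀, hk⟩ := hT.ne
  haveI hnt : Nontrivial (Lp ℋ 2 (H85.cdat ν hν).μ) :=
    ⟨⟨(Lp.const 2 (H85.cdat ν hν).μ (ξ k₀) : Lp ℋ 2 (H85.cdat ν hν).μ), 0, fun h0 => by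
      have h1 : ‖(Lp.const 2 (H85.cdat ν hν).μ (ξ k₀) : Lp ℋ 2 (H85.cdat ν hν).μ)‖ = ‖ξ k₀‖ :=
        norm_const_prob (μ := ν) (ξ k₀)
      rw [h0, norm_zero] at h1
      exact hk (norm_eq_zero.1 h1.symm)⟩⟩
  obtain ⟨T, t1, t2, t3, t4, t5, t6⟩ := Op.exists_op P1 P2 c12
    (fun γ => Or.inr ⟨γ, rfl⟩) (fun γ => Or.inr ⟨γ, rfl⟩) (Y := X)
    Set.subset_union_left Set.subset_union_left g1 g2 (good ho.emb₁ hicc hO₃)
    (good ho.emb₂ hicc hO₃)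
  have hcm : ∀ a b, H34.Ind.lam (H85.cdat ν hν) R₁ a * H34.Ind.lam (H85.cdat ν hν) R₂ b =
      H34.Ind.lam (H85.cdat ν hν) R₂ b * H34.Ind.lam (H85.cdat ν hν) R₁ a := fun a b =>
    (hp₁.WL _ (Or.inr ⟨b, rfl⟩) a).symm
  have h7 : ∀ x : Γ × Γ, (H34.Ind.lam (H85.cdat ν hν) R₁ x.1 *
      H34.Ind.lam (H85.cdat ν hν) R₂ x.2) * T * (H34.Ind.lam (H85.cdat ν hν) R₁ x.1⁻¹ *
        H34.Ind.lam (H85.cdat ν hν) R₂ x.2⁻¹) = H34.Ind.lam (H85.cdat ν hν) R₁ x.1 *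
      H34.Ind.lam (H85.cdat ν hν) R₂ x.2 * T * (H34.Ind.lam (H85.cdat ν hν) R₂ x.2⁻¹ *
        H34.Ind.lam (H85.cdat ν hν) R₁ x.1⁻¹) := fun x =>
    congrArg (fun S => H34.Ind.lam (H85.cdat ν hν) R₁ x.1 *
      H34.Ind.lam (H85.cdat ν hν) R₂ x.2 * T * S) (hcm x.1⁻¹ x.2⁻¹)
  exact over_of_op hν hT (T := T) (fun S hS => t4 _ (hX S hS)) t1 t3
    (fun x hx => (congrArg (fun S => T * S) (h7 x)).trans (t5 x.1 x.2 hx))
    (fun g x => (congrArg (fun S => T * (H34.Ind.pi (H85.cdat ν hν) (V := V) hT.adjV g * S *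
      H34.Ind.pi (H85.cdat ν hν) (V := V) hT.adjV g⁻¹)) (h7 x)).trans
        ((t6 g x.1 x.2).trans (congrArg (fun S => H34.Ind.pi (H85.cdat ν hν) (V := V) hT.adjV g *
          S * H34.Ind.pi (H85.cdat ν hν) (V := V) hT.adjV g⁻¹ * T) (h7 x)).symm))

end Vale.Agent.P092.H264.Amp
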