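import Vale.Agent.P092.H264.Row
import Mathlib.MeasureTheory.Group.Measure

/-!
P092 (helper264), team A: the test set of (S2): for `S` compact there is a compact `U` such that
`μ (U ∩ x U) ≥ c > 0` for all `x ∈ S`.
-/

set_option linter.all false

open scoped InnerProductSpace Topology Pointwise
open Filter Topology ContinuousLinearMap MeasureTheory

namespace Vale.Agent.P092.H264

open Vale.Agent.P092.H160 Vale.Agent.P092.H156
open Vale.Agent.P092.H538 (ind ind_nonneg ind_le_one abs_ind_le ind_pos ind_neg)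

section U

variable {G : Type*} [Group G] [TopologicalSpace G] [IsTopologicalGroup G] [LocallyCompactSpace G]
  [T2Space G] [MeasurableSpace G] [BorelSpace G] (μ : Measure G) [μ.IsMulLeftInvariant]
  [IsFiniteMeasureOnCompacts μ] [μ.IsOpenPosMeasure]

/-- The test set. -/
theorem exists_U {S : Set G} (hS : IsCompact S) :
    ∃ U : Set G, IsCompact U ∧ MeasurableSet U ∧ μ U ≠ ⊤ ∧ ∃ c : ℝ, 0 < c ∧
      ∀ x ∈ S, c ≤ μ.real (U ∩ x • U) := by
  obtain ⟨U₀, hU₀, h1⟩ := exists_compact_mem_nhds (1 : G)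
  have hU : IsCompact (S * U₀ ∪ U₀) := (hS.mul hU₀).union hU₀
  refine ⟨S * U₀ ∪ U₀, hU, hU.isClosed.measurableSet, hU.measure_lt_top.ne, μ.real U₀, ?_, ?_⟩
  · rw [Measure.real, ENNReal.toReal_pos_iff]
    exact ⟨μ.measure_pos_of_mem_nhds h1, hU₀.measure_lt_top⟩
  · intro x hx
    have h2 : μ.real (x • U₀) = μ.real U₀ := by
      rw [Measure.real, Measure.real, measure_smul]
    rw [← h2]
    refine measureReal_mono ?_ ?_
    · rintro _ ⟨y, hy, rfl⟩
      exact ⟨Or.inl (Set.mul_mem_mul hx hy), ⟨y, Or.inr hy, rfl⟩⟩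
    · exact ((measure_mono Set.inter_subset_left).trans_lt hU.measure_lt_top).ne

end U

section low

variable {Γ Λ K G : Type} [Group Γ] [Group Λ] [NormedAddCommGroup K] [InnerProductSpace ℂ K]
  [CompleteSpace K] {ρ : Γ →* (K →L[ℂ] K)} {V : Λ →* (K →L[ℂ] K)} {ω : K} [Group G]
  [MeasurableSpace G] {μ : Measure G} {ι : Γ →* G}

/-- The coefficient is at least a multiple of the mass. -/
theorem ms_le_coef (h : RegRep ρ ω) {U : Set G} (hU : μ U ≠ ⊤) {S : Set G} {c : ℝ}
    (hc : ∀ x ∈ S, c ≤ μ.real (U ∩ x • U)) (v : Λ) :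
    c * ms ρ V ω (fun γ => ι γ ∈ S) v ≤
      ∑' γ, μ.real (U ∩ ι γ • U) * ‖⟪ρ γ ω, V v ω⟫_ℂ‖ ^ 2 := by
  have h0 : ∀ γ : Γ, |μ.real (U ∩ ι γ • U)| ≤ μ.real U := fun γ => by
    rw [abs_of_nonneg measureReal_nonneg]
    exact measureReal_mono Set.inter_subset_left hU
  rw [ms, ← tsum_mul_left]
  refine Summable.tsum_le_tsum (fun γ => ?_) ((summable_ms h (fun g => abs_ind_le _ g) _).mul_left c)
    (summable_ms h h0 _)
  by_cases hγ : ι γ ∈ S
  · rw [ind_pos (P := fun γ => ι γ ∈ S) hγ, one_mul]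
    exact mul_le_mul_of_nonneg_right (hc _ hγ) (by positivity)
  · rw [ind_neg (P := fun γ => ι γ ∈ S) hγ, zero_mul, mul_zero]
    exact mul_nonneg measureReal_nonneg (by positivity)

end low

end Vale.Agent.P092.H264
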