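import Vale.Agent.P092.H465.EndQ

/-!
P092 (helper264), team C (one simple factor), block [C-END], abstract part: a measurable family of
positive operators `T s`, commuting for almost every pair together with their translates, each one
annihilated by its own translates, and permuted by the source group, makes the isomorphism
canonical.
-/

set_option linter.all false

open scoped InnerProductSpace
open Filter Topology ContinuousLinearMap MeasureTheory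

namespace Vale.Agent.P092.H264

open Vale.Agent.P092.H828

section vec

variable {E : Type*} [NormedAddCommGroup E] [InnerProductSpace ℂ E] [CompleteSpace E]
variable {X : Type*} [Group X] {R : X → (E →L[ℂ] E)} {ξ : E}

/-- A nonzero selfadjoint operator annihilated by its translates has rank one. -/
theorem rank_one_vec (h : Reg R ξ) {T : E →L[ℂ] E} (hTa : adjoint T = T) (hT0 : T ≠ 0)
    (hTo : ∀ x, x ≠ 1 → T * (R x * T * R x⁻¹) = 0) :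
    ∃ (ζ : E) (c : ℂ), ‖ζ‖ = 1 ∧ c ≠ 0 ∧ (starRingEnd ℂ) c = c ∧ ∀ u, T u = (c * ⟪ζ, u⟫_ℂ) • ζ := by
  have hU : URep R := h.toURep
  have hTi : ∀ u v, ⟪T u, v⟫_ℂ = ⟪u, T v⟫_ℂ := fun u v => by
    rw [← adjoint_inner_right, hTa]
  have h0 : ∀ x, x ≠ 1 → ∀ v, T (R x (T v)) = 0 := by
    intro x hx v
    have h1 := congrArg (fun S : E →L[ℂ] E => S (R x v)) (hTo x hx)
    have h2 : T (R x (T (R x⁻¹ (R x v)))) = 0 := h1
    rwa [hU.inv_apply] at h2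
  obtain ⟨v, hv⟩ : ∃ v, T v ≠ 0 := by
    by_contra hn
    push Not at hn
    exact hT0 (ContinuousLinearMap.ext fun v => by rw [hn]; rfl)
  have hn : ‖T v‖ ≠ 0 := norm_ne_zero_iff.mpr hv
  obtain ⟨a, ha⟩ : ∃ a : ℂ, a = ((‖T v‖ : ℝ) : ℂ)⁻¹ := ⟨_, rfl⟩
  obtain ⟨ζ, hζ⟩ : ∃ ζ, ζ = a • T v := ⟨_, rfl⟩
  have hζ1 : ‖ζ‖ = 1 := by
    rw [hζ, ha, norm_smul, norm_inv, Complex.norm_real, norm_norm, inv_mul_cancel₀ hn]
  have hζx : ∀ x, x ≠ 1 → T (R x ζ) = 0 := fun x hx => by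
    rw [hζ, map_smul, map_smul, h0 x hx, smul_zero]
  have hw : ∀ x, x ≠ 1 → ⟪ζ, R x ζ⟫_ℂ = 0 := by
    intro x hx
    have h1 : ⟪ζ, R x ζ⟫_ℂ = (starRingEnd ℂ) a * ⟪v, T (R x ζ)⟫_ℂ := by
      rw [← hTi]
      nth_rewrite 1 [hζ]
      rw [inner_smul_left]
    rw [h1, hζx x hx, inner_zero_right, mul_zero]
  have hval : ∀ u, T u = ⟪ζ, T u⟫_ℂ • ζ := by
    intro u
    rw [← sub_eq_zero]
    refine total_of_wander h hζ1 hw _ fun x => ?_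
    by_cases hx : x = 1
    · rw [hx, hU.one_apply, inner_sub_right, inner_smul_right, inner_self_eq_norm_sq_to_K, hζ1]
      simp
    · have h2 : ⟪R x ζ, ζ⟫_ℂ = 0 := by rw [← inner_conj_symm, hw x hx, map_zero]
      rw [inner_sub_right, inner_smul_right, ← hTi, hζx x hx, h2, inner_zero_left, mul_zero,
        sub_zero]
  obtain ⟨c, hc⟩ : ∃ c, c = ⟪ζ, T ζ⟫_ℂ := ⟨_, rfl⟩
  have hTζ : T ζ = c • ζ := by rw [hc]; exact hval ζ
  have hcc : (starRingEnd ℂ) c = c := by rw [hc, inner_conj_symm, hTi]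
  have hTF : ∀ u, T u = (c * ⟪ζ, u⟫_ℂ) • ζ := by
    intro u
    rw [hval u, ← hTi, hTζ, inner_smul_left, hcc]
  refine ⟨ζ, c, hζ1, ?_, hcc, hTF⟩
  intro h1
  refine hT0 (ContinuousLinearMap.ext fun u => ?_)
  rw [hTF u, h1, zero_mul, zero_smul]
  rfl

/-- Two commuting operators of rank one with nonzero product are proportional. -/
theorem rank_one_eq {T T' : E →L[ℂ] E} {ζ ζ' : E} {c c' : ℂ} (hζ : ‖ζ‖ = 1) (hζ' : ‖ζ'‖ = 1)
    (hc : c ≠ 0) (hc' : c' ≠ 0) (hT : ∀ u, T u = (c * ⟪ζ, u⟫_ℂ) • ζ)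
    (hT' : ∀ u, T' u = (c' * ⟪ζ', u⟫_ℂ) • ζ') (hne : T * T' ≠ 0) (hcm : T * T' = T' * T) :
    T = (c / c') • T' := by
  have h1 : ⟪ζ, ζ'⟫_ℂ ≠ 0 := by
    intro h0
    refine hne (ContinuousLinearMap.ext fun u => ?_)
    change T (T' u) = 0
    rw [hT' u, map_smul, hT ζ', h0, mul_zero, zero_smul, smul_zero]
  have hn' : ⟪ζ', ζ'⟫_ℂ = 1 := by rw [inner_self_eq_norm_sq_to_K, hζ']; simp
  have hn : ⟪ζ, ζ⟫_ℂ = 1 := by rw [inner_self_eq_norm_sq_to_K, hζ]; simp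
  have h2 : T (T' ζ') = T' (T ζ') := congrArg (fun S : E →L[ℂ] E => S ζ') hcm
  rw [hT' ζ', hn', mul_one, map_smul, hT ζ', map_smul, hT' ζ, smul_smul, smul_smul] at h2
  have h3 : ζ = ⟪ζ', ζ⟫_ℂ • ζ' := by
    have h4 : (c' * (c * ⟪ζ, ζ'⟫_ℂ)) • ζ = (c' * (c * ⟪ζ, ζ'⟫_ℂ)) • (⟪ζ', ζ⟫_ℂ • ζ') := by
      rw [h2, smul_smul]
      congr 1
      ring
    exact smul_right_injective E (mul_ne_zero hc' (mul_ne_zero hc h1)) h4
  obtain ⟨a, ha⟩ : ∃ a, a = ⟪ζ', ζ⟫_ℂ := ⟨_, rfl⟩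
  rw [← ha] at h3
  have h5 : (starRingEnd ℂ) a * a = 1 := by
    have h6 : ⟪a • ζ', a • ζ'⟫_ℂ = 1 := by rw [← h3]; exact hn
    rw [inner_smul_left, inner_smul_right, hn', mul_one] at h6
    exact h6
  ext u
  rw [hT u, smul_apply, hT' u, h3, inner_smul_left, smul_smul, smul_smul]
  congr 1
  calc c * ((starRingEnd ℂ) a * ⟪ζ', u⟫_ℂ) * a = c * ((starRingEnd ℂ) a * a) * ⟪ζ', u⟫_ℂ := by ring
    _ = c / c' * (c' * ⟪ζ', u⟫_ℂ) := by rw [h5]; field_simp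

end vec

section meas

variable {E : Type*} [NormedAddCommGroup E] [InnerProductSpace ℂ E] [CompleteSpace E]
variable {X Λ : Type*} [Group X] [Countable X] [Group Λ] {R : X → (E →L[ℂ] E)} {ξ : E}
variable {S : Type*} [MeasurableSpace S] {ν : Measure S} [IsFiniteMeasure ν]

/-- **[C-END], abstract form.** -/
theorem end_abs (h : Reg R ξ) {V : Λ → (E →L[ℂ] E)} (hV : URep V)
    (hVR : ∀ g x, V g * R x = R x * V g) (act : Λ → S → S)
    (hq : ∀ v, Measure.QuasiMeasurePreserving (act v) ν ν) {T : S → (E →L[ℂ] E)}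
    (hm : ∀ u, AEStronglyMeasurable (fun s => T s u) ν) {C : ℝ} (hb : ∀ᵐ s ∂ν, ‖T s‖ ≤ C)
    (hTa : ∀ᵐ s ∂ν, adjoint (T s) = T s) (hTp : ∀ᵐ s ∂ν, ∀ u, 0 ≤ (⟪T s u, u⟫_ℂ).re)
    (hT0 : ¬ ∀ᵐ s ∂ν, T s = 0)
    (hTo : ∀ᵐ s ∂ν, ∀ x, x ≠ 1 → T s * (R x * T s * R x⁻¹) = 0)
    (hTV : ∀ v, ∀ᵐ s ∂ν, T (act v s) = V v * T s * V v⁻¹)
    (hTc : ∀ᵐ p ∂(ν.prod ν), ∀ x, T p.1 * (R x * T p.2 * R x⁻¹) =
      (R x * T p.2 * R x⁻¹) * T p.1) :
    ∃ (w : E) (δ : Λ →* X) (χ : Λ →* ℂ), Reg R w ∧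
      (∀ g, ‖χ g‖ = 1) ∧ ∀ g, V g w = χ g • R (δ g)⁻¹ w := by
  have hU : URep R := h.toURep
  have hQ : ∀ᵐ s ∂ν, ∀ᵐ s' ∂ν, ∀ x, T s * (R x * T s' * R x⁻¹) = (R x * T s' * R x⁻¹) * T s :=
    Measure.ae_ae_of_ae_prod hTc
  -- a vector on which the family does not vanish
  obtain ⟨x₀, hx₀⟩ : ∃ x, ¬ ∀ᵐ s ∂ν, T s (R x ξ) = 0 := by
    by_contra hn
    push Not at hn
    have h1 : ∀ᵐ s ∂ν, ∀ x, T s (R x ξ) = 0 := ae_all_iff.2 hn
    refine hT0 ?_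
    filter_upwards [h1, hTa] with s h2 h3
    refine ContinuousLinearMap.ext fun u => h.total _ fun x => ?_
    rw [← adjoint_inner_left, h3, h2, inner_zero_left]
  obtain ⟨u, hu⟩ : ∃ u, u = R x₀ ξ := ⟨_, rfl⟩
  rw [← hu] at hx₀
  have hint : Integrable (fun s => T s u) ν := by
    refine Integrable.of_bound (hm u) (C * ‖u‖) ?_
    filter_upwards [hb] with s h1
    exact (T s).le_of_opNorm_le h1 u
  obtain ⟨w, hw⟩ : ∃ w, w = ∫ s, T s u ∂ν := ⟨_, rfl⟩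
  -- each nonzero operator has rank one
  have hrk : ∀ᵐ s ∂ν, T s ≠ 0 → ∃ (ζ : E) (c : ℂ), ‖ζ‖ = 1 ∧ c ≠ 0 ∧ (starRingEnd ℂ) c = c ∧
      ∀ u, T s u = (c * ⟪ζ, u⟫_ℂ) • ζ := by
    filter_upwards [hTa, hTo] with s h1 h2 h3
    exact rank_one_vec h h1 h3 h2
  have hzero : ∀ᵐ s ∂ν, (⟪T s u, u⟫_ℂ).re = 0 → T s u = 0 := by
    filter_upwards [hrk, hTp] with s h1 h2 h3
    by_cases h4 : T s = 0
    · rw [h4]; rfl
    obtain ⟨ζ, c, h5, h6, h7, h8⟩ := h1 h4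
    obtain ⟨r, hr⟩ : ∃ r : ℝ, c = (r : ℂ) := ⟨c.re, (Complex.conj_eq_iff_re.1 h7).symm⟩
    have h9 : (⟪T s u, u⟫_ℂ).re = r * ‖⟪ζ, u⟫_ℂ‖ ^ 2 := by
      rw [h8 u, inner_smul_left, map_mul, h7, hr]
      have e1 : (r : ℂ) * (starRingEnd ℂ) ⟪ζ, u⟫_ℂ * ⟪ζ, u⟫_ℂ =
          ((r * ‖⟪ζ, u⟫_ℂ‖ ^ 2 : ℝ) : ℂ) := by
        rw [mul_assoc, Complex.conj_mul']
        push_cast
        ring
      rw [e1, Complex.ofReal_re]
    have hr0 : r ≠ 0 := fun e => h6 (by rw [hr, e]; simp)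
    rw [h9] at h3
    have h10 : ⟪ζ, u⟫_ℂ = 0 := by
      rcases mul_eq_zero.1 h3 with e | e
      · exact absurd e hr0
      · exact norm_eq_zero.1 (pow_eq_zero_iff two_ne_zero |>.1 e)
    rw [h8 u, h10, mul_zero, zero_smul]
  have hw0 : w ≠ 0 := by
    intro h1
    have h2 : ∫ s, (⟪T s u, u⟫_ℂ).re ∂ν = 0 := by
      have h3 : Integrable (fun s => ⟪T s u, u⟫_ℂ) ν := hint.inner_const u
      have h4 : ∫ s, ⟪T s u, u⟫_ℂ ∂ν = 0 := by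
        have h5 : ∫ s, ⟪u, T s u⟫_ℂ ∂ν = 0 := by
          rw [integral_inner hint u, ← hw, h1, inner_zero_right]
        have h6 : ∀ s, ⟪T s u, u⟫_ℂ = (starRingEnd ℂ) ⟪u, T s u⟫_ℂ := fun s =>
          (inner_conj_symm _ _).symm
        simp_rw [h6]
        rw [integral_conj, h5, map_zero]
      have h7 : ∫ s, (⟪T s u, u⟫_ℂ).re ∂ν = (∫ s, ⟪T s u, u⟫_ℂ ∂ν).re := integral_re h3
      rw [h7, h4, Complex.zero_re]
    have h8' : Integrable (fun s => (⟪T s u, u⟫_ℂ).re) ν :=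
      Integrable.re (𝕜 := ℂ) (hint.inner_const (𝕜 := ℂ) u)
    have h8 := (integral_eq_zero_iff_of_nonneg_ae (hTp.mono fun s hs => hs u) h8').1 h2
    refine hx₀ ?_
    filter_upwards [h8, hzero] with s h9 h10
    exact h10 h9
  -- a good point
  have hA : ∃ s', T s' ≠ 0 ∧ (∃ (ζ : E) (c : ℂ), ‖ζ‖ = 1 ∧ c ≠ 0 ∧ (starRingEnd ℂ) c = c ∧
      ∀ u, T s' u = (c * ⟪ζ, u⟫_ℂ) • ζ) ∧ adjoint (T s') = T s' ∧
      (∀ x, x ≠ 1 → T s' * (R x * T s' * R x⁻¹) = 0) ∧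
      (∀ᵐ s ∂ν, T s * T s' = T s' * T s) ∧ ¬ ∀ᵐ s ∂ν, T s * T s' = 0 := by
    by_contra hn
    push Not at hn
    refine hw0 ((inner_self_eq_zero (𝕜 := ℂ)).1 ?_ : w = 0)
    have h1 : ⟪w, w⟫_ℂ = ∫ s', ⟪w, T s' u⟫_ℂ ∂ν := by
      rw [integral_inner hint w, ← hw]
    rw [h1]
    refine integral_eq_zero_of_ae ?_
    filter_upwards [hrk, hQ, hTa, hTo] with s' h2 h3 h4 h4'
    by_cases h5 : T s' = 0
    · rw [h5]
      exact inner_zero_right _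
    have h6 : ∀ᵐ s ∂ν, T s * T s' = T s' * T s := by
      filter_upwards [h3] with s h7
      have h8 := h7 1
      rw [inv_one, hU.one, one_mul, mul_one] at h8
      exact h8.symm
    have h7 := hn s' h5 (h2 h5) h4 h4' h6
    have h8 : ⟪T s' u, w⟫_ℂ = 0 := by
      rw [hw, ← integral_inner hint (T s' u)]
      refine integral_eq_zero_of_ae ?_
      filter_upwards [h7, h6] with s h9 h9'
      change ⟪T s' u, T s u⟫_ℂ = 0
      rw [← adjoint_inner_right, h4]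
      have h10 : T s' (T s u) = 0 := by
        have e := congrArg (fun A : E →L[ℂ] E => A u) (h9'.symm.trans h9)
        exact e
      rw [h10, inner_zero_right]
    rw [← inner_conj_symm, h8, map_zero]
    rfl
  obtain ⟨s', h0', ⟨ζ', c', e1, e2, e3, e4⟩, had, hort, hcm, hne⟩ := hA
  have hfr : ∃ᶠ s in ae ν, ∃ c : ℂ, c ≠ 0 ∧ T s = c • T s' := by
    intro hn
    refine hne ?_
    filter_upwards [hn, hcm, hrk] with s h1 h2 h3
    by_contra h4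
    have h5 : T s ≠ 0 := fun e => h4 (by rw [e, zero_mul])
    obtain ⟨ζ, c, f1, f2, f3, f4⟩ := h3 h5
    exact h1 ⟨c / c', div_ne_zero f2 e2, rank_one_eq f1 e1 f2 e2 f4 e4 h4 h2⟩
  refine H465.end_op h hV hVR had h0' hort fun v x => ?_
  have g1 : ∀ᵐ s ∂ν, ∀ᵐ s2 ∂ν, ∀ x, T (act v s) * (R x * T s2 * R x⁻¹) =
      (R x * T s2 * R x⁻¹) * T (act v s) := (hq v).ae hQ
  obtain ⟨s, ⟨c, hc, hcs⟩, g2, g3⟩ := (hfr.and_eventually (g1.and (hTV v))).exists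
  obtain ⟨s2, ⟨c2, hc2, hcs2⟩, g4⟩ := (hfr.and_eventually g2).exists
  have g5 := g4 x
  rw [g3, hcs, hcs2] at g5
  have g6 : (c * c2) • ((V v * T s' * V v⁻¹) * (R x * T s' * R x⁻¹)) =
      (c * c2) • ((R x * T s' * R x⁻¹) * (V v * T s' * V v⁻¹)) := by
    have e5 : (V v * (c • T s') * V v⁻¹) * (R x * (c2 • T s') * R x⁻¹) =
        (c * c2) • ((V v * T s' * V v⁻¹) * (R x * T s' * R x⁻¹)) := by
      simp only [smul_mul_assoc, mul_smul_comm, smul_smul, mul_comm c2 c]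
    have e6 : (R x * (c2 • T s') * R x⁻¹) * (V v * (c • T s') * V v⁻¹) =
        (c * c2) • ((R x * T s' * R x⁻¹) * (V v * T s' * V v⁻¹)) := by
      simp only [smul_mul_assoc, mul_smul_comm, smul_smul, mul_comm c2 c]
    rw [← e5, ← e6]
    exact g5
  exact smul_right_injective _ (mul_ne_zero hc hc2) g6

end meas

end Vale.Agent.P092.H264
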