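import Vale.Agent.P092.H264.EndC
import Vale.Agent.P092.SD.Main

/-!
P092 (helper264), TEAM D, (9): `SD.EndStmt`.
-/

set_option linter.all false

open scoped InnerProductSpace ENNReal LinearAlgebra.Projectivization ZeroAtInfty
open Filter Topology ContinuousLinearMap MeasureTheory TopologicalSpace

namespace Vale.Agent.P092.H264.Cl

open Vale.Agent.P092.RC (Cm)
open Vale.Agent.P092.SD (G3 nm)

section rtr

variable {G : Type} [Group G] [TopologicalSpace G] [IsTopologicalGroup G]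

/-- right translate -/
noncomputable def rtr (h : G) (ψ : C₀(G, ℂ)) : C₀(G, ℂ) where
  toFun x := ψ (x * h)
  continuous_toFun := by fun_prop
  zero_at_infty' := ψ.zero_at_infty'.comp (Homeomorph.mulRight h).isClosedEmbedding.tendsto_cocompact

@[simp] theorem rtr_apply (h : G) (ψ : C₀(G, ℂ)) (x : G) : rtr h ψ x = ψ (x * h) := rfl

end rtr

theorem continuous_nm {k : Type} [NontriviallyNormedField k] [ProperSpace k] :
    Continuous (nm : G3 k → ℝ) := by
  unfold nm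
  refine continuous_norm.comp ?_
  refine continuous_pi fun i => continuous_pi fun j => ?_
  exact (continuous_apply j).comp ((continuous_apply i).comp continuous_subtype_val)

theorem disc_of_nm {k : Type} [NontriviallyNormedField k] [ProperSpace k] {Γ : Type} [Group Γ]
    {q : Γ →* G3 k} (h : ∀ C : ℝ, {γ : Γ | nm (q γ) ≤ C}.Finite) (C : Set (G3 k))
    (hC : IsCompact C) : {γ | q γ ∈ C}.Finite := by
  obtain ⟨M, hM⟩ := hC.bddAbove_image (f := nm) continuous_nm.continuousOn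
  exact (h M).subset fun γ hγ => hM ⟨_, hγ, rfl⟩

theorem cleg_of_cls {k : Type} [NontriviallyNormedField k] [ProperSpace k] {Γ K : Type} [Group Γ]
    [NormedAddCommGroup K] [InnerProductSpace ℂ K] [CompleteSpace K]
    {π : G3 k →* (K →L[ℂ] K)} {lam : Γ →* (K →L[ℂ] K)} {W : Set (K →L[ℂ] K)} {q : Γ →* G3 k}
    {E F : SD.PP k → (SD.CP k →⋆ₐ[ℂ] (K →L[ℂ] K))} {Q : C₀(G3 k, ℂ) →⋆ₙₐ[ℂ] (K →L[ℂ] K)}
    (h : SD.Cls π lam W q E F Q) (hi : Function.Injective q)
    (hd : ∀ C : ℝ, {γ : Γ | nm (q γ) ≤ C}.Finite) : CLeg π lam W q Q where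
  nd := h.nd
  cm := h.cm
  cov := h.cov
  pcov g ψ := ⟨rtr g ψ, h.pcov g ψ _ fun _ => rfl⟩
  inj := hi
  disc := disc_of_nm hd

/-- **Team D, (9)**: the literal of SD/Main. -/
theorem endStmt : SD.EndStmt := by
  intro _ _ _ _ Γ _ _ _ _ ν _ hν Λ _ _ α hα q₁ q₂ E₁ F₁ E₂ F₂ Q₁ Q₂ _ i1 i2 d1 d2 c1 c2 hc
  exact mono_of_legs hν hα (cleg_of_cls c1 i1 d1) (cleg_of_cls c2 i2 d2) hc

end Vale.Agent.P092.H264.Cl
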