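import Vale.Agent.P092.H264.EndR

/-!
P092 (helper264), team C (one simple factor), block [C-END]: measurable covariant fields of
projection valued measures, the zero one law, joint fields and push forwards.
-/

set_option linter.all false

open scoped InnerProductSpace
open Filter Topology ContinuousLinearMap TopologicalSpace MeasureTheory

namespace Vale.Agent.P092.H264

open Vale.Agent.P092.H820

/-- A continuous action of a group on a space. -/
structure GA (𝒢 : Type*) [Group 𝒢] (X : Type*) [TopologicalSpace X] where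
  a : 𝒢 → X → X
  one : ∀ x, a 1 x = x
  mul : ∀ g h x, a (g * h) x = a g (a h x)
  cont : ∀ g, Continuous (a g)

namespace GA

variable {𝒢 : Type*} [Group 𝒢] {X Y : Type*} [TopologicalSpace X] [TopologicalSpace Y]

theorem inv_a (A : GA 𝒢 X) (g : 𝒢) (x : X) : A.a g⁻¹ (A.a g x) = x := by
  rw [← A.mul, inv_mul_cancel, A.one]

theorem a_inv (A : GA 𝒢 X) (g : 𝒢) (x : X) : A.a g (A.a g⁻¹ x) = x := by
  rw [← A.mul, mul_inv_cancel, A.one]

/-- The product action. -/
def prod (A : GA 𝒢 X) (B : GA 𝒢 Y) : GA 𝒢 (X × Y) where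
  a g := Prod.map (A.a g) (B.a g)
  one z := by rw [Prod.map, A.one, B.one]
  mul g h z := by simp only [Prod.map, A.mul, B.mul]
  cont g := (A.cont g).prodMap (B.cont g)

/-- The translate of a clopen set. -/
def tr (A : GA 𝒢 X) (g : 𝒢) (U : Clopens X) : Clopens X := pull (A.a g⁻¹) (A.cont g⁻¹) U

theorem mem_tr {A : GA 𝒢 X} {g : 𝒢} {U : Clopens X} {x : X} : x ∈ A.tr g U ↔ A.a g⁻¹ x ∈ U :=
  Iff.rfl

end GA

variable {E : Type*} [NormedAddCommGroup E] [InnerProductSpace ℂ E] [CompleteSpace E]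
  {H Λ 𝒢 : Type*} [Group H] [MeasurableSpace H] [Group Λ] [Group 𝒢]

section defs

variable (μ : Measure H) (κ : Λ →* H) (V : Λ → (E →L[ℂ] E)) (ρ : 𝒢 → (E →L[ℂ] E))

/-- A measurable covariant field of projection valued measures on the clopen sets of `X`. -/
structure PF {X : Type*} [TopologicalSpace X] (A : GA 𝒢 X) (P : H → Clopens X → (E →L[ℂ] E)) :
    Prop where
  cpv : ∀ᵐ h ∂μ, Cpv (P h)
  meas : ∀ U u, AEStronglyMeasurable (fun h => P h U u) μ
  cov : ∀ g, ∀ᵐ h ∂μ, ∀ U, ρ g * P h U * ρ g⁻¹ = P h (A.tr g U)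
  equi : ∀ v, ∀ᵐ h ∂μ, ∀ U, P (h * κ v) U = V v⁻¹ * P h U * V v

/-- Ergodicity of a subset `S` of the source group on the fields of operators which commute
with `ρ`. -/
def ErgS (S : Set H) : Prop :=
  ∀ q : H → (E →L[ℂ] E), (∀ u, AEStronglyMeasurable (fun h => q h u) μ) →
    (∀ᵐ h ∂μ, ‖q h‖ ≤ 1) → (∀ g, ∀ᵐ h ∂μ, ρ g * q h = q h * ρ g) →
    (∀ v, ∀ᵐ h ∂μ, q (h * κ v) = V v⁻¹ * q h * V v) → (∀ b ∈ S, ∀ᵐ h ∂μ, q (b * h) = q h) →
    ∃ c : ℂ, ∀ᵐ h ∂μ, q h = c • (1 : E →L[ℂ] E)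

/-- There is no field which does not depend on the point of the source group. -/
def NoC {X : Type*} [TopologicalSpace X] (A : GA 𝒢 X) : Prop :=
  ∀ P : H → Clopens X → (E →L[ℂ] E), PF μ κ V ρ A P → (∀ m, ∀ᵐ h ∂μ, P (m * h) = P h) → False

end defs

section laws

variable {μ : Measure H} {κ : Λ →* H} {V : Λ → (E →L[ℂ] E)} {ρ : 𝒢 → (E →L[ℂ] E)}
  (hl : ∀ m : H, Measure.QuasiMeasurePreserving (fun h => m * h) μ μ)
  (hr : ∀ v : Λ, Measure.QuasiMeasurePreserving (fun h => h * κ v) μ μ)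
  (hV : ∀ v, V v * V v⁻¹ = 1) (hρ : ∀ g, ρ g * ρ g⁻¹ = 1)
  {X : Type*} [TopologicalSpace X] {A : GA 𝒢 X}

include hl hr hV hρ

/-- **The zero one law.** -/
theorem zero_one {P : H → Clopens X → (E →L[ℂ] E)} (hP : PF μ κ V ρ A P) {D : Set X}
    {O : ℕ → Clopens X} (hO : NB D O) (hD : ∀ g, ∀ z ∈ D, A.a g z ∈ D) {S : Set H}
    (hS : ErgS μ κ V ρ S) (hb : ∀ b ∈ S, ∀ᵐ h ∂μ, P (b * h) = P h) :
    (∀ᵐ h ∂μ, SLim (fun n => P h (O n)) 0) ∨ ∀ᵐ h ∂μ, SLim (fun n => P h (O n)) 1 := by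
  classical
  have hρ' : ∀ g, ρ g⁻¹ * ρ g = 1 := fun g => by
    have := hρ g⁻¹
    rwa [inv_inv] at this
  have hV' : ∀ g, V g⁻¹ * V g = 1 := fun g => by
    have := hV g⁻¹
    rwa [inv_inv] at this
  have hex : ∀ h, ∃ q : E →L[ℂ] E, Cpv (P h) → (SLim (fun n => P h (O n)) q ∧ q * q = q ∧
      adjoint q = q) := by
    intro h
    by_cases hc : Cpv (P h)
    · obtain ⟨q, h1, h2, h3, -⟩ := (dec_cpv hc hO.anti).exists_slim
      exact ⟨q, fun _ => ⟨h1, h3, h2⟩⟩
    · exact ⟨0, fun h' => (hc h').elim⟩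
  choose q hq using hex
  have hq1 : ∀ᵐ h ∂μ, SLim (fun n => P h (O n)) (q h) := hP.cpv.mono fun h hh => (hq h hh).1
  have hcc : ∃ c : ℂ, ∀ᵐ h ∂μ, q h = c • (1 : E →L[ℂ] E) := by
    refine hS q ?_ ?_ ?_ ?_ ?_
    · intro u
      refine aestronglyMeasurable_of_tendsto_ae atTop (f := fun n h => P h (O n) u)
        (fun n => hP.meas _ _) ?_
      filter_upwards [hq1] with h hh
      exact hh u
    · filter_upwards [hP.cpv] with h hh
      exact norm_proj_le (hq h hh).2.2 (hq h hh).2.1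
    · intro g
      filter_upwards [hP.cpv, hq1, hP.cov g] with h a1 a2 a3
      have h1 : ρ g * q h * ρ g⁻¹ = q h := by
        refine hO.conj a1 a2 (hρ' g) (hρ g) (A.cont g⁻¹) (fun U => a3 U) (hD g⁻¹) (A.cont g)
          (fun z => A.inv_a g z) (fun z => A.a_inv g z) (hD g)
      calc ρ g * q h = ρ g * q h * (ρ g⁻¹ * ρ g) := by rw [hρ' g, mul_one]
        _ = (ρ g * q h * ρ g⁻¹) * ρ g := by noncomm_ring
        _ = q h * ρ g := by rw [h1]
    · intro v
      filter_upwards [hq1, (hr v).ae hq1, hP.equi v] with h a1 a2 a3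
      refine a2.unique (((a1.mul_left (V v⁻¹)).mul_right (V v)).congr fun n => ?_)
      rw [a3]
    · intro b hbS
      filter_upwards [hq1, (hl b).ae hq1, hb b hbS] with h a1 a2 a3
      refine a2.unique (a1.congr fun n => ?_)
      rw [a3]
  obtain ⟨c, hc⟩ := hcc
  · by_cases hne : (ae μ).NeBot
    swap
    · left
      rw [Filter.not_neBot] at hne
      rw [hne]
      trivial
    have h1 : ∃ h, Cpv (P h) ∧ q h = c • (1 : E →L[ℂ] E) := (hP.cpv.and hc).exists
    obtain ⟨h, h2, h3⟩ := h1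
    have h4 := (hq h h2).2.1
    rw [h3, smul_mul_smul_comm, mul_one] at h4
    by_cases hc0 : c = 0
    · left
      filter_upwards [hq1, hc] with h a1 a2
      rw [a2, hc0, zero_smul] at a1
      exact a1
    · right
      filter_upwards [hq1, hc] with h a1 a2
      have h5 : c • (1 : E →L[ℂ] E) = 1 := by
        have h6 : c⁻¹ • ((c * c) • (1 : E →L[ℂ] E)) = c⁻¹ • (c • (1 : E →L[ℂ] E)) := by rw [h4]
        rwa [smul_smul, smul_smul, ← mul_assoc, inv_mul_cancel₀ hc0, one_mul, one_smul] at h6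
      rw [a2, h5] at a1
      exact a1

end laws

section meas

variable {μ : Measure H}

omit [CompleteSpace E] [Group H] in
/-- An operator field applied to a measurable vector field. -/
theorem aesm_apply {P : H → (E →L[ℂ] E)} (hP : ∀ u, AEStronglyMeasurable (fun h => P h u) μ)
    {f : H → E} (hf : AEStronglyMeasurable f μ) : AEStronglyMeasurable (fun h => P h (f h)) μ := by
  classical
  obtain ⟨f', hf', hff⟩ := hf
  have h1 : AEStronglyMeasurable (fun h => P h (f' h)) μ := by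
    refine aestronglyMeasurable_of_tendsto_ae atTop (f := fun n h => P h (hf'.approx n h)) ?_
      (Eventually.of_forall fun h => ((P h).continuous.tendsto _).comp (hf'.tendsto_approx h))
    intro n
    have h2 : (fun h => P h (hf'.approx n h)) = fun h => ∑ c ∈ (hf'.approx n).range,
        Set.indicator ((hf'.approx n) ⁻¹' {c}) (fun h => P h c) h := by
      funext h
      rw [Finset.sum_eq_single (hf'.approx n h)]
      · rw [Set.indicator_of_mem]
        rfl
      · intro c _ hc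
        rw [Set.indicator_of_notMem]
        exact fun h' => hc h'.symm
      · intro h'
        exact (h' (SimpleFunc.mem_range_self _ _)).elim
    rw [h2]
    refine Finset.aestronglyMeasurable_fun_sum _ fun c _ => ?_
    exact (hP c).indicator ((hf'.approx n).measurableSet_preimage _)
  refine h1.congr ?_
  filter_upwards [hff] with h hh
  rw [hh]

end meas

section joint

variable {μ : Measure H} {κ : Λ →* H} {V : Λ → (E →L[ℂ] E)} {ρ : 𝒢 → (E →L[ℂ] E)}
  {X Y : Type*} [TopologicalSpace X] [TopologicalSpace Y] [CompactSpace X] [CompactSpace Y]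
  {A : GA 𝒢 X} {B : GA 𝒢 Y}

/-- The joint field. -/
theorem PF.jn (hV : ∀ v, V v * V v⁻¹ = 1) (hρ : ∀ g, ρ g * ρ g⁻¹ = 1)
    {P : H → Clopens X → (E →L[ℂ] E)} (hP : PF μ κ V ρ A P)
    {Q : H → Clopens Y → (E →L[ℂ] E)} (hQ : PF μ κ V ρ B Q)
    (hc : ∀ᵐ h ∂μ, ∀ U W, P h U * Q h W = Q h W * P h U) :
    PF μ κ V ρ (A.prod B) (fun h => jn (P h) (Q h)) where
  cpv := by
    filter_upwards [hP.cpv, hQ.cpv, hc] with h a1 a2 a3
    exact cpv_jn a1 a2 a3
  meas W u := by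
    simp only [H264.jn, ContinuousLinearMap.sum_apply]
    refine Finset.aestronglyMeasurable_fun_sum _ fun U _ => ?_
    exact aesm_apply (fun u => hP.meas _ u) (hQ.meas _ u)
  cov g := by
    have hρ' : ρ g⁻¹ * ρ g = 1 := by
      have := hρ g⁻¹
      rwa [inv_inv] at this
    filter_upwards [hP.cpv, hP.cov g, hQ.cov g] with h a1 a2 a3
    intro W
    rw [jn_conj hρ']
    have e1 : (fun U => ρ g * P h U * ρ g⁻¹) = fun U => P h (pull (A.a g⁻¹) (A.cont g⁻¹) U) :=
      funext fun U => a2 U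
    have e2 : (fun U => ρ g * Q h U * ρ g⁻¹) = fun U => Q h (pull (B.a g⁻¹) (B.cont g⁻¹) U) :=
      funext fun U => a3 U
    rw [e1, e2, jn_pull a1]
    rfl
  equi v := by
    filter_upwards [hP.equi v, hQ.equi v] with h a2 a3
    intro W
    rw [jn_conj (hV v)]
    have e1 : P (h * κ v) = fun U => V v⁻¹ * P h U * V v := funext fun U => a2 U
    have e2 : Q (h * κ v) = fun U => V v⁻¹ * Q h U * V v := funext fun U => a3 U
    rw [e1, e2]

end joint

section push

variable {μ : Measure H} {κ : Λ →* H} {V : Λ → (E →L[ℂ] E)} {ρ : 𝒢 → (E →L[ℂ] E)}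
  {Z Y : Type*} [TopologicalSpace Z] [TopologicalSpace Y] {A : GA 𝒢 Z} {B : GA 𝒢 Y}

/-- The push forward field. -/
theorem PF.push (hr : ∀ v : Λ, Measure.QuasiMeasurePreserving (fun h => h * κ v) μ μ)
    (hV : ∀ v, V v * V v⁻¹ = 1) (hρ : ∀ g, ρ g * ρ g⁻¹ = 1)
    {J : H → Clopens Z → (E →L[ℂ] E)} (hJ : PF μ κ V ρ A J) {D : Set Z} {O : ℕ → Clopens Z}
    (hO : NB D O) (hD : ∀ g, ∀ z ∈ D, A.a g z ∈ D) (h0 : ∀ᵐ h ∂μ, SLim (fun n => J h (O n)) 0)
    {f : Z → Y} (hf : COff D f) (hfe : ∀ g z, z ∉ D → f (A.a g z) = B.a g (f z)) :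
    ∃ L : H → Clopens Y → (E →L[ℂ] E), PF μ κ V ρ B L ∧ ∀ᵐ h ∂μ, IsPush hf (J h) (L h) := by
  classical
  have hex : ∀ h, ∃ L : Clopens Y → (E →L[ℂ] E), Cpv (J h) → SLim (fun n => J h (O n)) 0 →
      IsPush hf (J h) L := by
    intro h
    by_cases hc : Cpv (J h) ∧ SLim (fun n => J h (O n)) 0
    · obtain ⟨L, h1, -⟩ := IsPush.exists hO hc.1 hc.2 hf
      exact ⟨L, fun _ _ => h1⟩
    · exact ⟨fun _ => 0, fun h1 h2 => (hc ⟨h1, h2⟩).elim⟩
  choose L hL using hex
  have hL1 : ∀ᵐ h ∂μ, IsPush hf (J h) (L h) := by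
    filter_upwards [hJ.cpv, h0] with h a1 a2
    exact hL h a1 a2
  refine ⟨L, ⟨hL1.mono fun h hh => hh.cpv, ?_, ?_, ?_⟩, hL1⟩
  · intro U u
    refine aestronglyMeasurable_of_tendsto_ae atTop
      (f := fun n h => J h (cut hf (O n)ᶜ (hO.off n) U) u) (fun n => hJ.meas _ _) ?_
    filter_upwards [hJ.cpv, h0, hL1] with h a1 a2 a3
    exact a3.slim hO a1 a2 U u
  · intro g
    filter_upwards [hJ.cpv, h0, hL1, hJ.cov g] with h a1 a2 a3 a4
    intro U
    exact a3.conj hO a1 a2 (A.cont g⁻¹) (fun W => a4 W) (hD g⁻¹) (B.cont g⁻¹)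
      (fun z hz => hfe g⁻¹ z hz) (hρ g) U
  · intro v
    filter_upwards [hJ.cpv, h0, hL1, (hr v).ae hJ.cpv, (hr v).ae h0, (hr v).ae hL1, hJ.equi v]
      with h a1 a2 a3 b1 b2 b3 a4
    intro U
    refine (b3.slim hO b1 b2 U).unique
      ((((a3.slim hO a1 a2 U).mul_left (V v⁻¹)).mul_right (V v)).congr fun n => ?_)
    rw [a4]

/-- Invariance of the push forward field. -/
theorem push_inv (hl : ∀ m : H, Measure.QuasiMeasurePreserving (fun h => m * h) μ μ)
    {J : H → Clopens Z → (E →L[ℂ] E)} (hJ : PF μ κ V ρ A J) {D : Set Z} {O : ℕ → Clopens Z}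
    (hO : NB D O) (h0 : ∀ᵐ h ∂μ, SLim (fun n => J h (O n)) 0) {f : Z → Y} {hf : COff D f}
    {L : H → Clopens Y → (E →L[ℂ] E)} (hL : ∀ᵐ h ∂μ, IsPush hf (J h) (L h)) {m : H}
    (hm : ∀ᵐ h ∂μ, J (m * h) = J h) : ∀ᵐ h ∂μ, L (m * h) = L h := by
  filter_upwards [hJ.cpv, h0, hL, (hl m).ae hL, hm] with h a1 a2 a3 a4 a5
  rw [a5] at a4
  exact a4.unique a3 hO a1 a2

end push

section inv

variable {μ : Measure H} {X : Type*} [TopologicalSpace X]

/-- The stabiliser of a field. -/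
def fstab (hl : ∀ m : H, Measure.QuasiMeasurePreserving (fun h => m * h) μ μ)
    (P : H → Clopens X → (E →L[ℂ] E)) : Subgroup H where
  carrier := {m | ∀ᵐ h ∂μ, P (m * h) = P h}
  one_mem' := by
    change ∀ᵐ h ∂μ, P (1 * h) = P h
    refine Eventually.of_forall fun h => ?_
    rw [one_mul]
  mul_mem' := by
    intro a b ha hb
    change ∀ᵐ h ∂μ, P (a * b * h) = P h
    filter_upwards [(hl b).ae ha, hb] with h h1 h2
    rw [mul_assoc, h1, h2]
  inv_mem' := by
    intro a ha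
    change ∀ᵐ h ∂μ, P (a⁻¹ * h) = P h
    filter_upwards [(hl a⁻¹).ae ha] with h h1
    rw [mul_inv_cancel_left] at h1
    exact h1.symm

end inv

end Vale.Agent.P092.H264
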