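import Vale.Agent.P092.H264.EndF

/-!
P092 (helper264), team C (one simple factor), block [C-END]: general position of the quantum
points of a plane.
-/

set_option linter.all false

open scoped InnerProductSpace
open Filter Topology ContinuousLinearMap TopologicalSpace MeasureTheory

namespace Vale.Agent.P092.H264

open Vale.Agent.P092.H820

section three

variable {X : Type*} [TopologicalSpace X] [CompactSpace X] {𝔸 : Type*} [Ring 𝔸] [StarRing 𝔸]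
  {P₁ P₂ P₃ P₄ : Clopens X → 𝔸}

/-- The joint measure of three measures. -/
noncomputable def jn3 (P₁ P₂ P₃ : Clopens X → 𝔸) : Clopens ((X × X) × X) → 𝔸 := jn (jn P₁ P₂) P₃

/-- Commutation of two measures. -/
def CM {X Y : Type*} [TopologicalSpace X] [TopologicalSpace Y] (P : Clopens X → 𝔸)
    (Q : Clopens Y → 𝔸) : Prop := ∀ U W, P U * Q W = Q W * P U

theorem CM.jn {Y Z : Type*} [TopologicalSpace Y] [TopologicalSpace Z] [CompactSpace Y]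
    {Q : Clopens Y → 𝔸} {R : Clopens Z → 𝔸} (h1 : CM P₁ R) (h2 : CM Q R) : CM (jn P₁ Q) R :=
  fun W U => (jn_comm (T := R U) (fun U' => (h1 U' U).symm) (fun V => (h2 V U).symm) W).symm

theorem CM.symm {X Y : Type*} [TopologicalSpace X] [TopologicalSpace Y] {P : Clopens X → 𝔸}
    {Q : Clopens Y → 𝔸} (h : CM P Q) : CM Q P := fun U W => (h W U).symm

/-- the projection to the coordinates 1, 3 -/
def p13 (z : (X × X) × X) : X × X := (z.1.1, z.2)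

/-- the projection to the coordinates 2, 3 -/
def p23 (z : (X × X) × X) : X × X := (z.1.2, z.2)

theorem cont_p13 : Continuous (p13 : (X × X) × X → X × X) := by
  unfold p13; fun_prop

theorem cont_p23 : Continuous (p23 : (X × X) × X → X × X) := by
  unfold p23; fun_prop

theorem jn_fst {Y : Type*} [TopologicalSpace Y] [CompactSpace Y] {P : Clopens X → 𝔸}
    {Q : Clopens Y → 𝔸} (hP : Cpv P) (hQ : Cpv Q) (W : Clopens X) :
    jn P Q (pull Prod.fst continuous_fst W) = P W := by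
  have e : pull Prod.fst continuous_fst W = W ×ˢ (⊤ : Clopens Y) := by
    ext z
    exact ⟨fun h => ⟨h, trivial⟩, fun h => h.1⟩
  rw [e, jn_box hP hQ, hQ.top, mul_one]

theorem jn3_12 (h1 : Cpv P₁) (h2 : Cpv P₂) (h3 : Cpv P₃) (c12 : CM P₁ P₂) :
    (fun W => jn3 P₁ P₂ P₃ (pull Prod.fst continuous_fst W)) = jn P₁ P₂ :=
  funext fun W => jn_fst (cpv_jn h1 h2 c12) h3 W

theorem cpv_jn3 (h1 : Cpv P₁) (h2 : Cpv P₂) (h3 : Cpv P₃) (c12 : CM P₁ P₂) (c13 : CM P₁ P₃)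
    (c23 : CM P₂ P₃) : Cpv (jn3 P₁ P₂ P₃) :=
  cpv_jn (cpv_jn h1 h2 c12) h3 (c13.jn c23)

theorem jn3_13 (h1 : Cpv P₁) (h2 : Cpv P₂) (h3 : Cpv P₃) (c12 : CM P₁ P₂) (c13 : CM P₁ P₃)
    (c23 : CM P₂ P₃) : (fun W => jn3 P₁ P₂ P₃ (pull p13 cont_p13 W)) = jn P₁ P₃ := by
  refine jn_unique h1 h3 c13 (cpv_pull (cpv_jn3 h1 h2 h3 c12 c13 c23) _ _) fun U V => ?_
  have e : pull p13 cont_p13 (U ×ˢ V) = (U ×ˢ (⊤ : Clopens X)) ×ˢ V := by
    ext z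
    exact ⟨fun h => ⟨⟨h.1, trivial⟩, h.2⟩, fun h => ⟨h.1.1, h.2⟩⟩
  rw [e, jn3, jn_box (cpv_jn h1 h2 c12) h3, jn_box h1 h2, h2.top, mul_one]

theorem jn3_23 (h1 : Cpv P₁) (h2 : Cpv P₂) (h3 : Cpv P₃) (c12 : CM P₁ P₂) (c13 : CM P₁ P₃)
    (c23 : CM P₂ P₃) : (fun W => jn3 P₁ P₂ P₃ (pull p23 cont_p23 W)) = jn P₂ P₃ := by
  refine jn_unique h2 h3 c23 (cpv_pull (cpv_jn3 h1 h2 h3 c12 c13 c23) _ _) fun U V => ?_
  have e : pull p23 cont_p23 (U ×ˢ V) = ((⊤ : Clopens X) ×ˢ U) ×ˢ V := by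
    ext z
    exact ⟨fun h => ⟨⟨trivial, h.1⟩, h.2⟩, fun h => ⟨h.1.2, h.2⟩⟩
  rw [e, jn3, jn_box (cpv_jn h1 h2 c12) h3, jn_box h1 h2, h1.top, one_mul]

/-- The joint measure of four measures. -/
noncomputable def jn4 (P₁ P₂ P₃ P₄ : Clopens X → 𝔸) : Clopens (((X × X) × X) × X) → 𝔸 :=
  jn (jn3 P₁ P₂ P₃) P₄

/-- the projection to the coordinates 1, 2, 4 -/
def t124 : ((X × X) × X) × X → (X × X) × X := Prod.map Prod.fst id

/-- the projection to the coordinates 1, 3, 4 -/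
def t134 : ((X × X) × X) × X → (X × X) × X := Prod.map p13 id

/-- the projection to the coordinates 2, 3, 4 -/
def t234 : ((X × X) × X) × X → (X × X) × X := Prod.map p23 id

theorem cont_t124 : Continuous (t124 : ((X × X) × X) × X → (X × X) × X) :=
  continuous_fst.prodMap continuous_id

theorem cont_t134 : Continuous (t134 : ((X × X) × X) × X → (X × X) × X) :=
  cont_p13.prodMap continuous_id

theorem cont_t234 : Continuous (t234 : ((X × X) × X) × X → (X × X) × X) :=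
  cont_p23.prodMap continuous_id

theorem cpv_jn4 (h1 : Cpv P₁) (h2 : Cpv P₂) (h3 : Cpv P₃) (h4 : Cpv P₄) (c12 : CM P₁ P₂)
    (c13 : CM P₁ P₃) (c23 : CM P₂ P₃) (c14 : CM P₁ P₄) (c24 : CM P₂ P₄) (c34 : CM P₃ P₄) :
    Cpv (jn4 P₁ P₂ P₃ P₄) :=
  cpv_jn (cpv_jn3 h1 h2 h3 c12 c13 c23) h4 ((c14.jn c24).jn c34)

theorem jn4_123 (h1 : Cpv P₁) (h2 : Cpv P₂) (h3 : Cpv P₃) (h4 : Cpv P₄) (c12 : CM P₁ P₂)
    (c13 : CM P₁ P₃) (c23 : CM P₂ P₃) (W : Clopens ((X × X) × X)) :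
    jn4 P₁ P₂ P₃ P₄ (pull Prod.fst continuous_fst W) = jn3 P₁ P₂ P₃ W :=
  jn_fst (cpv_jn3 h1 h2 h3 c12 c13 c23) h4 W

theorem jn4_124 (h1 : Cpv P₁) (h2 : Cpv P₂) (h3 : Cpv P₃) (h4 : Cpv P₄) (c12 : CM P₁ P₂)
    (c13 : CM P₁ P₃) (c23 : CM P₂ P₃) (W : Clopens ((X × X) × X)) :
    jn4 P₁ P₂ P₃ P₄ (pull t124 cont_t124 W) = jn3 P₁ P₂ P₄ W := by
  have h := jn_pull (cpv_jn3 h1 h2 h3 c12 c13 c23) P₄ (f := Prod.fst) continuous_fst
    (g := (id : X → X)) continuous_id W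
  rw [jn3_12 h1 h2 h3 c12] at h
  exact h.symm

theorem jn4_134 (h1 : Cpv P₁) (h2 : Cpv P₂) (h3 : Cpv P₃) (h4 : Cpv P₄) (c12 : CM P₁ P₂)
    (c13 : CM P₁ P₃) (c23 : CM P₂ P₃) (W : Clopens ((X × X) × X)) :
    jn4 P₁ P₂ P₃ P₄ (pull t134 cont_t134 W) = jn3 P₁ P₃ P₄ W := by
  have h := jn_pull (cpv_jn3 h1 h2 h3 c12 c13 c23) P₄ (f := p13) cont_p13
    (g := (id : X → X)) continuous_id W
  rw [jn3_13 h1 h2 h3 c12 c13 c23] at h
  exact h.symm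

theorem jn4_234 (h1 : Cpv P₁) (h2 : Cpv P₂) (h3 : Cpv P₃) (h4 : Cpv P₄) (c12 : CM P₁ P₂)
    (c13 : CM P₁ P₃) (c23 : CM P₂ P₃) (W : Clopens ((X × X) × X)) :
    jn4 P₁ P₂ P₃ P₄ (pull t234 cont_t234 W) = jn3 P₂ P₃ P₄ W := by
  have h := jn_pull (cpv_jn3 h1 h2 h3 c12 c13 c23) P₄ (f := p23) cont_p23
    (g := (id : X → X)) continuous_id W
  rw [jn3_23 h1 h2 h3 c12 c13 c23] at h
  exact h.symm

theorem jn4_box (h1 : Cpv P₁) (h2 : Cpv P₂) (h3 : Cpv P₃) (h4 : Cpv P₄) (c12 : CM P₁ P₂)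
    (c13 : CM P₁ P₃) (c23 : CM P₂ P₃) (U₁ U₂ U₃ U₄ : Clopens X) :
    jn4 P₁ P₂ P₃ P₄ (((U₁ ×ˢ U₂) ×ˢ U₃) ×ˢ U₄) = P₁ U₁ * P₂ U₂ * P₃ U₃ * P₄ U₄ := by
  rw [jn4, jn_box (cpv_jn3 h1 h2 h3 c12 c13 c23) h4, jn3, jn_box (cpv_jn h1 h2 c12) h3,
    jn_box h1 h2]

end three

variable {E : Type*} [NormedAddCommGroup E] [InnerProductSpace ℂ E] [CompleteSpace E]

section bad

variable {Z : Type*} [TopologicalSpace Z] {P : Clopens Z → (E →L[ℂ] E)}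

/-- finite unions of null sequences -/
theorem slim_sup (hP : Cpv P) {O O' : ℕ → Clopens Z} (h : SLim (fun n => P (O n)) 0)
    (h' : SLim (fun n => P (O' n)) 0) : SLim (fun n => P (O n ⊔ O' n)) 0 := by
  have h1 := (h.add h').sub (h.mul h' fun n => norm_cpv_le hP _)
  rw [add_zero, mul_zero, sub_zero] at h1
  refine h1.congr fun n => ?_
  rw [hP.sup]

variable {Z' : Type*} [TopologicalSpace Z'] {P' : Clopens Z' → (E →L[ℂ] E)}

theorem cover_zero [CompactSpace Z] (hP : Cpv P) {K : Clopens Z} {T : E →L[ℂ] E}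
    (h : ∀ z ∈ K, ∃ C : Clopens Z, z ∈ C ∧ P C * T = 0) : P K * T = 0 := by
  have hK : IsCompact (K : Set Z) := K.isClopen.isClosed.isCompact
  have key : ∃ W : Clopens Z, (K : Set Z) ⊆ W ∧ P W * T = 0 := by
    refine hK.induction_on (p := fun S => ∃ W : Clopens Z, S ⊆ W ∧ P W * T = 0) ?_ ?_ ?_ ?_
    · exact ⟨⊥, Set.empty_subset _, by rw [hP.bot, zero_mul]⟩
    · rintro S S' hS ⟨W, h1, h2⟩
      exact ⟨W, hS.trans h1, h2⟩
    · rintro S S' ⟨W, h1, h2⟩ ⟨W', h3, h4⟩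
      refine ⟨W ⊔ W', Set.union_subset_union h1 h3, ?_⟩
      rw [hP.sup, sub_mul, add_mul, h2, h4, mul_assoc, h4, mul_zero, add_zero, sub_zero]
    · intro z hz
      obtain ⟨C, h1, h2⟩ := h z hz
      exact ⟨C, mem_nhdsWithin_of_mem_nhds (C.isClopen.isOpen.mem_nhds h1), C, subset_rfl, h2⟩
  obtain ⟨W, h1, h2⟩ := key
  rw [← hP.le_left (show K ≤ W from h1), mul_assoc, h2, mul_zero]

/-- **A good box with nonzero measure**, two commuting measures. -/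
theorem exists_good [CompactSpace Z] [CompactSpace Z'] [Nontrivial E] (hP : Cpv P) (hP' : Cpv P')
    (hc : CM P P') {O : ℕ → Clopens Z} {O' : ℕ → Clopens Z'} (h0 : SLim (fun n => P (O n)) 0)
    (h0' : SLim (fun n => P' (O' n)) 0) {G : Clopens Z → Prop} {G' : Clopens Z' → Prop}
    (hG : ∀ n, ∀ z ∉ O n, ∃ C : Clopens Z, z ∈ C ∧ G C)
    (hG' : ∀ n, ∀ z ∉ O' n, ∃ C : Clopens Z', z ∈ C ∧ G' C) :
    ∃ C C', G C ∧ G' C' ∧ P C * P' C' ≠ 0 := by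
  by_contra hcon
  push Not at hcon
  have h1 : ∀ n C', G' C' → P (O n)ᶜ * P' C' = 0 := fun n C' hC' =>
    cover_zero hP fun z hz => by
      obtain ⟨C, h2, h3⟩ := hG n z hz
      exact ⟨C, h2, hcon C C' h3 hC'⟩
  have h2 : ∀ n, P' (O' n)ᶜ * P (O n)ᶜ = 0 := fun n =>
    cover_zero hP' fun z hz => by
      obtain ⟨C, h3, h4⟩ := hG' n z hz
      exact ⟨C, h3, by rw [← hc]; exact h1 n C h4⟩
  have h3 : SLim (fun n => (1 - P' (O' n)) * (1 - P (O n))) ((1 - 0) * (1 - 0)) := by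
    refine ((SLim.const 1).sub h0').mul ((SLim.const 1).sub h0) (C := 1) fun n => ?_
    rw [← hP'.compl]
    exact norm_cpv_le hP' _
  rw [sub_zero, one_mul] at h3
  have h4 : (1 : E →L[ℂ] E) = 0 := by
    refine h3.unique ((SLim.const 0).congr fun n => ?_)
    rw [← hP.compl, ← hP'.compl, h2]
  obtain ⟨x, hx⟩ := exists_ne (0 : E)
  exact hx (congrArg (fun T : E →L[ℂ] E => T x) h4)

end bad

end Vale.Agent.P092.H264
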