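import Vale.Agent.P092.H264.EndG

/-!
P092 (helper264), team C (one simple factor), block [C-END]: the quantum points of different points
of the source plane are in general position.
-/

set_option linter.all false

open scoped InnerProductSpace
open Filter Topology ContinuousLinearMap TopologicalSpace MeasureTheory

namespace Vale.Agent.P092.H264

open Vale.Agent.P092.H820

variable {E : Type*} [NormedAddCommGroup E] [InnerProductSpace ℂ E] [CompleteSpace E]
  {H Λ 𝒢 : Type*} [Group H] [MeasurableSpace H] [Group Λ] [Group 𝒢]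

/-- The standing assumptions on the source group and on the two representations. -/
structure Amb (μ : Measure H) (κ : Λ →* H) (V : Λ → (E →L[ℂ] E)) (ρ : 𝒢 → (E →L[ℂ] E)) :
    Prop where
  hl : ∀ m : H, Measure.QuasiMeasurePreserving (fun h => m * h) μ μ
  hr : ∀ v : Λ, Measure.QuasiMeasurePreserving (fun h => h * κ v) μ μ
  hV : ∀ v, V v * V v⁻¹ = 1
  hρ : ∀ g, ρ g * ρ g⁻¹ = 1

section fam

variable (μ : Measure H) (κ : Λ →* H) (V : Λ → (E →L[ℂ] E)) (ρ : 𝒢 → (E →L[ℂ] E))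
  {X : Type*} [TopologicalSpace X]

/-- The family of the quantum points: a field of projection valued measures for every point of the
source plane `S`, covariant for the source group; all of them commute. -/
structure PFam {S : Type*} [MulAction H S] (A : GA 𝒢 X)
    (P : S → H → Clopens X → (E →L[ℂ] E)) : Prop where
  pf : ∀ x, PF μ κ V ρ A (P x)
  src : ∀ m x, ∀ᵐ h ∂μ, P x (m * h) = P (m⁻¹ • x) h
  comm : ∀ x y, ∀ᵐ h ∂μ, CM (P x h) (P y h)

end fam

/-- The geometry of the target plane: `ln` is the line through two points, `D₃` the set of the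
collinear triples. -/
structure Geo {X Y : Type*} [TopologicalSpace X] [TopologicalSpace Y] (A : GA 𝒢 X) (B : GA 𝒢 Y)
    (ln : X × X → Y) (D₃ : Set ((X × X) × X)) : Prop where
  off : COff {p : X × X | p.1 = p.2} ln
  lne : ∀ g (p : X × X), p.1 ≠ p.2 → ln (A.a g p.1, A.a g p.2) = B.a g (ln p)
  inv : ∀ g, ∀ z ∈ D₃, ((A.prod A).prod A).a g z ∈ D₃
  l13 : ∀ z ∈ D₃, z.1.1 ≠ z.1.2 → z.1.1 ≠ z.2 → ln z.1 = ln (p13 z)
  l23 : ∀ z ∈ D₃, z.1.1 ≠ z.1.2 → z.1.2 ≠ z.2 → ln z.1 = ln (p23 z)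

section pair

variable {μ : Measure H} {κ : Λ →* H} {V : Λ → (E →L[ℂ] E)} {ρ : 𝒢 → (E →L[ℂ] E)}
  {X Y : Type*} [TopologicalSpace X] [TopologicalSpace Y] [CompactSpace X] [CompactSpace Y]
  {A : GA 𝒢 X} {B : GA 𝒢 Y} {S : Type*} [MulAction H S]
  {P : S → H → Clopens X → (E →L[ℂ] E)}

theorem PFam.stab (hP : PFam μ κ V ρ A P) {x : S} {m : H} (hm : m ∈ MulAction.stabilizer H x) :
    ∀ᵐ h ∂μ, P x (m * h) = P x h := by
  filter_upwards [hP.src m x] with h hh
  have : m⁻¹ • x = x := (MulAction.stabilizer H x).inv_mem hm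
  rw [hh, this]

theorem PFam.pf2 (hA : Amb μ κ V ρ) (hP : PFam μ κ V ρ A P) (x y : S) :
    PF μ κ V ρ (A.prod A) (fun h => jn (P x h) (P y h)) :=
  (hP.pf x).jn hA.hV hA.hρ (hP.pf y) (hP.comm x y)

theorem PFam.pf3 (hA : Amb μ κ V ρ) (hP : PFam μ κ V ρ A P) (x y z : S) :
    PF μ κ V ρ ((A.prod A).prod A) (fun h => jn3 (P x h) (P y h) (P z h)) := by
  refine (hP.pf2 hA x y).jn hA.hV hA.hρ (hP.pf z) ?_
  filter_upwards [hP.comm x z, hP.comm y z] with h a1 a2
  exact a1.jn a2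

/-- **Two quantum points are different.** -/
theorem PFam.ne (hA : Amb μ κ V ρ) (hP : PFam μ κ V ρ A P) {O : ℕ → Clopens (X × X)}
    (hO : NB {p : X × X | p.1 = p.2} O) (hN : NoC μ κ V ρ A) {x y : S}
    (he : ErgS μ κ V ρ (MulAction.stabilizer H x ⊓ MulAction.stabilizer H y : Subgroup H))
    (hg : MulAction.stabilizer H x ⊔ MulAction.stabilizer H y = ⊤) :
    ∀ᵐ h ∂μ, SLim (fun n => jn (P x h) (P y h) (O n)) 0 := by
  have hJ := hP.pf2 hA x y
  have hb : ∀ b ∈ ((MulAction.stabilizer H x ⊓ MulAction.stabilizer H y : Subgroup H) : Set H),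
      ∀ᵐ h ∂μ, jn (P x (b * h)) (P y (b * h)) = jn (P x h) (P y h) := by
    intro b hb
    filter_upwards [hP.stab hb.1, hP.stab hb.2] with h a1 a2
    rw [a1, a2]
  have hD : ∀ g, ∀ z ∈ {p : X × X | p.1 = p.2}, (A.prod A).a g z ∈ {p : X × X | p.1 = p.2} := by
    intro g z hz
    change A.a g z.1 = A.a g z.2
    have : z.1 = z.2 := hz
    rw [this]
  rcases zero_one hA.hl hA.hr hA.hV hA.hρ hJ hO hD he hb with h0 | h1
  · exact h0
  · exfalso
    have h2 : ∀ᵐ h ∂μ, P x h = P y h := by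
      filter_upwards [h1, (hP.pf x).cpv, (hP.pf y).cpv, hP.comm x y] with h a1 a2 a3 a4
      exact eq_of_diag a2 a3 a4 hO a1
    have h3 : fstab hA.hl (P x) = ⊤ := by
      rw [eq_top_iff, ← hg, sup_le_iff]
      refine ⟨fun m hm => hP.stab hm, fun m hm => ?_⟩
      change ∀ᵐ h ∂μ, P x (m * h) = P x h
      filter_upwards [h2, (hA.hl m).ae h2, hP.stab hm] with h a1 a2 a3
      rw [a2, a3, a1]
    refine hN (P x) (hP.pf x) fun m => ?_
    have : m ∈ fstab hA.hl (P x) := by rw [h3]; trivial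
    exact this

/-- **Three quantum points are not collinear.** -/
theorem PFam.ncol (hA : Amb μ κ V ρ) (hP : PFam μ κ V ρ A P) {ln : X × X → Y}
    {D₃ : Set ((X × X) × X)} (hG : Geo A B ln D₃) {O : ℕ → Clopens (X × X)}
    (hO : NB {p : X × X | p.1 = p.2} O) {O₃ : ℕ → Clopens ((X × X) × X)} (hO₃ : NB D₃ O₃)
    (hN : NoC μ κ V ρ B) {x y z : S}
    (hxy : ∀ᵐ h ∂μ, SLim (fun n => jn (P x h) (P y h) (O n)) 0)
    (hxz : ∀ᵐ h ∂μ, SLim (fun n => jn (P x h) (P z h) (O n)) 0)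
    (hyz : ∀ᵐ h ∂μ, SLim (fun n => jn (P y h) (P z h) (O n)) 0)
    (he : ErgS μ κ V ρ (MulAction.stabilizer H x ⊓ MulAction.stabilizer H y ⊓
      MulAction.stabilizer H z : Subgroup H))
    (hg : (MulAction.stabilizer H x ⊓ MulAction.stabilizer H y) ⊔
      (MulAction.stabilizer H x ⊓ MulAction.stabilizer H z) ⊔
      (MulAction.stabilizer H y ⊓ MulAction.stabilizer H z) = ⊤) :
    ∀ᵐ h ∂μ, SLim (fun n => jn3 (P x h) (P y h) (P z h) (O₃ n)) 0 := by
  have hJ := hP.pf3 hA x y z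
  have hb : ∀ b ∈ ((MulAction.stabilizer H x ⊓ MulAction.stabilizer H y ⊓
      MulAction.stabilizer H z : Subgroup H) : Set H),
      ∀ᵐ h ∂μ, jn3 (P x (b * h)) (P y (b * h)) (P z (b * h)) =
        jn3 (P x h) (P y h) (P z h) := by
    intro b hb
    filter_upwards [hP.stab hb.1.1, hP.stab hb.1.2, hP.stab hb.2] with h a1 a2 a3
    rw [a1, a2, a3]
  rcases zero_one hA.hl hA.hr hA.hV hA.hρ hJ hO₃ hG.inv he hb with h0 | h1
  · exact h0
  · exfalso
    have hD : ∀ g, ∀ z ∈ {p : X × X | p.1 = p.2}, (A.prod A).a g z ∈ {p : X × X | p.1 = p.2} := by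
      intro g z hz
      change A.a g z.1 = A.a g z.2
      have : z.1 = z.2 := hz
      rw [this]
    have hfe : ∀ g (z : X × X), z ∉ {p : X × X | p.1 = p.2} →
        ln ((A.prod A).a g z) = B.a g (ln z) := fun g z hz => hG.lne g z hz
    obtain ⟨L, hL1, hL⟩ := (hP.pf2 hA x y).push hA.hr hA.hV hA.hρ hO hD hxy hG.off hfe
    obtain ⟨M, hM1, hM⟩ := (hP.pf2 hA x z).push hA.hr hA.hV hA.hρ hO hD hxz hG.off hfe
    obtain ⟨N, hN1, hN'⟩ := (hP.pf2 hA y z).push hA.hr hA.hV hA.hρ hO hD hyz hG.off hfe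
    have hc1 := (hP.pf x).cpv
    have hc2 := (hP.pf y).cpv
    have hc3 := (hP.pf z).cpv
    have hLM : ∀ᵐ h ∂μ, L h = M h := by
      filter_upwards [h1, hc1, hc2, hc3, hP.comm x y, hP.comm x z, hP.comm y z, hL, hM, hxy, hxz]
        with h a1 b1 b2 b3 c12 c13 c23 d1 d2 e1 e2
      have f1 := jn3_12 b1 b2 b3 c12
      have f2 := jn3_13 b1 b2 b3 c12 c13 c23
      refine IsPush.eq_of_carried (cpv_jn3 b1 b2 b3 c12 c13 c23) hO₃ a1 continuous_fst cont_p13
        (hf := hG.off) (by rw [f1]; exact d1) (by rw [f2]; exact d2) hO ?_ ?_ ?_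
      · have := e1
        rw [← f1] at this
        exact this
      · have := e2
        rw [← f2] at this
        exact this
      · intro w hw hw1 hw2
        exact hG.l13 w hw hw1 hw2
    have hLN : ∀ᵐ h ∂μ, L h = N h := by
      filter_upwards [h1, hc1, hc2, hc3, hP.comm x y, hP.comm x z, hP.comm y z, hL, hN', hxy, hyz]
        with h a1 b1 b2 b3 c12 c13 c23 d1 d2 e1 e2
      have f1 := jn3_12 b1 b2 b3 c12
      have f2 := jn3_23 b1 b2 b3 c12 c13 c23
      refine IsPush.eq_of_carried (cpv_jn3 b1 b2 b3 c12 c13 c23) hO₃ a1 continuous_fst cont_p23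
        (hf := hG.off) (by rw [f1]; exact d1) (by rw [f2]; exact d2) hO ?_ ?_ ?_
      · have := e1
        rw [← f1] at this
        exact this
      · have := e2
        rw [← f2] at this
        exact this
      · intro w hw hw1 hw2
        exact hG.l23 w hw hw1 hw2
    have hinv : ∀ {x y : S} {m : H}, m ∈ MulAction.stabilizer H x ⊓ MulAction.stabilizer H y →
        ∀ᵐ h ∂μ, jn (P x (m * h)) (P y (m * h)) = jn (P x h) (P y h) := by
      intro x y m hm
      filter_upwards [hP.stab hm.1, hP.stab hm.2] with h a1 a2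
      rw [a1, a2]
    have h3 : fstab hA.hl L = ⊤ := by
      rw [eq_top_iff, ← hg, sup_le_iff, sup_le_iff]
      refine ⟨⟨fun m hm => ?_, fun m hm => ?_⟩, fun m hm => ?_⟩
      · exact push_inv hA.hl (hP.pf2 hA x y) hO hxy hL (hinv hm)
      · change ∀ᵐ h ∂μ, L (m * h) = L h
        filter_upwards [push_inv hA.hl (hP.pf2 hA x z) hO hxz hM (hinv hm), hLM,
          (hA.hl m).ae hLM] with h a1 a2 a3
        rw [a3, a1, a2]
      · change ∀ᵐ h ∂μ, L (m * h) = L h
        filter_upwards [push_inv hA.hl (hP.pf2 hA y z) hO hyz hN' (hinv hm), hLN,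
          (hA.hl m).ae hLN] with h a1 a2 a3
        rw [a3, a1, a2]
    refine hN L hL1 fun m => ?_
    have : m ∈ fstab hA.hl L := by rw [h3]; trivial
    exact this

/-- The bad set of the quadruples, as a null sequence of clopen sets. -/
def bad4 (O₃ : ℕ → Clopens ((X × X) × X)) (n : ℕ) : Clopens (((X × X) × X) × X) :=
  pull Prod.fst continuous_fst (O₃ n) ⊔ pull t124 cont_t124 (O₃ n) ⊔
    (pull t134 cont_t134 (O₃ n) ⊔ pull t234 cont_t234 (O₃ n))

/-- **Four quantum points are in general position.** -/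
theorem PFam.gen4 (hP : PFam μ κ V ρ A P) {O₃ : ℕ → Clopens ((X × X) × X)} {x y z w : S}
    (h123 : ∀ᵐ h ∂μ, SLim (fun n => jn3 (P x h) (P y h) (P z h) (O₃ n)) 0)
    (h124 : ∀ᵐ h ∂μ, SLim (fun n => jn3 (P x h) (P y h) (P w h) (O₃ n)) 0)
    (h134 : ∀ᵐ h ∂μ, SLim (fun n => jn3 (P x h) (P z h) (P w h) (O₃ n)) 0)
    (h234 : ∀ᵐ h ∂μ, SLim (fun n => jn3 (P y h) (P z h) (P w h) (O₃ n)) 0) :
    ∀ᵐ h ∂μ, Cpv (jn4 (P x h) (P y h) (P z h) (P w h)) ∧
      SLim (fun n => jn4 (P x h) (P y h) (P z h) (P w h) (bad4 O₃ n)) 0 := by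
  filter_upwards [(hP.pf x).cpv, (hP.pf y).cpv, (hP.pf z).cpv, (hP.pf w).cpv, hP.comm x y,
    hP.comm x z, hP.comm y z, hP.comm x w, hP.comm y w, hP.comm z w, h123, h124, h134, h234]
    with h b1 b2 b3 b4 c12 c13 c23 c14 c24 c34 d1 d2 d3 d4
  have hJ := cpv_jn4 b1 b2 b3 b4 c12 c13 c23 c14 c24 c34
  refine ⟨hJ, slim_sup hJ (slim_sup hJ ?_ ?_) (slim_sup hJ ?_ ?_)⟩
  · exact d1.congr fun n => (jn4_123 b1 b2 b3 b4 c12 c13 c23 _).symm
  · exact d2.congr fun n => (jn4_124 b1 b2 b3 b4 c12 c13 c23 _).symm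
  · exact d3.congr fun n => (jn4_134 b1 b2 b3 b4 c12 c13 c23 _).symm
  · exact d4.congr fun n => (jn4_234 b1 b2 b3 b4 c12 c13 c23 _).symm

end pair

end Vale.Agent.P092.H264
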