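import Vale.Agent.P092.H820.Cpv
import Mathlib.Topology.ClopenBox

/-!
P092 (helper264), team C (one simple factor), block [C-END]: the joint projection valued measure of
two commuting projection valued measures on clopen sets.
-/

set_option linter.all false

open TopologicalSpace

namespace Vale.Agent.P092.H264

open Vale.Agent.P092.H820

section joint

variable {X Y : Type*} [TopologicalSpace X] [TopologicalSpace Y] {𝔸 : Type*} [Ring 𝔸] [StarRing 𝔸]

/-- `W` is the disjoint union of the finitely many boxes `A i × B i`, the `A i` cover `X`. -/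
structure BRep (W : Clopens (X × Y)) {ι : Type*} (s : Finset ι) (A : ι → Clopens X)
    (B : ι → Clopens Y) : Prop where
  disj : ∀ i ∈ s, ∀ j ∈ s, i ≠ j → Disjoint (A i) (A j)
  cover : s.sup A = ⊤
  mem : ∀ i ∈ s, ∀ x ∈ A i, ∀ y, (x, y) ∈ W ↔ y ∈ B i

/-- The slice of a clopen set. -/
def slice (W : Clopens (X × Y)) (x : X) : Clopens Y :=
  ⟨{y | (x, y) ∈ W}, W.isClopen.preimage (Continuous.prodMk_right x)⟩

theorem mem_slice (W : Clopens (X × Y)) (x : X) (y : Y) : y ∈ slice W x ↔ (x, y) ∈ W := Iff.rfl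

theorem isClopen_slice [CompactSpace Y] (W : Clopens (X × Y)) (V : Clopens Y) :
    IsClopen {x | slice W x = V} := by
  have h1 : IsClopen {p : X × Y | (p ∈ W ∧ p.2 ∉ V) ∨ (p ∉ W ∧ p.2 ∈ V)} := by
    have hV : IsClopen {p : X × Y | p.2 ∈ V} := V.isClopen.preimage continuous_snd
    have hW : IsClopen {p : X × Y | p ∈ W} := W.isClopen
    exact (hW.inter hV.compl).union (hW.compl.inter hV)
  have h2 : {x | slice W x = V} =
      (Prod.fst '' {p : X × Y | (p ∈ W ∧ p.2 ∉ V) ∨ (p ∉ W ∧ p.2 ∈ V)})ᶜ := by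
    ext x
    simp only [Set.mem_setOf_eq, Set.mem_compl_iff, Set.mem_image, Prod.exists, exists_and_right,
      exists_eq_right, not_exists, not_or, not_and, not_not]
    constructor
    · rintro rfl y
      exact ⟨fun h => h, fun h h' => h h'⟩
    · intro h
      ext y
      exact ⟨fun h' => (h y).1 h', fun h' => by_contra fun h'' => (h y).2 h'' h'⟩
  rw [h2]
  exact ⟨(isOpenMap_fst _ h1.isOpen).isClosed_compl,
    (isClosedMap_fst_of_compactSpace _ h1.isClosed).isOpen_compl⟩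

theorem exists_brep [CompactSpace X] [CompactSpace Y] (W : Clopens (X × Y)) :
    ∃ (s : Finset (Clopens Y)) (A : Clopens Y → Clopens X), BRep W s A id := by
  classical
  have h1 : IsLocallyConstant (slice W) := by
    rw [IsLocallyConstant.iff_isOpen_fiber]
    intro V
    exact (isClopen_slice W V).isOpen
  refine ⟨h1.range_finite.toFinset, fun V => ⟨_, isClopen_slice W V⟩, ?_, ?_, ?_⟩
  · intro V _ V' _ hne
    rw [disjoint_iff]
    ext x
    refine ⟨fun hx => ?_, fun hx => hx.elim⟩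
    exact (hne (hx.1.symm.trans hx.2)).elim
  · ext x
    refine ⟨fun _ => trivial, fun _ => ?_⟩
    have h2 : slice W x ∈ h1.range_finite.toFinset := by simp
    exact Finset.le_sup (f := fun V : Clopens Y => (⟨_, isClopen_slice W V⟩ : Clopens X)) h2
      (rfl : slice W x = slice W x)
  · intro V _ x hx y
    rw [← mem_slice]
    have : slice W x = V := hx
    rw [this]; rfl

variable {W W' : Clopens (X × Y)} {P : Clopens X → 𝔸} {Q : Clopens Y → 𝔸}

theorem sum_one {ι : Type*} {s : Finset ι} {A : ι → Clopens X} {B : ι → Clopens Y}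
    (h : BRep W s A B) (hP : Cpv P) : ∑ i ∈ s, P (A i) = 1 :=
  hP.sum_eq_one s A h.disj h.cover

theorem pair_eq {ι ι' : Type*} {s : Finset ι} {A : ι → Clopens X} {B : ι → Clopens Y}
    {s' : Finset ι'} {A' : ι' → Clopens X} {B' : ι' → Clopens Y} (h : BRep W s A B)
    (h' : BRep W s' A' B') (hP : Cpv P) {i : ι} (hi : i ∈ s) {j : ι'} (hj : j ∈ s') :
    P (A i) * P (A' j) * Q (B i) = P (A i) * P (A' j) * Q (B' j) := by
  rw [← hP.inf]
  by_cases hx : ∃ x, x ∈ A i ⊓ A' j
  · obtain ⟨x, hx⟩ := hx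
    have e : B i = B' j := by
      ext y
      exact (h.mem i hi x hx.1 y).symm.trans (h'.mem j hj x hx.2 y)
    rw [e]
  · have e : A i ⊓ A' j = ⊥ := by
      ext x
      exact ⟨fun h1 => (hx ⟨x, h1⟩).elim, fun h1 => h1.elim⟩
    rw [e, hP.bot, zero_mul, zero_mul]

/-- The value does not depend on the representation. -/
theorem val_eq {ι ι' : Type*} {s : Finset ι} {A : ι → Clopens X} {B : ι → Clopens Y}
    {s' : Finset ι'} {A' : ι' → Clopens X} {B' : ι' → Clopens Y} (h : BRep W s A B)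
    (h' : BRep W s' A' B') (hP : Cpv P) :
    ∑ i ∈ s, P (A i) * Q (B i) = ∑ j ∈ s', P (A' j) * Q (B' j) := by
  calc ∑ i ∈ s, P (A i) * Q (B i) = ∑ i ∈ s, ∑ j ∈ s', P (A i) * P (A' j) * Q (B i) := by
        refine Finset.sum_congr rfl fun i _ => ?_
        rw [← Finset.sum_mul, ← Finset.mul_sum, sum_one h' hP, mul_one]
    _ = ∑ i ∈ s, ∑ j ∈ s', P (A i) * P (A' j) * Q (B' j) :=
        Finset.sum_congr rfl fun i hi => Finset.sum_congr rfl fun j hj => pair_eq h h' hP hi hj
    _ = ∑ j ∈ s', ∑ i ∈ s, P (A i) * P (A' j) * Q (B' j) := Finset.sum_comm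
    _ = ∑ j ∈ s', P (A' j) * Q (B' j) := by
        refine Finset.sum_congr rfl fun j _ => ?_
        rw [← Finset.sum_mul, ← Finset.sum_mul, sum_one h hP, one_mul]

variable [CompactSpace X] [CompactSpace Y]

/-- **The joint measure.** -/
noncomputable def jn (P : Clopens X → 𝔸) (Q : Clopens Y → 𝔸) (W : Clopens (X × Y)) : 𝔸 :=
  ∑ V ∈ (exists_brep W).choose, P ((exists_brep W).choose_spec.choose V) * Q V

theorem jn_eq {ι : Type*} {s : Finset ι} {A : ι → Clopens X} {B : ι → Clopens Y}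
    (h : BRep W s A B) (hP : Cpv P) : jn P Q W = ∑ i ∈ s, P (A i) * Q (B i) :=
  val_eq (exists_brep W).choose_spec.choose_spec h hP

theorem jn_box (hP : Cpv P) (hQ : Cpv Q) (U : Clopens X) (V : Clopens Y) :
    jn P Q (U ×ˢ V) = P U * Q V := by
  have h : BRep (U ×ˢ V) (Finset.univ : Finset Bool) (fun b => cond b U Uᶜ)
      (fun b => cond b V ⊥) := by
    refine ⟨?_, ?_, ?_⟩
    · intro i _ j _ hij
      cases i <;> cases j <;> simp_all [disjoint_compl_right, disjoint_compl_left]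
    · rw [Fintype.univ_bool]
      ext x
      by_cases hx : x ∈ U <;> simp [hx]
    · intro i _ x hx y
      cases i
      · exact ⟨fun h => hx h.1, fun h => h.elim⟩
      · exact ⟨fun h => h.2, fun h => ⟨hx, h⟩⟩
  rw [jn_eq h hP, Fintype.univ_bool, Finset.sum_insert (by simp), Finset.sum_singleton]
  change P U * Q V + P Uᶜ * Q ⊥ = _
  rw [hQ.bot, mul_zero, add_zero]

theorem BRep.inf {ι ι' : Type*} {s : Finset ι} {A : ι → Clopens X} {B : ι → Clopens Y}
    {s' : Finset ι'} {A' : ι' → Clopens X} {B' : ι' → Clopens Y} (h : BRep W s A B)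
    (h' : BRep W' s' A' B') : BRep (W ⊓ W') (s ×ˢ s') (fun p => A p.1 ⊓ A' p.2)
      (fun p => B p.1 ⊓ B' p.2) := by
  classical
  refine ⟨?_, ?_, ?_⟩
  · rintro ⟨i, j⟩ h1 ⟨i', j'⟩ h2 hne
    rw [Finset.mem_product] at h1 h2
    by_cases hi : i = i'
    · have hj : j ≠ j' := fun e => hne (by rw [hi, e])
      exact (h'.disj j h1.2 j' h2.2 hj).mono inf_le_right inf_le_right
    · exact (h.disj i h1.1 i' h2.1 hi).mono inf_le_left inf_le_left
  · rw [Finset.sup_product_left]
    have e1 : ∀ i, (s'.sup fun j => A i ⊓ A' j) = A i := fun i => by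
      rw [← Finset.sup_inf_distrib_left, h'.cover, inf_top_eq]
    simp_rw [e1]
    exact h.cover
  · rintro ⟨i, j⟩ h1 x hx y
    rw [Finset.mem_product] at h1
    exact ⟨fun h2 => ⟨(h.mem i h1.1 x hx.1 y).1 h2.1, (h'.mem j h1.2 x hx.2 y).1 h2.2⟩,
      fun h2 => ⟨(h.mem i h1.1 x hx.1 y).2 h2.1, (h'.mem j h1.2 x hx.2 y).2 h2.2⟩⟩

theorem BRep.compl {ι : Type*} {s : Finset ι} {A : ι → Clopens X} {B : ι → Clopens Y}
    (h : BRep W s A B) : BRep Wᶜ s A (fun i => (B i)ᶜ) :=
  ⟨h.disj, h.cover, fun i hi x hx y => not_congr (h.mem i hi x hx y)⟩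

/-- The joint measure is a projection valued measure. -/
theorem cpv_jn (hP : Cpv P) (hQ : Cpv Q) (hc : ∀ U V, P U * Q V = Q V * P U) : Cpv (jn P Q) := by
  refine ⟨fun W => ?_, fun W W' => ?_, fun W => ?_⟩
  · rw [jn, star_sum]
    refine Finset.sum_congr rfl fun V _ => ?_
    rw [star_mul, hP.sa, hQ.sa, hc]
  · obtain ⟨s, A, h⟩ := exists_brep W
    obtain ⟨s', A', h'⟩ := exists_brep W'
    rw [jn_eq (h.inf h') hP, jn_eq h hP, jn_eq h' hP, Finset.sum_product, Finset.sum_mul_sum]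
    refine Finset.sum_congr rfl fun i _ => Finset.sum_congr rfl fun j _ => ?_
    rw [hP.inf, hQ.inf, mul_assoc, mul_assoc, ← mul_assoc (P (A' j)), hc, mul_assoc]
  · obtain ⟨s, A, h⟩ := exists_brep W
    rw [jn_eq h.compl hP, jn_eq h hP, ← sum_one h hP, ← Finset.sum_sub_distrib]
    refine Finset.sum_congr rfl fun i _ => ?_
    rw [hQ.compl, mul_sub, mul_one]

omit [CompactSpace X] in
theorem mem_fsup {ι : Type*} {s : Finset ι} (C : ι → Clopens X) (z : X) :
    z ∈ s.sup C ↔ ∃ i ∈ s, z ∈ C i := by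
  rw [← SetLike.mem_coe, Clopens.coe_finset_sup]
  simp

theorem eq_sup {ι : Type*} {s : Finset ι} {A : ι → Clopens X} {B : ι → Clopens Y}
    (h : BRep W s A B) : W = s.sup fun i => A i ×ˢ B i := by
  ext ⟨x, y⟩
  have hx : x ∈ s.sup A := by rw [h.cover]; trivial
  constructor
  · intro hW
    obtain ⟨i, hi, hxi⟩ := (mem_fsup A x).1 hx
    exact (mem_fsup _ _).2 ⟨i, hi, hxi, (h.mem i hi x hxi y).1 hW⟩
  · intro hW
    obtain ⟨i, hi, hxi, hyi⟩ := (mem_fsup _ _).1 hW
    exact (h.mem i hi x hxi y).2 hyi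

/-- Two projection valued measures on the product which agree on the boxes are equal. -/
theorem ext_box {R R' : Clopens (X × Y) → 𝔸} (hR : Cpv R) (hR' : Cpv R')
    (h : ∀ (U : Clopens X) (V : Clopens Y), R (U ×ˢ V) = R' (U ×ˢ V)) : R = R' := by
  funext W
  obtain ⟨s, A, hW⟩ := exists_brep W
  have hd : ∀ i ∈ s, ∀ j ∈ s, i ≠ j → Disjoint (A i ×ˢ (id i : Clopens Y)) (A j ×ˢ (id j)) := by
    intro i hi j hj hij
    rw [disjoint_iff]
    ext p
    refine ⟨fun hp => ?_, fun hp => hp.elim⟩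
    exact ((hW.disj i hi j hj hij).le_bot ⟨hp.1.1, hp.2.1⟩ : p.1 ∈ (⊥ : Clopens X)).elim
  rw [eq_sup hW, hR.finset_sup s _ hd, hR'.finset_sup s _ hd]
  exact Finset.sum_congr rfl fun i _ => h _ _

/-- Characterisation of the joint measure. -/
theorem jn_unique (hP : Cpv P) (hQ : Cpv Q) (hc : ∀ U V, P U * Q V = Q V * P U)
    {R : Clopens (X × Y) → 𝔸} (hR : Cpv R) (h : ∀ U V, R (U ×ˢ V) = P U * Q V) : R = jn P Q :=
  ext_box hR (cpv_jn hP hQ hc) fun U V => by rw [h, jn_box hP hQ]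

/-- Operators commuting with both measures commute with the joint measure. -/
theorem jn_comm {T : 𝔸} (hP : ∀ U, T * P U = P U * T) (hQ : ∀ V, T * Q V = Q V * T)
    (W : Clopens (X × Y)) : T * jn P Q W = jn P Q W * T := by
  rw [jn, Finset.mul_sum, Finset.sum_mul]
  refine Finset.sum_congr rfl fun V _ => ?_
  rw [← mul_assoc, hP, mul_assoc, hQ, mul_assoc]

end joint

end Vale.Agent.P092.H264
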