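import Vale.Agent.P092.H264.EndJ

/-!
P092 (helper264), team C (one simple factor), block [C-END]: strong limits of projections, and the
push forward of a projection valued measure along a map which is continuous off a null set.
-/

set_option linter.all false

open scoped InnerProductSpace
open Filter Topology ContinuousLinearMap TopologicalSpace

namespace Vale.Agent.P092.H264

open Vale.Agent.P092.H820

variable {E : Type*} [NormedAddCommGroup E] [InnerProductSpace ℂ E] [CompleteSpace E]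

/-- Strong convergence of a sequence of operators. -/
def SLim (p : ℕ → (E →L[ℂ] E)) (q : E →L[ℂ] E) : Prop :=
  ∀ ξ, Tendsto (fun n => p n ξ) atTop (𝓝 (q ξ))

namespace SLim

variable {p p' : ℕ → (E →L[ℂ] E)} {q q' : E →L[ℂ] E}

theorem unique (h : SLim p q) (h' : SLim p q') : q = q' :=
  ContinuousLinearMap.ext fun ξ => tendsto_nhds_unique (h ξ) (h' ξ)

theorem const (q : E →L[ℂ] E) : SLim (fun _ => q) q := fun ξ => tendsto_const_nhds

theorem add (h : SLim p q) (h' : SLim p' q') : SLim (fun n => p n + p' n) (q + q') :=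
  fun ξ => (h ξ).add (h' ξ)

theorem sub (h : SLim p q) (h' : SLim p' q') : SLim (fun n => p n - p' n) (q - q') :=
  fun ξ => (h ξ).sub (h' ξ)

theorem mul_left (h : SLim p q) (T : E →L[ℂ] E) : SLim (fun n => T * p n) (T * q) :=
  fun ξ => (T.continuous.tendsto _).comp (h ξ)

theorem mul_right (h : SLim p q) (T : E →L[ℂ] E) : SLim (fun n => p n * T) (q * T) :=
  fun ξ => h (T ξ)

theorem congr (h : SLim p q) (hp : ∀ n, p n = p' n) : SLim p' q := fun ξ =>
  (h ξ).congr fun n => by rw [hp]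

theorem eventually_congr (h : SLim p q) (hp : ∀ᶠ n in atTop, p n = p' n) : SLim p' q := fun ξ =>
  (h ξ).congr' (hp.mono fun n hn => by rw [hn])

theorem mul (h : SLim p q) (h' : SLim p' q') {C : ℝ} (hC : ∀ n, ‖p n‖ ≤ C) :
    SLim (fun n => p n * p' n) (q * q') := by
  intro ξ
  have h1 : Tendsto (fun n => p n (p' n ξ - q' ξ)) atTop (𝓝 0) := by
    rw [tendsto_zero_iff_norm_tendsto_zero]
    have h2 : Tendsto (fun n => C * ‖p' n ξ - q' ξ‖) atTop (𝓝 0) := by
      have h3 := (tendsto_iff_norm_sub_tendsto_zero.1 (h' ξ)).const_mul C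
      rwa [mul_zero] at h3
    exact squeeze_zero (fun _ => norm_nonneg _) (fun n => (p n).le_of_opNorm_le (hC n) _) h2
  have h2 := h1.add (h (q' ξ))
  rw [zero_add] at h2
  refine h2.congr fun n => ?_
  change p n (p' n ξ - q' ξ) + p n (q' ξ) = p n (p' n ξ)
  rw [← map_add, sub_add_cancel]

theorem sa (h : SLim p q) (hp : ∀ n, adjoint (p n) = p n) : adjoint q = q := by
  refine ContinuousLinearMap.ext fun ξ => ext_inner_right ℂ fun η => ?_
  rw [adjoint_inner_left]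
  have h1 : Tendsto (fun n => ⟪ξ, p n η⟫_ℂ) atTop (𝓝 ⟪ξ, q η⟫_ℂ) :=
    ((innerSL ℂ ξ).continuous.tendsto _).comp (h η)
  have h2 : Tendsto (fun n => ⟪p n ξ, η⟫_ℂ) atTop (𝓝 ⟪q ξ, η⟫_ℂ) :=
    (h ξ).inner tendsto_const_nhds
  refine tendsto_nhds_unique h1 (h2.congr fun n => ?_)
  rw [← adjoint_inner_right, hp]

end SLim

/-- Norm bound for projections. -/
theorem norm_proj_le {p : E →L[ℂ] E} (h1 : adjoint p = p) (h2 : p * p = p) : ‖p‖ ≤ 1 := by
  refine ContinuousLinearMap.opNorm_le_bound _ zero_le_one fun ξ => ?_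
  rw [one_mul]
  have h3 : ⟪p ξ, p ξ⟫_ℂ = ⟪p ξ, ξ⟫_ℂ := by
    rw [← adjoint_inner_left, h1]
    have h4 : p (p ξ) = p ξ := congrArg (fun T : E →L[ℂ] E => T ξ) h2
    rw [h4]
  have h4 : ‖p ξ‖ ^ 2 ≤ ‖p ξ‖ * ‖ξ‖ := by
    have h5 : ‖⟪p ξ, ξ⟫_ℂ‖ ≤ ‖p ξ‖ * ‖ξ‖ := norm_inner_le_norm _ _
    rw [← h3, inner_self_eq_norm_sq_to_K] at h5
    simpa using h5
  by_contra h5
  push Not at h5
  have h6 : 0 < ‖p ξ‖ := (norm_nonneg _).trans_lt h5
  nlinarith

/-- A decreasing sequence of projections. -/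
structure Dec (p : ℕ → (E →L[ℂ] E)) : Prop where
  sa : ∀ n, adjoint (p n) = p n
  idem : ∀ n, p n * p n = p n
  le : ∀ n m, n ≤ m → p n * p m = p m

namespace Dec

variable {p : ℕ → (E →L[ℂ] E)} (h : Dec p)

include h

theorem le' {n m : ℕ} (hnm : n ≤ m) : p m * p n = p m := by
  have h1 : star (p n * p m) = star (p m) := by rw [h.le n m hnm]
  rw [star_mul] at h1
  have h2 : ∀ n, star (p n) = p n := h.sa
  rwa [h2, h2] at h1

theorem norm_le (n : ℕ) : ‖p n‖ ≤ 1 := norm_proj_le (h.sa n) (h.idem n)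

theorem norm_sub_sq (ξ : E) {n m : ℕ} (hnm : n ≤ m) :
    ‖p n ξ - p m ξ‖ ^ 2 = ‖p n ξ‖ ^ 2 - ‖p m ξ‖ ^ 2 := by
  have h1 : ⟪p n ξ, p m ξ⟫_ℂ = ⟪p m ξ, p m ξ⟫_ℂ := by
    have h2 : p m ξ = p n (p m ξ) := by
      have := congrArg (fun T : E →L[ℂ] E => T ξ) (h.le n m hnm)
      exact this.symm
    have h3 : p m (p n ξ) = p m ξ := congrArg (fun T : E →L[ℂ] E => T ξ) (h.le' hnm)
    have h4 : ∀ u v, ⟪p m u, v⟫_ℂ = ⟪u, p m v⟫_ℂ := fun u v => by
      rw [← adjoint_inner_right, h.sa]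
    have h5 : p m (p m ξ) = p m ξ := congrArg (fun T : E →L[ℂ] E => T ξ) (h.idem m)
    rw [← h4, h3, h4 ξ (p m ξ), h5, h4]
  have h6 := _root_.norm_sub_sq (𝕜 := ℂ) (p n ξ) (p m ξ)
  rw [h6, h1, inner_self_eq_norm_sq]
  ring

theorem exists_slim : ∃ q : E →L[ℂ] E, SLim p q ∧ adjoint q = q ∧ q * q = q ∧
    (∀ n, p n * q = q) ∧ ∀ n, q * p n = q := by
  have h1 : ∀ ξ, ∃ y, Tendsto (fun n => p n ξ) atTop (𝓝 y) := by
    intro ξ
    have ha : Antitone fun n => ‖p n ξ‖ ^ 2 := fun n m hnm => by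
      have := h.norm_sub_sq ξ hnm
      have h2 : (0 : ℝ) ≤ ‖p n ξ - p m ξ‖ ^ 2 := sq_nonneg _
      linarith
    have hb : BddBelow (Set.range fun n => ‖p n ξ‖ ^ 2) := ⟨0, by rintro _ ⟨n, rfl⟩; positivity⟩
    have hl := tendsto_atTop_ciInf ha hb
    have hcau : CauchySeq fun n => p n ξ := by
      have hc := hl.cauchySeq
      rw [Metric.cauchySeq_iff] at hc ⊢
      intro ε hε
      obtain ⟨N, hN⟩ := hc (ε ^ 2) (by positivity)
      refine ⟨N, fun m hm n hn => ?_⟩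
      have key : ∀ a b, N ≤ a → N ≤ b → a ≤ b → dist (p a ξ) (p b ξ) < ε := by
        intro a b h1 h2 hab
        have h3 := hN a h1 b h2
        rw [Real.dist_eq] at h3
        have h4 := h.norm_sub_sq ξ hab
        rw [dist_eq_norm]
        have h5 : ‖p a ξ - p b ξ‖ ^ 2 < ε ^ 2 := by
          rw [h4]; exact (le_abs_self _).trans_lt h3
        exact lt_of_pow_lt_pow_left₀ 2 hε.le h5
      rcases le_total m n with hmn | hmn
      · exact key m n hm hn hmn
      · rw [dist_comm]; exact key n m hn hm hmn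
    exact cauchySeq_tendsto_of_complete hcau
  choose f hf using h1
  have hf' : Tendsto (fun n x => p n x) atTop (𝓝 f) := tendsto_pi_nhds.2 hf
  obtain ⟨q, hq⟩ : ∃ q : E →L[ℂ] E, SLim p q := by
    refine ⟨continuousLinearMapOfTendsto p hf', fun ξ => ?_⟩
    exact hf ξ
  refine ⟨q, hq, hq.sa h.sa, ?_, ?_, ?_⟩
  · exact ((hq.mul hq h.norm_le).congr (fun n => h.idem n)).unique hq
  · intro n
    refine ((hq.mul_left (p n)).eventually_congr (p' := p) ?_).unique hq
    filter_upwards [eventually_ge_atTop n] with m hm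
    exact h.le n m hm
  · intro n
    refine ((hq.mul_right (p n)).eventually_congr (p' := p) ?_).unique hq
    filter_upwards [eventually_ge_atTop n] with m hm
    exact h.le' hm

end Dec

section cpv

variable {Z : Type*} [TopologicalSpace Z] {P : Clopens Z → (E →L[ℂ] E)}

/-- A decreasing sequence of clopen sets gives a decreasing sequence of projections. -/
theorem dec_cpv (hP : Cpv P) {O : ℕ → Clopens Z} (hO : Antitone O) : Dec fun n => P (O n) where
  sa n := hP.sa _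
  idem n := hP.idem _
  le n m hnm := hP.le_right (hO hnm)

theorem norm_cpv_le (hP : Cpv P) (U : Clopens Z) : ‖P U‖ ≤ 1 :=
  norm_proj_le (hP.sa U) (hP.idem U)

variable {Y : Type*} [TopologicalSpace Y] {f : Z → Y} {O : ℕ → Clopens Z}

/-- The inverse image off the neighbourhoods `O n` of the bad set. -/
def pb (f : Z → Y) (O : ℕ → Clopens Z) (hf : ∀ (n : ℕ) (V : Clopens Y),
    IsClopen (f ⁻¹' (V : Set Y) ∩ ((O n : Clopens Z) : Set Z)ᶜ)) (n : ℕ) (V : Clopens Y) :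
    Clopens Z := ⟨_, hf n V⟩

variable {hf : ∀ (n : ℕ) (V : Clopens Y),
    IsClopen (f ⁻¹' (V : Set Y) ∩ ((O n : Clopens Z) : Set Z)ᶜ)}

theorem mem_pb {n : ℕ} {V : Clopens Y} {z : Z} : z ∈ pb f O hf n V ↔ f z ∈ V ∧ z ∉ O n := Iff.rfl

theorem pb_inf (n : ℕ) (V V' : Clopens Y) : pb f O hf n (V ⊓ V') = pb f O hf n V ⊓ pb f O hf n V' := by
  ext z
  exact ⟨fun h => ⟨⟨h.1.1, h.2⟩, ⟨h.1.2, h.2⟩⟩, fun h => ⟨⟨h.1.1, h.2.1⟩, h.1.2⟩⟩

theorem pb_compl (n : ℕ) (V : Clopens Y) : pb f O hf n Vᶜ = (O n)ᶜ ⊓ (pb f O hf n V)ᶜ := by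
  ext z
  constructor
  · intro h
    exact ⟨h.2, fun h' => h.1 h'.1⟩
  · intro h
    exact ⟨fun h' => h.2 ⟨h', h.1⟩, h.1⟩

theorem pb_le (n : ℕ) (V : Clopens Y) : pb f O hf n V ≤ (O n)ᶜ := fun z h => h.2

theorem pb_mono (hO : Antitone O) {n m : ℕ} (hnm : n ≤ m) (V : Clopens Y) :
    pb f O hf m V ⊓ (O n)ᶜ = pb f O hf n V := by
  ext z
  exact ⟨fun h => ⟨h.1.1, h.2⟩, fun h => ⟨⟨h.1, fun h' => h.2 (hO hnm h')⟩, h.2⟩⟩

/-- **Push forward** of a projection valued measure along a map which is continuous off a null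
set. -/
theorem exists_push (hP : Cpv P) (hO : Antitone O) (h0 : SLim (fun n => P (O n)) 0)
    (hf : ∀ (n : ℕ) (V : Clopens Y), IsClopen (f ⁻¹' (V : Set Y) ∩ ((O n : Clopens Z) : Set Z)ᶜ)) :
    ∃ L : Clopens Y → (E →L[ℂ] E), Cpv L ∧ (∀ V, SLim (fun n => P (pb f O hf n V)) (L V)) ∧
      ∀ n V, L V * P (O n)ᶜ = P (pb f O hf n V) := by
  have h1 : ∀ V, ∃ q : E →L[ℂ] E, SLim (fun n => P (pb f O hf n V)) q := by
    intro V
    have hd : Dec fun n => P (pb f O hf n V)ᶜ := by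
      refine dec_cpv hP (O := fun n => (pb f O hf n V)ᶜ) fun n m hnm => ?_
      refine compl_le_compl ?_
      rw [← pb_mono hO hnm V]
      exact inf_le_left
    obtain ⟨q, hq, -⟩ := hd.exists_slim
    refine ⟨1 - q, ((SLim.const 1).sub hq).congr fun n => ?_⟩
    rw [hP.compl, sub_sub_cancel]
  choose L hL using h1
  have hmul : ∀ n V, L V * P (O n)ᶜ = P (pb f O hf n V) := by
    intro n V
    refine ((hL V).mul_right (P (O n)ᶜ)).unique ?_
    refine (SLim.const _).eventually_congr ?_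
    filter_upwards [eventually_ge_atTop n] with m hm
    rw [← hP.inf, pb_mono hO hm]
  refine ⟨L, ⟨fun V => ?_, fun V V' => ?_, fun V => ?_⟩, hL, hmul⟩
  · exact (hL V).sa fun n => hP.sa _
  · refine (hL _).unique (((hL V).mul (hL V') fun n => norm_cpv_le hP _).congr fun n => ?_)
    rw [← hP.inf, ← pb_inf]
  · refine (hL _).unique ?_
    have h2 : SLim (fun n => (1 - P (O n)) - P (pb f O hf n V)) ((1 - 0) - L V) :=
      ((SLim.const 1).sub h0).sub (hL V)
    rw [sub_zero] at h2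
    refine h2.congr fun n => ?_
    rw [pb_compl, hP.inf, hP.compl, hP.compl, mul_sub, mul_one, sub_mul, one_mul, ← hP.inf]
    have h3 : O n ⊓ pb f O hf n V = ⊥ := by
      rw [← disjoint_iff]
      exact disjoint_compl_right.mono_right (pb_le n V)
    rw [h3, hP.bot, sub_zero]

end cpv

end Vale.Agent.P092.H264
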