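import Vale.Agent.P092.H264.EndO
import Vale.Agent.P092.RC.Defs

/-!
P092 (helper264), team C (one simple factor), block [C-END]: from the two families of lines to one
projection, abstract form.
-/

set_option linter.all false

open scoped InnerProductSpace
open Filter Topology ContinuousLinearMap TopologicalSpace

namespace Vale.Agent.P092.H264.Op

open Vale.Agent.P092.H820

variable {K : Type*} [NormedAddCommGroup K] [InnerProductSpace ℂ K] [CompleteSpace K]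
  {H 𝒢 : Type*} [Group H] [Group 𝒢]

section leg

variable {S X : Type*} [MulAction H S] [TopologicalSpace X]
  {π : H →* (K →L[ℂ] K)} {ρ : 𝒢 →* (K →L[ℂ] K)} {W : Set (K →L[ℂ] K)} {A : GA 𝒢 X}
  {F : Clopens X → (K →L[ℂ] K)} {l₀ : S}

/-- The family of the lines. -/
noncomputable def fam (π : H →* (K →L[ℂ] K)) (htr : ∀ l : S, ∃ g : H, g • l₀ = l)
    (F : Clopens X → (K →L[ℂ] K)) (l : S) (C : Clopens X) : K →L[ℂ] K :=
  π (htr l).choose * F C * π (htr l).choose⁻¹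

theorem conj_mul_conj (g : H) (S T : K →L[ℂ] K) :
    (π g * S * π g⁻¹) * (π g * T * π g⁻¹) = π g * (S * T) * π g⁻¹ := by
  have e := rho_inv_mul π g
  calc (π g * S * π g⁻¹) * (π g * T * π g⁻¹) = π g * S * (π g⁻¹ * π g) * T * π g⁻¹ := by
        simp only [mul_assoc]
    _ = π g * (S * T) * π g⁻¹ := by rw [e, mul_one]; simp only [mul_assoc]

theorem conj_conj' (g h : H) (S : K →L[ℂ] K) :
    π g * (π h * S * π h⁻¹) * π g⁻¹ = π (g * h) * S * π (g * h)⁻¹ := by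
  rw [mul_inv_rev, map_mul, map_mul]
  simp only [mul_assoc]

theorem conj_comm_of (g : H) {S T : K →L[ℂ] K} (h : S * T = T * S) :
    (π g * S * π g⁻¹) * (π g * T * π g⁻¹) = (π g * T * π g⁻¹) * (π g * S * π g⁻¹) := by
  rw [conj_mul_conj, conj_mul_conj, h]

theorem conj_eq_of (hpar : ∀ p : H, p • l₀ = l₀ → ∀ C, π p * F C = F C * π p) {g g' : H}
    (h : g • l₀ = g' • l₀) (C : Clopens X) : π g * F C * π g⁻¹ = π g' * F C * π g'⁻¹ := by
  have h1 : (g'⁻¹ * g) • l₀ = l₀ := by rw [mul_smul, h, inv_smul_smul]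
  have h2 := hpar _ h1 C
  have e : π (g' * (g'⁻¹ * g)) * F C * π (g' * (g'⁻¹ * g))⁻¹ =
      π g' * (π (g'⁻¹ * g) * F C * π (g'⁻¹ * g)⁻¹) * π g'⁻¹ := (conj_conj' _ _ _).symm
  rw [mul_inv_cancel_left] at e
  rw [e, h2, mul_assoc (F C), rho_mul_inv, mul_one]

theorem fam_smul (hpar : ∀ p : H, p • l₀ = l₀ → ∀ C, π p * F C = F C * π p)
    (htr : ∀ l : S, ∃ g : H, g • l₀ = l) (g : H) (C : Clopens X) :
    fam π htr F (g • l₀) C = π g * F C * π g⁻¹ :=
  conj_eq_of hpar (htr (g • l₀)).choose_spec C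

theorem cpv_conj (hadj : ∀ g, adjoint (π g) = π g⁻¹) (hF : Cpv F) (g : H) :
    Cpv fun C => π g * F C * π g⁻¹ where
  sa U := by
    rw [star_mul, star_mul, hF.sa, star_eq_adjoint, star_eq_adjoint, hadj, hadj, inv_inv,
      mul_assoc]
  inf U V := by
    change π g * F (U ⊓ V) * π g⁻¹ = _
    rw [hF.inf, conj_mul_conj]
  compl U := by
    change π g * F Uᶜ * π g⁻¹ = 1 - π g * F U * π g⁻¹
    rw [hF.compl, mul_sub, sub_mul, mul_one, rho_mul_inv]

theorem pf_conj (hadj : ∀ g, adjoint (π g) = π g⁻¹) (hcl : ∀ g γ, π g * ρ γ = ρ γ * π g)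
    (hW : ∀ w ∈ W, ∀ g, π g * w * π g⁻¹ ∈ W) (hF : PF ρ W A F) (g : H) :
    PF ρ W A fun C => π g * F C * π g⁻¹ where
  cpv := cpv_conj hadj hF.cpv g
  cm U w hw := by
    have h1 := hF.cm U _ (hW w hw g⁻¹)
    have h2 := conj_comm_of (π := π) g h1
    have h3 : π g * (π g⁻¹ * w * π g⁻¹⁻¹) * π g⁻¹ = w := by
      rw [conj_conj', mul_inv_cancel, inv_one, map_one, one_mul, mul_one]
    rw [h3] at h2
    exact h2
  cov γ U := by
    have e1 : ρ γ * (π g * F U * π g⁻¹) * ρ γ⁻¹ = π g * (ρ γ * F U * ρ γ⁻¹) * π g⁻¹ := by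
      calc ρ γ * (π g * F U * π g⁻¹) * ρ γ⁻¹ = (ρ γ * π g) * F U * (π g⁻¹ * ρ γ⁻¹) := by
            simp only [mul_assoc]
        _ = π g * (ρ γ * F U * ρ γ⁻¹) * π g⁻¹ := by
            rw [← hcl g γ, hcl g⁻¹ γ⁻¹]; simp only [mul_assoc]
    rw [e1, hF.cov]

/-- The family of the conjugates of `F`. -/
theorem pfam (htr : ∀ l : S, ∃ g : H, g • l₀ = l) (hadj : ∀ g, adjoint (π g) = π g⁻¹)
    (hcl : ∀ g γ, π g * ρ γ = ρ γ * π g) (hW : ∀ w ∈ W, ∀ g, π g * w * π g⁻¹ ∈ W)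
    (hF : PF ρ W A F) (hpar : ∀ p : H, p • l₀ = l₀ → ∀ C, π p * F C = F C * π p)
    (hcm : ∀ g C C', F C * (π g * F C' * π g⁻¹) = π g * F C' * π g⁻¹ * F C) :
    PFam π ρ W A (fam π htr F) where
  pf x := by
    obtain ⟨g, rfl⟩ := htr x
    have e : fam π htr F (g • l₀) = fun C => π g * F C * π g⁻¹ :=
      funext fun C => fam_smul hpar htr g C
    rw [e]
    exact pf_conj hadj hcl hW hF g
  src m x U := by
    obtain ⟨g, rfl⟩ := htr x
    rw [fam_smul hpar, ← mul_smul, fam_smul hpar, conj_conj']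
  comm x y := by
    obtain ⟨g, rfl⟩ := htr x
    obtain ⟨h, rfl⟩ := htr y
    intro U V
    rw [fam_smul hpar, fam_smul hpar]
    have h1 := conj_comm_of (π := π) g (hcm (g⁻¹ * h) U V)
    rw [conj_conj', mul_inv_cancel_left] at h1
    exact h1

/-- Two families commute. -/
theorem fam_comm {X' : Type*} [TopologicalSpace X'] {F' : Clopens X' → (K →L[ℂ] K)}
    (htr : ∀ l : S, ∃ g : H, g • l₀ = l)
    (hpar : ∀ p : H, p • l₀ = l₀ → ∀ C, π p * F C = F C * π p)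
    (hpar' : ∀ p : H, p • l₀ = l₀ → ∀ C, π p * F' C = F' C * π p)
    (hcm : ∀ g C C', F C * (π g * F' C' * π g⁻¹) = π g * F' C' * π g⁻¹ * F C) (x y : S) :
    CM (fam π htr F x) (fam π htr F' y) := by
  obtain ⟨g, rfl⟩ := htr x
  obtain ⟨h, rfl⟩ := htr y
  intro U V
  rw [fam_smul hpar, fam_smul hpar']
  have h1 := conj_comm_of (π := π) g (hcm (g⁻¹ * h) U V)
  rw [conj_conj', mul_inv_cancel_left] at h1
  exact h1

end leg

section four

variable {S X X' : Type*} [MulAction H S] [TopologicalSpace X] [CompactSpace X]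
  [TopologicalSpace X'] [CompactSpace X']
  {π : H →* (K →L[ℂ] K)} {ρ ρ' : 𝒢 →* (K →L[ℂ] K)} {W W' : Set (K →L[ℂ] K)} {A : GA 𝒢 X}
  {A' : GA 𝒢 X'} {P : S → Clopens X → (K →L[ℂ] K)} {P' : S → Clopens X' → (K →L[ℂ] K)}

/-- the joint measure of the four lines `x 0, x 1, x 2, x 3` -/
noncomputable def J4 (P : S → Clopens X → (K →L[ℂ] K)) (x : Fin 4 → S) :
    Clopens (((X × X) × X) × X) → (K →L[ℂ] K) := jn4 (P (x 0)) (P (x 1)) (P (x 2)) (P (x 3))

theorem CM.jn4' {Z : Type*} [TopologicalSpace Z] {P₁ P₂ P₃ P₄ : Clopens X → (K →L[ℂ] K)}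
    {Q : Clopens Z → (K →L[ℂ] K)} (h1 : CM P₁ Q) (h2 : CM P₂ Q) (h3 : CM P₃ Q) (h4 : CM P₄ Q) :
    CM (jn4 P₁ P₂ P₃ P₄) Q :=
  CM.jn (CM.jn (CM.jn h1 h2) h3) h4

theorem J4_comm (h : ∀ x y, CM (P x) (P' y)) (x y : Fin 4 → S) : CM (J4 P x) (J4 P' y) := by
  refine CM.jn4' ?_ ?_ ?_ ?_ <;>
  · refine CM.symm (CM.jn4' ?_ ?_ ?_ ?_) <;> exact CM.symm (h _ _)

theorem J4_pf (hP : PFam π ρ W A P) (x : Fin 4 → S) :
    PF ρ W (((A.prod A).prod A).prod A) (J4 P x) := hP.pf4 _ _ _ _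

theorem J4_conj (hP : PFam π ρ W A P) (m : H) (x : Fin 4 → S) (D : Clopens (((X × X) × X) × X)) :
    π m * J4 P x D * π m⁻¹ = J4 P (fun i => m • x i) D := by
  have e : ∀ i, (fun U => π m * P (x i) U * π m⁻¹) = P (m • x i) := fun i =>
    funext fun U => hP.src m (x i) U
  have hi := rho_inv_mul π m
  rw [J4, jn4, jn_conj hi, e]
  have e3 : (fun U => π m * jn3 (P (x 0)) (P (x 1)) (P (x 2)) U * π m⁻¹) =
      jn3 (P (m • x 0)) (P (m • x 1)) (P (m • x 2)) := by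
    funext U
    rw [jn3, jn_conj hi, e]
    have e2 : (fun U => π m * jn (P (x 0)) (P (x 1)) U * π m⁻¹) =
        jn (P (m • x 0)) (P (m • x 1)) := by
      funext U
      rw [jn_conj hi, e, e]
    rw [e2]
    rfl
  rw [e3]
  rfl

/-- **The projection**: a good box of each leg. -/
theorem exists_op [Nontrivial K] (hP : PFam π ρ W A P) (hP' : PFam π ρ' W' A' P')
    (hc : ∀ x y, CM (P x) (P' y)) (hρ : ∀ γ, ρ γ ∈ W') (hρ' : ∀ γ, ρ' γ ∈ W)
    {Y : Set (K →L[ℂ] K)} (hYW : Y ⊆ W) (hYW' : Y ⊆ W') {x : Fin 4 → S}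
    {O : ℕ → Clopens (((X × X) × X) × X)} {O' : ℕ → Clopens (((X' × X') × X') × X')}
    (h0 : SLim (fun n => J4 P x (O n)) 0) (h0' : SLim (fun n => J4 P' x (O' n)) 0)
    (hG : ∀ n, ∀ z ∉ O n, ∃ C : Clopens (((X × X) × X) × X), z ∈ C ∧
      ∀ g, g ≠ 1 → Disjoint C ((((A.prod A).prod A).prod A).tr g C))
    (hG' : ∀ n, ∀ z ∉ O' n, ∃ C : Clopens (((X' × X') × X') × X'), z ∈ C ∧
      ∀ g, g ≠ 1 → Disjoint C ((((A'.prod A').prod A').prod A').tr g C)) :
    ∃ T : K →L[ℂ] K, adjoint T = T ∧ T * T = T ∧ T ≠ 0 ∧ (∀ w ∈ Y, T * w = w * T) ∧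
      (∀ a b, (a, b) ≠ (1, 1) → T * (ρ a * ρ' b * T * (ρ' b⁻¹ * ρ a⁻¹)) = 0) ∧
      ∀ g a b, T * (π g * (ρ a * ρ' b * T * (ρ' b⁻¹ * ρ a⁻¹)) * π g⁻¹) =
        π g * (ρ a * ρ' b * T * (ρ' b⁻¹ * ρ a⁻¹)) * π g⁻¹ * T := by
  have hJ := J4_pf hP x
  have hJ' := J4_pf hP' x
  have hJJ := J4_comm hc x x
  obtain ⟨C, C', hC, hC', hT⟩ := exists_good hJ.cpv hJ'.cpv hJJ h0 h0' hG hG'
  obtain ⟨T, hTd⟩ : ∃ T, T = J4 P x C * J4 P' x C' := ⟨_, rfl⟩
  rw [← hTd] at hT
  -- conjugation by the target groups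
  have hR : ∀ a b, ρ a * ρ' b * T * (ρ' b⁻¹ * ρ a⁻¹) =
      J4 P x ((((A.prod A).prod A).prod A).tr a C) *
        J4 P' x ((((A'.prod A').prod A').prod A').tr b C') := by
    intro a b
    have e1 := hJ.cm C _ (hρ' b)
    have e2 := hJ'.cov b C'
    have e3 := hJ.cov a C
    have e4 := hJ'.cm ((((A'.prod A').prod A').prod A').tr b C') _ (hρ a)
    have e5 : ρ a⁻¹ * ρ a = 1 := rho_inv_mul ρ a
    have e6 : ρ' b * T * ρ' b⁻¹ =
        J4 P x C * J4 P' x ((((A'.prod A').prod A').prod A').tr b C') := by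
      rw [hTd, ← e2]
      calc ρ' b * (J4 P x C * J4 P' x C') * ρ' b⁻¹ =
            (ρ' b * J4 P x C) * J4 P' x C' * ρ' b⁻¹ := by simp only [mul_assoc]
        _ = J4 P x C * (ρ' b * J4 P' x C' * ρ' b⁻¹) := by rw [← e1]; simp only [mul_assoc]
    have e7 := hJ'.cm ((((A'.prod A').prod A').prod A').tr b C') _ (hρ a⁻¹)
    calc ρ a * ρ' b * T * (ρ' b⁻¹ * ρ a⁻¹) = ρ a * (ρ' b * T * ρ' b⁻¹) * ρ a⁻¹ := by
          simp only [mul_assoc]
      _ = ρ a * J4 P x C *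
          (J4 P' x ((((A'.prod A').prod A').prod A').tr b C') * ρ a⁻¹) := by
          rw [e6]; simp only [mul_assoc]
      _ = (ρ a * J4 P x C * ρ a⁻¹) *
          J4 P' x ((((A'.prod A').prod A').prod A').tr b C') := by
          rw [e7]; simp only [mul_assoc]
      _ = _ := by rw [e3]
  refine ⟨T, ?_, ?_, hT, ?_, ?_, ?_⟩
  · have e1 : star (J4 P x C * J4 P' x C') = J4 P x C * J4 P' x C' := by
      rw [star_mul, hJ.cpv.sa, hJ'.cpv.sa, hJJ]
    rw [hTd]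
    exact e1
  · rw [hTd]
    calc J4 P x C * J4 P' x C' * (J4 P x C * J4 P' x C') =
          J4 P x C * (J4 P' x C' * J4 P x C) * J4 P' x C' := by simp only [mul_assoc]
      _ = (J4 P x C * J4 P x C) * (J4 P' x C' * J4 P' x C') := by
          rw [← hJJ]; simp only [mul_assoc]
      _ = _ := by rw [hJ.cpv.idem, hJ'.cpv.idem]
  · intro w hw
    rw [hTd, mul_assoc, hJ'.cm C' w (hYW' hw), ← mul_assoc, hJ.cm C w (hYW hw), mul_assoc]
  · intro a b hab
    rw [hR, hTd]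
    by_cases ha : a = 1
    · have hb : b ≠ 1 := fun hb => hab (by rw [ha, hb])
      have e1 := hJ'.cpv.disj (hC' b hb)
      have e2 := hJJ ((((A.prod A).prod A).prod A).tr a C) C'
      calc J4 P x C * J4 P' x C' * (J4 P x ((((A.prod A).prod A).prod A).tr a C) *
            J4 P' x ((((A'.prod A').prod A').prod A').tr b C')) =
            J4 P x C * (J4 P' x C' * J4 P x ((((A.prod A).prod A).prod A).tr a C)) *
              J4 P' x ((((A'.prod A').prod A').prod A').tr b C') := by simp only [mul_assoc]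
        _ = J4 P x C * J4 P x ((((A.prod A).prod A).prod A).tr a C) *
              (J4 P' x C' * J4 P' x ((((A'.prod A').prod A').prod A').tr b C')) := by
            rw [← e2]; simp only [mul_assoc]
        _ = 0 := by rw [e1, mul_zero]
    · have e1 := hJ.cpv.disj (hC a ha)
      have e2 := hJJ ((((A.prod A).prod A).prod A).tr a C) C'
      calc J4 P x C * J4 P' x C' * (J4 P x ((((A.prod A).prod A).prod A).tr a C) *
            J4 P' x ((((A'.prod A').prod A').prod A').tr b C')) =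
            J4 P x C * (J4 P' x C' * J4 P x ((((A.prod A).prod A).prod A).tr a C)) *
              J4 P' x ((((A'.prod A').prod A').prod A').tr b C') := by simp only [mul_assoc]
        _ = (J4 P x C * J4 P x ((((A.prod A).prod A).prod A).tr a C)) *
              (J4 P' x C' * J4 P' x ((((A'.prod A').prod A').prod A').tr b C')) := by
            rw [← e2]; simp only [mul_assoc]
        _ = 0 := by rw [e1, zero_mul]
  · intro g a b
    rw [hR]
    have e1 : π g * (J4 P x ((((A.prod A).prod A).prod A).tr a C) *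
        J4 P' x ((((A'.prod A').prod A').prod A').tr b C')) * π g⁻¹ =
        J4 P (fun i => g • x i) ((((A.prod A).prod A).prod A).tr a C) *
          J4 P' (fun i => g • x i) ((((A'.prod A').prod A').prod A').tr b C') := by
      rw [← conj_mul_conj, J4_conj hP, J4_conj hP']
    rw [e1, hTd]
    have c1 := J4_comm hP.comm x (fun i => g • x i) C ((((A.prod A).prod A).prod A).tr a C)
    have c2 := J4_comm hc x (fun i => g • x i) C ((((A'.prod A').prod A').prod A').tr b C')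
    have c3 := (J4_comm hc (fun i => g • x i) x ((((A.prod A).prod A).prod A).tr a C) C').symm
    have c4 := J4_comm hP'.comm x (fun i => g • x i) C' ((((A'.prod A').prod A').prod A').tr b C')
    exact Commute.mul_left (Commute.mul_right c1 c2) (Commute.mul_right c3 c4)

end four

section src

/-- Four lines of the source plane in general position. -/
structure Src (H : Type) [Group H] [TopologicalSpace H] {S : Type*} [MulAction H S]
    (x : Fin 4 → S) : Prop where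
  sup2 : ∀ i j, i < j → MulAction.stabilizer H (x i) ⊔ MulAction.stabilizer H (x j) = ⊤
  sup3 : ∀ i j l, i < j → j < l →
    (MulAction.stabilizer H (x i) ⊓ MulAction.stabilizer H (x j)) ⊔
      (MulAction.stabilizer H (x i) ⊓ MulAction.stabilizer H (x l)) ⊔
      (MulAction.stabilizer H (x j) ⊓ MulAction.stabilizer H (x l)) = ⊤
  moore : ∀ i j l, i < j → j < l → RC.Moore ((MulAction.stabilizer H (x i) ⊓
    MulAction.stabilizer H (x j) ⊓ MulAction.stabilizer H (x l) : Subgroup H) : Set H)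
  moore2 : ∀ i j, i < j → RC.Moore ((MulAction.stabilizer H (x i) ⊓
    MulAction.stabilizer H (x j) : Subgroup H) : Set H)

variable {H : Type} [Group H] [TopologicalSpace H] {S X Y : Type*} [MulAction H S]
  [TopologicalSpace X] [CompactSpace X] [TopologicalSpace Y] [CompactSpace Y]
  {π : H →* (K →L[ℂ] K)} {ρ : 𝒢 →* (K →L[ℂ] K)} {W : Set (K →L[ℂ] K)} {A : GA 𝒢 X}
  {B : GA 𝒢 Y} {P : S → Clopens X → (K →L[ℂ] K)}

/-- **General position.** -/
theorem PFam.gen (hP : PFam π ρ W A P) {ln : X × X → Y} {D₃ : Set ((X × X) × X)}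
    (hG : Geo A B ln D₃) {O : ℕ → Clopens (X × X)} (hO : NB {p : X × X | p.1 = p.2} O)
    {O₃ : ℕ → Clopens ((X × X) × X)} (hO₃ : NB D₃ O₃) (hA : NoC π ρ W A) (hB : NoC π ρ W B)
    (he : ∀ R : Set H, RC.Moore R → ErgS π ρ W R) {x : Fin 4 → S} (hx : Src H x) :
    SLim (fun n => J4 P x (bad4 O₃ n)) 0 := by
  have h2 : ∀ i j, i < j → SLim (fun n => jn (P (x i)) (P (x j)) (O n)) 0 := fun i j hij =>
    hP.ne hO hA (he _ (hx.moore2 i j hij)) (hx.sup2 i j hij)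
  have h3 : ∀ i j l, i < j → j < l →
      SLim (fun n => jn3 (P (x i)) (P (x j)) (P (x l)) (O₃ n)) 0 := fun i j l hij hjl =>
    hP.ncol hG hO hO₃ hB (h2 i j hij) (h2 i l (hij.trans hjl)) (h2 j l hjl)
      (he _ (hx.moore i j l hij hjl)) (hx.sup3 i j l hij hjl)
  exact hP.gen4 (h3 0 1 2 (by decide) (by decide)) (h3 0 1 3 (by decide) (by decide))
    (h3 0 2 3 (by decide) (by decide)) (h3 1 2 3 (by decide) (by decide))

end src

section noc

variable {H Γ : Type} [Group H] [TopologicalSpace H] [Group Γ] {K : Type} [NormedAddCommGroup K]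
  [InnerProductSpace ℂ K] [CompleteSpace K] {X : Type*} [TopologicalSpace X]
  {π : H →* (K →L[ℂ] K)} {lam : Γ →* (K →L[ℂ] K)} {W : Set (K →L[ℂ] K)} {Ω : K} {A : GA Γ X}

/-- No covariant measure commutes with the source group. -/
theorem noC_of_inv (hΩ : ‖Ω‖ = 1)
    (hinv : ∀ T, RC.Cm W T → (∀ g, T * π g = π g * T) → ∀ γ,
      ⟪Ω, (lam γ * T * lam γ⁻¹) Ω⟫_ℂ = ⟪Ω, T Ω⟫_ℂ)
    (hNI : ∀ φ : Clopens X → ℝ, (∀ U, 0 ≤ φ U) →
      (∀ U V : Clopens X, Disjoint U V → φ (U ⊔ V) = φ U + φ V) → φ ⊤ = 1 →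
      (∀ γ U, φ (A.tr γ U) = φ U) → False) : NoC π lam W A := by
  intro P hP hc
  have h0 : ∀ U, (⟪Ω, P U Ω⟫_ℂ).re = ‖P U Ω‖ ^ 2 := by
    intro U
    have e1 : ⟪Ω, P U Ω⟫_ℂ = ⟪P U Ω, P U Ω⟫_ℂ := by
      have e2 : P U Ω = P U (P U Ω) := congrArg (fun B : K →L[ℂ] K => B Ω) (hP.cpv.idem U).symm
      conv_lhs => rw [e2]
      rw [← adjoint_inner_left]
      have e3 : adjoint (P U) = P U := hP.cpv.sa U
      rw [e3]
    rw [e1]
    exact inner_self_eq_norm_sq (𝕜 := ℂ) (P U Ω)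
  refine hNI (fun U => (⟪Ω, P U Ω⟫_ℂ).re) (fun U => ?_) (fun U V hUV => ?_) ?_ fun γ U => ?_
  · change 0 ≤ (⟪Ω, P U Ω⟫_ℂ).re
    rw [h0]
    positivity
  · have e1 : P (U ⊔ V) = P U + P V := by
      rw [hP.cpv.sup, hP.cpv.disj hUV, sub_zero]
    change (⟪Ω, P (U ⊔ V) Ω⟫_ℂ).re = (⟪Ω, P U Ω⟫_ℂ).re + (⟪Ω, P V Ω⟫_ℂ).re
    rw [e1, ContinuousLinearMap.add_apply, inner_add_right, Complex.add_re]
  · change (⟪Ω, P ⊤ Ω⟫_ℂ).re = 1
    rw [h0, hP.cpv.top, ContinuousLinearMap.one_apply, hΩ, one_pow]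
  · change (⟪Ω, P (A.tr γ U) Ω⟫_ℂ).re = (⟪Ω, P U Ω⟫_ℂ).re
    rw [← hP.cov γ U, hinv (P U) (fun w hw => hP.cm U w hw) (fun g => hc g U) γ]

end noc

end Vale.Agent.P092.H264.Op
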