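import Vale.Agent.P092.H264.EndL

/-!
P092 (helper264), team C (one simple factor), block [C-END]: naturality of the joint measure, and
the limits along the neighbourhoods of a closed set.
-/

set_option linter.all false

open scoped InnerProductSpace
open Filter Topology ContinuousLinearMap TopologicalSpace

namespace Vale.Agent.P092.H264

open Vale.Agent.P092.H820

section pull

variable {X X' Y Y' : Type*} [TopologicalSpace X] [TopologicalSpace X'] [TopologicalSpace Y]
  [TopologicalSpace Y']

/-- Inverse image of a clopen set. -/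
def pull (f : X → X') (hf : Continuous f) (U : Clopens X') : Clopens X :=
  ⟨f ⁻¹' (U : Set X'), U.isClopen.preimage hf⟩

theorem mem_pull {f : X → X'} {hf : Continuous f} {U : Clopens X'} {x : X} :
    x ∈ pull f hf U ↔ f x ∈ U := Iff.rfl

theorem pull_inf (f : X → X') (hf : Continuous f) (U V : Clopens X') :
    pull f hf (U ⊓ V) = pull f hf U ⊓ pull f hf V := rfl

theorem pull_compl (f : X → X') (hf : Continuous f) (U : Clopens X') :
    pull f hf Uᶜ = (pull f hf U)ᶜ := rfl

theorem pull_mono (f : X → X') (hf : Continuous f) {U V : Clopens X'} (h : U ≤ V) :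
    pull f hf U ≤ pull f hf V := fun x hx => h hx

variable {𝔸 : Type*} [Ring 𝔸] [StarRing 𝔸]

theorem cpv_pull {P : Clopens X → 𝔸} (hP : Cpv P) (f : X → X') (hf : Continuous f) :
    Cpv fun U => P (pull f hf U) := hP.map f hf

theorem BRep.pull {W : Clopens (X' × Y')} {ι : Type*} {s : Finset ι} {A : ι → Clopens X'}
    {B : ι → Clopens Y'} (h : BRep W s A B) {f : X → X'} (hf : Continuous f) {g : Y → Y'}
    (hg : Continuous g) : BRep (H264.pull (Prod.map f g) (hf.prodMap hg) W) s
      (fun i => H264.pull f hf (A i)) (fun i => H264.pull g hg (B i)) := by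
  refine ⟨fun i hi j hj hij => ?_, ?_, fun i hi x hx y => h.mem i hi _ hx _⟩
  · rw [disjoint_iff]
    ext x
    refine ⟨fun hx => ?_, fun hx => hx.elim⟩
    exact ((h.disj i hi j hj hij).le_bot ⟨hx.1, hx.2⟩ : f x ∈ (⊥ : Clopens X'))
  · ext x
    refine ⟨fun _ => trivial, fun _ => ?_⟩
    have h1 : f x ∈ s.sup A := by rw [h.cover]; trivial
    obtain ⟨i, hi, hxi⟩ := (mem_fsup A (f x)).1 h1
    exact (mem_fsup _ x).2 ⟨i, hi, hxi⟩

variable [CompactSpace X] [CompactSpace Y] [CompactSpace X'] [CompactSpace Y']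

/-- Naturality of the joint measure in the spaces. -/
theorem jn_pull {P : Clopens X → 𝔸} (hP : Cpv P) (Q : Clopens Y → 𝔸) {f : X → X'}
    (hf : Continuous f) {g : Y → Y'} (hg : Continuous g) (W : Clopens (X' × Y')) :
    jn (fun U => P (pull f hf U)) (fun V => Q (pull g hg V)) W =
      jn P Q (pull (Prod.map f g) (hf.prodMap hg) W) := by
  obtain ⟨s, A, h⟩ := exists_brep W
  rw [jn_eq h (cpv_pull hP f hf), jn_eq (h.pull hf hg) hP]

omit [CompactSpace X'] [CompactSpace Y'] in
/-- Naturality of the joint measure in the algebra. -/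
theorem jn_hom {𝔹 : Type*} [Ring 𝔹] (φ : 𝔸 → 𝔹) (h0 : φ 0 = 0) (ha : ∀ a b, φ (a + b) = φ a + φ b)
    (hm : ∀ a b, φ (a * b) = φ a * φ b) (P : Clopens X → 𝔸) (Q : Clopens Y → 𝔸)
    (W : Clopens (X × Y)) : φ (jn P Q W) = jn (fun U => φ (P U)) (fun V => φ (Q V)) W := by
  unfold jn
  rw [show φ (∑ V ∈ (exists_brep W).choose, P ((exists_brep W).choose_spec.choose V) * Q V) =
      ∑ V ∈ (exists_brep W).choose, φ (P ((exists_brep W).choose_spec.choose V) * Q V) from
    map_sum (⟨⟨φ, h0⟩, ha⟩ : 𝔸 →+ 𝔹) _ _]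
  exact Finset.sum_congr rfl fun V _ => hm _ _

end pull

section conj

variable {E : Type*} [NormedAddCommGroup E] [InnerProductSpace ℂ E] [CompleteSpace E]
  {X Y : Type*} [TopologicalSpace X] [TopologicalSpace Y] [CompactSpace X] [CompactSpace Y]

/-- The joint measure and conjugation by an invertible operator. -/
theorem jn_conj {u u' : E →L[ℂ] E} (hu : u' * u = 1) (P : Clopens X → (E →L[ℂ] E))
    (Q : Clopens Y → (E →L[ℂ] E)) (W : Clopens (X × Y)) :
    u * jn P Q W * u' = jn (fun U => u * P U * u') (fun V => u * Q V * u') W := by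
  refine jn_hom (fun T => u * T * u') ?_ ?_ ?_ P Q W
  · rw [mul_zero, zero_mul]
  · intro a b
    rw [mul_add, add_mul]
  · intro a b
    calc u * (a * b) * u' = u * a * 1 * b * u' := by noncomm_ring
      _ = u * a * (u' * u) * b * u' := by rw [hu]
      _ = (u * a * u') * (u * b * u') := by noncomm_ring

end conj

section nb

variable {Z : Type*} [TopologicalSpace Z]

/-- `O` is a decreasing sequence of clopen sets, a basis of the clopen neighbourhoods of `D`. -/
structure NB (D : Set Z) (O : ℕ → Clopens Z) : Prop where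
  anti : Antitone O
  sub : ∀ n, D ⊆ (O n : Set Z)
  basis : ∀ U : Clopens Z, D ⊆ (U : Set Z) → ∃ n, O n ≤ U

theorem exists_nb [Countable (Clopens Z)] (D : Set Z) : ∃ O : ℕ → Clopens Z, NB D O := by
  classical
  have hne : Nonempty {U : Clopens Z // D ⊆ (U : Set Z)} := ⟨⟨⊤, fun _ _ => trivial⟩⟩
  obtain ⟨e, he⟩ := exists_surjective_nat {U : Clopens Z // D ⊆ (U : Set Z)}
  refine ⟨fun n => (Finset.range (n + 1)).inf fun i => (e i : Clopens Z), ?_, ?_, ?_⟩
  · intro n m hnm
    exact Finset.inf_mono (Finset.range_mono (by omega))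
  · intro n
    have key : ∀ s : Finset ℕ, D ⊆ ((s.inf fun i => (e i : Clopens Z) : Clopens Z) : Set Z) := by
      intro s
      induction s using Finset.induction_on with
      | empty => intro x _; rw [Finset.inf_empty]; trivial
      | insert a s ha ih =>
        intro x hx
        rw [Finset.inf_insert]
        exact ⟨(e a).2 hx, ih hx⟩
    exact key _
  · intro U hU
    obtain ⟨n, hn⟩ := he ⟨U, hU⟩
    refine ⟨n, ?_⟩
    have h1 : (Finset.range (n + 1)).inf (fun i => (e i : Clopens Z)) ≤ (e n : Clopens Z) :=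
      Finset.inf_le (f := fun i => (e i : Clopens Z)) (Finset.self_mem_range_succ n)
    rwa [hn] at h1

variable {E : Type*} [NormedAddCommGroup E] [InnerProductSpace ℂ E] [CompleteSpace E]
  {P : Clopens Z → (E →L[ℂ] E)} {D : Set Z} {O : ℕ → Clopens Z} {q : E →L[ℂ] E}

/-- The limit is below every neighbourhood. -/
theorem NB.le (hO : NB D O) (hP : Cpv P) (hq : SLim (fun n => P (O n)) q) {U : Clopens Z}
    (hU : D ⊆ (U : Set Z)) : P U * q = q ∧ q * P U = q := by
  obtain ⟨n, hn⟩ := hO.basis U hU
  constructor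
  · refine ((hq.mul_left (P U)).eventually_congr ?_).unique hq
    filter_upwards [eventually_ge_atTop n] with m hm
    exact hP.le_right ((hO.anti hm).trans hn)
  · refine ((hq.mul_right (P U)).eventually_congr ?_).unique hq
    filter_upwards [eventually_ge_atTop n] with m hm
    exact hP.le_left ((hO.anti hm).trans hn)

/-- If the limit is one then the sets off `D` are null sets. -/
theorem NB.null (hO : NB D O) (hP : Cpv P) (hq : SLim (fun n => P (O n)) 1) {U : Clopens Z}
    (hU : ∀ z ∈ U, z ∉ D) : P U = 0 := by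
  have h1 := (hO.le hP hq (U := Uᶜ) fun z hz hz' => hU z hz' hz).1
  rw [mul_one, hP.compl] at h1
  have : P U = 1 - (1 - P U) := by rw [sub_sub_cancel]
  rw [this, h1, sub_self]

/-- The limits along two bases coincide: the case of a homeomorphism preserving `D`. -/
theorem NB.conj (hO : NB D O) (hP : Cpv P) (hq : SLim (fun n => P (O n)) q)
    {u u' : E →L[ℂ] E} (hu : u' * u = 1) (hu' : u * u' = 1) {f : Z → Z} (hf : Continuous f)
    (hc : ∀ U, u * P U * u' = P (pull f hf U)) (hD : ∀ z ∈ D, f z ∈ D)
    {g : Z → Z} (hg : Continuous g) (hfg : ∀ z, f (g z) = z) (hgf : ∀ z, g (f z) = z)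
    (hD' : ∀ z ∈ D, g z ∈ D) : u * q * u' = q := by
  have h1 : SLim (fun n => P (pull f hf (O n))) (u * q * u') :=
    ((hq.mul_left u).mul_right u').congr fun n => hc _
  -- `u q u' ≤ q`
  have a1 : ∀ n, P (O n) * (u * q * u') = u * q * u' := by
    intro n
    obtain ⟨m, hm⟩ := hO.basis (pull g hg (O n)) fun z hz => hO.sub n (hD' z hz)
    refine ((h1.mul_left (P (O n))).eventually_congr ?_).unique h1
    filter_upwards [eventually_ge_atTop m] with j hj
    refine hP.le_right ?_
    intro z hz
    have h2 : f z ∈ pull g hg (O n) := hm (hO.anti hj hz)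
    have h3 : g (f z) ∈ O n := h2
    rwa [hgf] at h3
  have a2 : q * (u * q * u') = u * q * u' :=
    (hq.mul_right (u * q * u')).unique ((SLim.const _).congr fun n => (a1 n).symm)
  -- `q ≤ u q u'`
  have b1 : ∀ n, P (pull f hf (O n)) * q = q := fun n =>
    (hO.le hP hq (U := pull f hf (O n)) fun z hz => hO.sub n (hD z hz)).1
  have b2 : (u * q * u') * q = q :=
    (h1.mul_right q).unique ((SLim.const _).congr fun n => (b1 n).symm)
  -- both are selfadjoint
  have hsa : adjoint q = q := hq.sa fun n => hP.sa _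
  have hsa' : adjoint (u * q * u') = u * q * u' := h1.sa fun n => hP.sa _
  have c1 : star (q * (u * q * u')) = star (u * q * u') := by rw [a2]
  rw [star_mul] at c1
  have c2 : (u * q * u') * q = u * q * u' := by
    have e1 : star (u * q * u') = u * q * u' := hsa'
    have e2 : star q = q := hsa
    rwa [e1, e2] at c1
  exact c2.symm.trans b2

end nb

section diag

variable {X : Type*} [TopologicalSpace X] [CompactSpace X]
  {E : Type*} [NormedAddCommGroup E] [InnerProductSpace ℂ E] [CompleteSpace E]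

/-- If the joint measure of two measures is carried by the diagonal then they are equal. -/
theorem eq_of_diag {P Q : Clopens X → (E →L[ℂ] E)} (hP : Cpv P) (hQ : Cpv Q)
    (hc : ∀ U V, P U * Q V = Q V * P U) {O : ℕ → Clopens (X × X)}
    (hO : NB {p : X × X | p.1 = p.2} O) (hq : SLim (fun n => jn P Q (O n)) 1) : P = Q := by
  have h1 : ∀ U, P U * Q Uᶜ = 0 := fun U => by
    rw [← jn_box hP hQ]
    refine hO.null (cpv_jn hP hQ hc) hq fun z hz hz' => ?_
    have e : z.1 = z.2 := hz'
    exact hz.2 (e ▸ hz.1)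
  have h2 : ∀ U, P Uᶜ * Q U = 0 := fun U => by
    rw [← jn_box hP hQ]
    refine hO.null (cpv_jn hP hQ hc) hq fun z hz hz' => ?_
    have e : z.1 = z.2 := hz'
    exact hz.1 (e.symm ▸ hz.2)
  funext U
  have a1 := h1 U
  have a2 := h2 U
  rw [hQ.compl, mul_sub, mul_one, sub_eq_zero] at a1
  rw [hP.compl, sub_mul, one_mul, sub_eq_zero] at a2
  rw [a1, ← a2]

end diag

end Vale.Agent.P092.H264
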