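import Vale.Agent.P092.H264.EndP

/-!
P092 (helper264), team C (one simple factor), block [C-END]: properties of the push forward (the
line through two different quantum points).
-/

set_option linter.all false

open scoped InnerProductSpace
open Filter Topology ContinuousLinearMap TopologicalSpace

namespace Vale.Agent.P092.H264

open Vale.Agent.P092.H820

variable {E : Type*} [NormedAddCommGroup E] [InnerProductSpace ℂ E] [CompleteSpace E]
  {Z Y : Type*} [TopologicalSpace Z] [TopologicalSpace Y]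
  {P : Clopens Z → (E →L[ℂ] E)} {D : Set Z} {O : ℕ → Clopens Z} {f : Z → Y}

/-- `f` is continuous off every clopen neighbourhood of `D`. -/
def COff (D : Set Z) (f : Z → Y) : Prop :=
  ∀ (R : Clopens Z), (∀ z ∈ R, z ∉ D) → ∀ V : Clopens Y, IsClopen (f ⁻¹' (V : Set Y) ∩ (R : Set Z))

theorem COff.of_continuousOn [CompactSpace Z] (h : ContinuousOn f Dᶜ) : COff D f := by
  intro R hR V
  have hRD : (R : Set Z) ⊆ Dᶜ := hR
  have h1 : ContinuousOn f (R : Set Z) := h.mono hRD
  constructor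
  · rw [Set.inter_comm]
    exact h1.preimage_isClosed_of_isClosed R.isClopen.isClosed V.isClopen.isClosed
  · rw [Set.inter_comm]
    exact h1.isOpen_inter_preimage R.isClopen.isOpen V.isClopen.isOpen

/-- The clopen set `f⁻¹ V ∩ R`. -/
def cut (hf : COff D f) (R : Clopens Z) (hR : ∀ z ∈ R, z ∉ D) (V : Clopens Y) : Clopens Z :=
  ⟨_, hf R hR V⟩

theorem mem_cut {hf : COff D f} {R : Clopens Z} {hR : ∀ z ∈ R, z ∉ D} {V : Clopens Y} {z : Z} :
    z ∈ cut hf R hR V ↔ f z ∈ V ∧ z ∈ R := Iff.rfl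

theorem NB.off (hO : NB D O) (n : ℕ) : ∀ z ∈ (O n)ᶜ, z ∉ D := fun z hz hz' => hz (hO.sub n hz')

/-- `L` is the push forward of `P` along `f`. -/
structure IsPush (hf : COff D f) (P : Clopens Z → (E →L[ℂ] E)) (L : Clopens Y → (E →L[ℂ] E)) :
    Prop where
  cpv : Cpv L
  mul : ∀ (R : Clopens Z) (hR : ∀ z ∈ R, z ∉ D) (V : Clopens Y), L V * P R = P (cut hf R hR V)

/-- Existence of the push forward. -/
theorem IsPush.exists (hO : NB D O) (hP : Cpv P) (h0 : SLim (fun n => P (O n)) 0)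
    (hf : COff D f) : ∃ L : Clopens Y → (E →L[ℂ] E), IsPush hf P L ∧
      ∀ V, SLim (fun n => P (cut hf (O n)ᶜ (hO.off n) V)) (L V) := by
  obtain ⟨L, hL, h1, h2⟩ := exists_push (f := f) hP hO.anti h0
    fun n V => hf (O n)ᶜ (hO.off n) V
  refine ⟨L, ⟨hL, fun R hR V => ?_⟩, h1⟩
  obtain ⟨n, hn⟩ := hO.basis Rᶜ fun z hz hz' => hR z hz' hz
  have h3 := congrArg (fun T => T * P R) (h2 n V)
  have h4 : R ≤ (O n)ᶜ := fun z hz hz' => hn hz' hz
  have h5 : L V * P (O n)ᶜ * P R = L V * P R := by rw [mul_assoc, hP.le_right h4]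
  have h6 : P (pb f O (fun n V => hf (O n)ᶜ (hO.off n) V) n V) * P R = P (cut hf R hR V) := by
    rw [← hP.inf]
    congr 1
    ext z
    exact ⟨fun h => ⟨h.1.1, h.2⟩, fun h => ⟨⟨h.1, h4 h.2⟩, h.2⟩⟩
  rw [← h5, ← h6]
  exact h3

theorem IsPush.slim {hf : COff D f} {L : Clopens Y → (E →L[ℂ] E)} (hL : IsPush hf P L)
    (hO : NB D O) (hP : Cpv P) (h0 : SLim (fun n => P (O n)) 0) (V : Clopens Y) :
    SLim (fun n => P (cut hf (O n)ᶜ (hO.off n) V)) (L V) := by
  have h1 : SLim (fun n => L V * (1 - P (O n))) (L V * (1 - 0)) :=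
    ((SLim.const 1).sub h0).mul_left (L V)
  rw [sub_zero, mul_one] at h1
  refine h1.congr fun n => ?_
  rw [← hP.compl, hL.mul]

theorem IsPush.unique {hf : COff D f} {L L' : Clopens Y → (E →L[ℂ] E)} (hL : IsPush hf P L)
    (hL' : IsPush hf P L') (hO : NB D O) (hP : Cpv P) (h0 : SLim (fun n => P (O n)) 0) :
    L = L' := by
  funext V
  exact (hL.slim hO hP h0 V).unique (hL'.slim hO hP h0 V)

/-- **Covariance of the push forward** under an automorphism. -/
theorem IsPush.conj {hf : COff D f} {L : Clopens Y → (E →L[ℂ] E)} (hL : IsPush hf P L)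
    (hO : NB D O) (hP : Cpv P) (h0 : SLim (fun n => P (O n)) 0)
    {u u' : E →L[ℂ] E} {F : Z → Z} (hF : Continuous F)
    (hc : ∀ U, u * P U * u' = P (pull F hF U)) (hD : ∀ z ∈ D, F z ∈ D) {G : Y → Y}
    (hG : Continuous G) (hFG : ∀ z, z ∉ D → f (F z) = G (f z)) (hu' : u * u' = 1) (V : Clopens Y) :
    u * L V * u' = L (pull G hG V) := by
  have h1 : SLim (fun n => u * P (cut hf (O n)ᶜ (hO.off n) V) * u') (u * L V * u') :=
    ((hL.slim hO hP h0 V).mul_left u).mul_right u'
  have h2 : SLim (fun n => L (pull G hG V) * (1 - u * P (O n) * u')) (L (pull G hG V)) := by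
    have h3 : SLim (fun n => L (pull G hG V) * (1 - u * P (O n) * u'))
        (L (pull G hG V) * (1 - u * 0 * u')) :=
      ((SLim.const 1).sub ((h0.mul_left u).mul_right u')).mul_left _
    rwa [mul_zero, zero_mul, sub_zero, mul_one] at h3
  refine h1.unique (h2.congr fun n => ?_)
  have hR : ∀ z ∈ (pull F hF (O n))ᶜ, z ∉ D := fun z hz hz' => hz (hO.sub n (hD z hz'))
  rw [hc, hc, ← hP.compl, hL.mul _ hR]
  congr 1
  ext z
  constructor
  · intro h
    have h4 : z ∉ D := hR z h.2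
    have h5 : f (F z) ∈ V := by
      rw [hFG z h4]
      exact h.1
    exact ⟨h5, h.2⟩
  · intro h
    have h4 : z ∉ D := hR z h.2
    have h5 : f (F z) ∈ V := h.1
    rw [hFG z h4] at h5
    exact ⟨h5, h.2⟩

/-- Two push forwards of a measure carried by `T`, along maps which agree on `T`. -/
theorem IsPush.eq_of_carried {Z' : Type*} [TopologicalSpace Z'] {J : Clopens Z' → (E →L[ℂ] E)}
    (hJ : Cpv J) {T : Set Z'} {OT : ℕ → Clopens Z'} (hOT : NB T OT) (h1 : SLim (fun n => J (OT n)) 1)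
    {a b : Z' → Z} (ha : Continuous a) (hb : Continuous b) {hf : COff D f}
    {L L' : Clopens Y → (E →L[ℂ] E)} (hL : IsPush hf (fun U => J (pull a ha U)) L)
    (hL' : IsPush hf (fun U => J (pull b hb U)) L') (hO : NB D O)
    (h0 : SLim (fun n => J (pull a ha (O n))) 0) (h0' : SLim (fun n => J (pull b hb (O n))) 0)
    (hab : ∀ z ∈ T, a z ∉ D → b z ∉ D → f (a z) = f (b z)) : L = L' := by
  have hPa := cpv_pull hJ a ha
  have hPb := cpv_pull hJ b hb
  have key : ∀ V, L V * L' Vᶜ = 0 := by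
    intro V
    have h2 := (hL.slim hO hPa h0 V).mul (hL'.slim hO hPb h0' Vᶜ) fun n => norm_cpv_le hJ _
    refine h2.unique ((SLim.const 0).congr fun n => ?_)
    rw [← hJ.inf]
    refine (hOT.null hJ h1 fun z hz hz' => ?_).symm
    obtain ⟨h3, h4⟩ := hz
    have h5 : f (a z) ∈ V := h3.1
    have h6 : f (b z) ∉ V := h4.1
    rw [hab z hz' (hO.off n _ h3.2) (hO.off n _ h4.2)] at h5
    exact h6 h5
  have key' : ∀ V, L Vᶜ * L' V = 0 := fun V => by
    have := key Vᶜ
    rwa [compl_compl] at this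
  funext V
  have a1 := key V
  have a2 := key' V
  rw [hL'.cpv.compl, mul_sub, mul_one, sub_eq_zero] at a1
  rw [hL.cpv.compl, sub_mul, one_mul, sub_eq_zero] at a2
  rw [a1, ← a2]

end Vale.Agent.P092.H264
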