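import Vale.Agent.P092.H264.EndH
import Vale.Agent.P092.H264.EndAbs

/-!
P092 (helper264), team C (one simple factor), block [C-END]: the end of the proof for two commuting
legs, from the joint fields.
-/

set_option linter.all false

open scoped InnerProductSpace
open Filter Topology ContinuousLinearMap TopologicalSpace MeasureTheory

namespace Vale.Agent.P092.H264

open Vale.Agent.P092.H820
open Vale.Agent.P092.H828 (Reg URep)

section pairs

variable {E : Type*} [NormedAddCommGroup E] [InnerProductSpace ℂ E] [CompleteSpace E]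
  {H : Type*} [Group H] [MeasurableSpace H] [MeasurableMul₂ H] [MeasurableInv H]
  {μ : Measure H} [SFinite μ] [μ.IsMulRightInvariant]

omit [CompleteSpace E] [Group H] [MeasurableMul₂ H] [MeasurableInv H] [μ.IsMulRightInvariant] in
theorem ae_prod_eq {F G : H × H → E} (hF : AEStronglyMeasurable F (μ.prod μ))
    (hG : AEStronglyMeasurable G (μ.prod μ)) (h : ∀ᵐ x ∂μ, ∀ᵐ y ∂μ, F (x, y) = G (x, y)) :
    ∀ᵐ z ∂(μ.prod μ), F z = G z := by
  obtain ⟨F', hF', hFF⟩ := hF
  obtain ⟨G', hG', hGG⟩ := hG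
  have h1 : MeasurableSet {z | F' z = G' z} := hF'.measurableSet_eq_fun hG'
  have h2 : ∀ᵐ z ∂(μ.prod μ), F' z = G' z := by
    rw [Measure.ae_prod_iff_ae_ae h1]
    filter_upwards [h, Measure.ae_ae_of_ae_prod hFF, Measure.ae_ae_of_ae_prod hGG] with x a1 a2 a3
    filter_upwards [a1, a2, a3] with y b1 b2 b3
    rw [← b2, ← b3, b1]
  filter_upwards [h2, hFF, hGG] with z a1 a2 a3
  rw [a2, a3, a1]

/-- From all left translates to almost all pairs. -/
theorem ae_pairs [SeparableSpace E] {T S : H → (E →L[ℂ] E)}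
    (hT : ∀ u, AEStronglyMeasurable (fun h => T h u) μ)
    (hS : ∀ u, AEStronglyMeasurable (fun h => S h u) μ)
    (hc : ∀ m, ∀ᵐ h ∂μ, T h * S (m * h) = S (m * h) * T h) :
    ∀ᵐ p ∂(μ.prod μ), T p.1 * S p.2 = S p.2 * T p.1 := by
  obtain ⟨s, hs, hd⟩ := exists_countable_dense E
  have key : ∀ u, ∀ᵐ p ∂(μ.prod μ), T p.1 (S p.2 u) = S p.2 (T p.1 u) := by
    intro u
    have hF : AEStronglyMeasurable (fun p : H × H => T p.1 (S p.2 u)) (μ.prod μ) :=
      aesm_apply (P := fun p : H × H => T p.1) (fun u => (hT u).comp_fst) (hS u).comp_snd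
    have hG : AEStronglyMeasurable (fun p : H × H => S p.2 (T p.1 u)) (μ.prod μ) :=
      aesm_apply (P := fun p : H × H => S p.2) (fun u => (hS u).comp_snd) (hT u).comp_fst
    have hχ : MeasurePreserving (fun z : H × H => (z.2, z.1 * z.2)) (μ.prod μ) (μ.prod μ) :=
      measurePreserving_prod_mul_swap_right μ μ
    have hF' := hF.comp_measurePreserving hχ
    have hG' := hG.comp_measurePreserving hχ
    have h1 := ae_prod_eq hF' hG' (Eventually.of_forall fun m => by
      filter_upwards [hc m] with h hh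
      exact congrArg (fun A : E →L[ℂ] E => A u) hh)
    have hτ : MeasurePreserving (fun z : H × H => (z.2 / z.1, z.1)) (μ.prod μ) (μ.prod μ) :=
      (measurePreserving_div_prod μ μ).comp Measure.measurePreserving_swap
    filter_upwards [hτ.quasiMeasurePreserving.ae h1] with p hp
    have h2 : T p.1 (S (p.2 / p.1 * p.1) u) = S (p.2 / p.1 * p.1) (T p.1 u) := hp
    rwa [div_mul_cancel] at h2
  have h3 : ∀ᵐ p ∂(μ.prod μ), ∀ u ∈ s, T p.1 (S p.2 u) = S p.2 (T p.1 u) :=
    (ae_ball_iff hs).2 fun u _ => key u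
  filter_upwards [h3] with p hp
  refine ContinuousLinearMap.ext fun u => ?_
  have h4 : IsClosed {u : E | T p.1 (S p.2 u) = S p.2 (T p.1 u)} :=
    isClosed_eq (((T p.1).continuous).comp (S p.2).continuous)
      (((S p.2).continuous).comp (T p.1).continuous)
  exact (h4.closure_subset_iff.2 hp) (hd u)

end pairs

section core

variable {E : Type*} [NormedAddCommGroup E] [InnerProductSpace ℂ E] [CompleteSpace E]
  {H Λ 𝒢 : Type*} [Group H] [MeasurableSpace H] [MeasurableMul₂ H] [MeasurableInv H] [Group Λ]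
  [Group 𝒢] [Countable 𝒢]
  {μ : Measure H} [SFinite μ] [μ.IsMulRightInvariant] {κ : Λ →* H} {V : Λ → (E →L[ℂ] E)}
  {ρ : 𝒢 → (E →L[ℂ] E)} {ξ : E}
  {Z Z' : Type*} [TopologicalSpace Z] [TopologicalSpace Z'] [CompactSpace Z] [CompactSpace Z']
  [Countable (Clopens Z)] [Countable (Clopens Z')] {A : GA 𝒢 Z} {A' : GA 𝒢 Z'}

theorem sep_of_reg (h : Reg ρ ξ) : SeparableSpace E := by
  have h1 : (Submodule.span ℂ (Set.range fun x => ρ x ξ))ᗮ = ⊥ := by
    rw [Submodule.eq_bot_iff]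
    intro v hv
    refine h.total v fun x => ?_
    exact Submodule.inner_right_of_mem_orthogonal (Submodule.subset_span (Set.mem_range_self x)) hv
  have h2 : (Submodule.span ℂ (Set.range fun x => ρ x ξ)).topologicalClosure = ⊤ := by
    rw [← Submodule.orthogonal_orthogonal_eq_closure, h1, Submodule.bot_orthogonal_eq_top]
  have h3 : (Set.range fun x => ρ x ξ).Countable := Set.countable_range _
  have h4 : TopologicalSpace.IsSeparable
      ((Submodule.span ℂ (Set.range fun x => ρ x ξ) : Submodule ℂ E) : Set E) :=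
    h3.isSeparable.span
  have h5 : TopologicalSpace.IsSeparable (Set.univ : Set E) := by
    have := h4.closure
    rw [← Submodule.topologicalClosure_coe, h2] at this
    exact this
  exact isSeparable_univ_iff.1 h5

/-- **The end of the proof**, two commuting legs, from the joint fields `J`, `J'`: null sequences
of clopen sets off which every point has a good neighbourhood. -/
theorem end_core2 (h : Reg ρ ξ) (hV : URep V) (hVR : ∀ g x, V g * ρ x = ρ x * V g)
    (hA : Amb μ κ V ρ) (hμ : μ ≠ 0) {J : H → Clopens Z → (E →L[ℂ] E)} (hJ : PF μ κ V ρ A J)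
    {J' : H → Clopens Z' → (E →L[ℂ] E)} (hJ' : PF μ κ V ρ A' J')
    (c11 : ∀ m, ∀ᵐ h ∂μ, CM (J h) (J (m * h))) (c12 : ∀ m, ∀ᵐ h ∂μ, CM (J h) (J' (m * h)))
    (c21 : ∀ m, ∀ᵐ h ∂μ, CM (J' h) (J (m * h))) (c22 : ∀ m, ∀ᵐ h ∂μ, CM (J' h) (J' (m * h)))
    {O : ℕ → Clopens Z} {O' : ℕ → Clopens Z'} (h0 : ∀ᵐ h ∂μ, SLim (fun n => J h (O n)) 0)
    (h0' : ∀ᵐ h ∂μ, SLim (fun n => J' h (O' n)) 0) {N N' : 𝒢 → Prop}
    (hN : ∀ g, N g → N' g → g = 1)
    (hG : ∀ n, ∀ z ∉ O n, ∃ C : Clopens Z, z ∈ C ∧ ∀ g, ¬ N g → Disjoint C (A.tr g C))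
    (hG' : ∀ n, ∀ z ∉ O' n, ∃ C : Clopens Z', z ∈ C ∧ ∀ g, ¬ N' g → Disjoint C (A'.tr g C)) :
    ∃ (w : E) (δ : Λ →* 𝒢) (χ : Λ →* ℂ), Reg ρ w ∧
      (∀ g, ‖χ g‖ = 1) ∧ ∀ g, V g w = χ g • ρ (δ g)⁻¹ w := by
  have hsep : SeparableSpace E := sep_of_reg h
  have hnt : Nontrivial E := ⟨⟨ξ, 0, fun e => by
    have := h.norm_one
    rw [e, norm_zero] at this
    exact zero_ne_one this⟩⟩
  have hne : (ae μ).NeBot := ae_neBot.2 hμ
  -- good boxes
  obtain ⟨C, C', hC, hC', hT0⟩ : ∃ (C : Clopens Z) (C' : Clopens Z'),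
      (∀ g, ¬ N g → Disjoint C (A.tr g C)) ∧ (∀ g, ¬ N' g → Disjoint C' (A'.tr g C')) ∧
      ¬ ∀ᵐ h ∂μ, J h C * J' h C' = 0 := by
    by_contra hcon
    push Not at hcon
    have h1 : ∀ᵐ h ∂μ, ∀ (C : Clopens Z) (C' : Clopens Z'),
        (∀ g, ¬ N g → Disjoint C (A.tr g C)) → (∀ g, ¬ N' g → Disjoint C' (A'.tr g C')) →
        J h C * J' h C' = 0 := by
      rw [ae_all_iff]
      intro C
      rw [ae_all_iff]
      intro C'
      by_cases hC : (∀ g, ¬ N g → Disjoint C (A.tr g C)) ∧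
          ∀ g, ¬ N' g → Disjoint C' (A'.tr g C')
      · filter_upwards [hcon C C' hC.1 hC.2] with h hh
        exact fun _ _ => hh
      · exact Eventually.of_forall fun h a b => (hC ⟨a, b⟩).elim
    have h2 := (h1.and (hJ.cpv.and (hJ'.cpv.and ((c12 1).and (h0.and h0'))))).exists
    obtain ⟨h, a1, a2, a3, a4, a5, a6⟩ := h2
    rw [one_mul] at a4
    obtain ⟨C, C', b1, b2, b3⟩ := exists_good a2 a3 a4 a5 a6 hG hG'
    exact b3 (a1 C C' b1 b2)
  obtain ⟨T, hTd⟩ : ∃ T : H → (E →L[ℂ] E), ∀ h, T h = J h C * J' h C' := ⟨_, fun h => rfl⟩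
  -- the product of two commuting projections
  have hcm : ∀ᵐ h ∂μ, CM (J h) (J' h) := by
    have := c12 1
    simpa only [one_mul] using this
  have hTm : ∀ u, AEStronglyMeasurable (fun h => T h u) μ := by
    intro u
    simp only [hTd]
    exact aesm_apply (fun u => hJ.meas _ u) (hJ'.meas _ u)
  have hTp : ∀ᵐ h ∂μ, adjoint (T h) = T h ∧ T h * T h = T h := by
    filter_upwards [hJ.cpv, hJ'.cpv, hcm] with h a1 a2 a3
    have e1 : star (J h C * J' h C') = J h C * J' h C' := by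
      rw [star_mul, a1.sa, a2.sa, a3]
    rw [hTd]
    refine ⟨e1, ?_⟩
    calc J h C * J' h C' * (J h C * J' h C') = J h C * (J' h C' * J h C) * J' h C' := by
          noncomm_ring
      _ = (J h C * J h C) * (J' h C' * J' h C') := by rw [← a3]; noncomm_ring
      _ = J h C * J' h C' := by rw [a1.idem, a2.idem]
  -- conjugation by `ρ`
  have hρ' : ∀ g, ρ g⁻¹ * ρ g = 1 := fun g => by
    have := hA.hρ g⁻¹
    rwa [inv_inv] at this
  have hconj : ∀ g, ∀ᵐ h ∂μ, ρ g * T h * ρ g⁻¹ = J h (A.tr g C) * J' h (A'.tr g C') := by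
    intro g
    filter_upwards [hJ.cov g, hJ'.cov g] with h a1 a2
    rw [hTd, ← a1, ← a2]
    calc ρ g * (J h C * J' h C') * ρ g⁻¹ = ρ g * J h C * 1 * J' h C' * ρ g⁻¹ := by noncomm_ring
      _ = ρ g * J h C * (ρ g⁻¹ * ρ g) * J' h C' * ρ g⁻¹ := by rw [hρ']
      _ = (ρ g * J h C * ρ g⁻¹) * (ρ g * J' h C' * ρ g⁻¹) := by noncomm_ring
  -- a finite measure
  obtain ⟨ν, hν, hμν, hνμ⟩ := exists_isFiniteMeasure_absolutelyContinuous μ
  have hqν : ∀ v : Λ, Measure.QuasiMeasurePreserving (fun h => h * κ v⁻¹) ν ν := fun v =>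
    (hA.hr v⁻¹).mono hνμ hμν
  refine end_abs (S := H) (ν := ν) h hV hVR (fun v h => h * κ v⁻¹) hqν (T := T)
    (fun u => (hTm u).mono_ac hνμ) (C := 1) ?_ ?_ ?_ ?_ ?_ ?_ ?_
  · refine hνμ.ae_le ?_
    filter_upwards [hTp] with h hh
    exact norm_proj_le hh.1 hh.2
  · exact hνμ.ae_le (hTp.mono fun h hh => hh.1)
  · refine hνμ.ae_le ?_
    filter_upwards [hTp] with h hh
    intro u
    have e1 : ⟪T h u, u⟫_ℂ = ⟪T h u, T h u⟫_ℂ := by
      have e2 : T h u = T h (T h u) := congrArg (fun B : E →L[ℂ] E => B u) hh.2.symm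
      conv_lhs => rw [e2]
      rw [← adjoint_inner_right, hh.1]
    rw [e1]
    exact inner_self_nonneg (𝕜 := ℂ)
  · intro hcon
    refine hT0 ?_
    refine hμν.ae_le ?_
    filter_upwards [hcon] with h hh
    rw [← hTd, hh]
  · refine hνμ.ae_le ?_
    change ∀ᵐ h ∂μ, ∀ x, x ≠ 1 → T h * (ρ x * T h * ρ x⁻¹) = 0
    rw [ae_all_iff]
    intro g
    filter_upwards [hconj g, hJ.cpv, hJ'.cpv, hcm] with h a1 a2 a3 a4
    intro hg
    rw [a1, hTd]
    by_cases hgN : N g
    · have hgN' : ¬ N' g := fun h' => hg (hN g hgN h')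
      have e1 := a3.disj (hC' g hgN')
      calc J h C * J' h C' * (J h (A.tr g C) * J' h (A'.tr g C')) =
            J h C * (J' h C' * J h (A.tr g C)) * J' h (A'.tr g C') := by noncomm_ring
        _ = J h C * J h (A.tr g C) * (J' h C' * J' h (A'.tr g C')) := by rw [← a4]; noncomm_ring
        _ = 0 := by rw [e1, mul_zero]
    · have e1 := a2.disj (hC g hgN)
      calc J h C * J' h C' * (J h (A.tr g C) * J' h (A'.tr g C')) =
            J h C * (J' h C' * J h (A.tr g C)) * J' h (A'.tr g C') := by noncomm_ring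
        _ = (J h C * J h (A.tr g C)) * (J' h C' * J' h (A'.tr g C')) := by
            rw [← a4]; noncomm_ring
        _ = 0 := by rw [e1, zero_mul]
  · intro v
    refine hνμ.ae_le ?_
    filter_upwards [hJ.equi v⁻¹, hJ'.equi v⁻¹] with h a1 a2
    rw [hTd, hTd, a1, a2, inv_inv]
    have e1 : V v⁻¹ * V v = 1 := by
      have := hA.hV v⁻¹
      rwa [inv_inv] at this
    calc V v * J h C * V v⁻¹ * (V v * J' h C' * V v⁻¹) =
          V v * J h C * (V v⁻¹ * V v) * J' h C' * V v⁻¹ := by noncomm_ring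
      _ = V v * (J h C * J' h C') * V v⁻¹ := by rw [e1]; noncomm_ring
  · have h1 : ∀ᵐ p ∂(μ.prod μ), ∀ g, T p.1 * (ρ g * T p.2 * ρ g⁻¹) =
        (ρ g * T p.2 * ρ g⁻¹) * T p.1 := by
      rw [ae_all_iff]
      intro g
      refine ae_pairs (T := T) (S := fun h => ρ g * T h * ρ g⁻¹) hTm (fun u => ?_) fun m => ?_
      · exact (ρ g).continuous.comp_aestronglyMeasurable (hTm (ρ g⁻¹ u))
      · filter_upwards [(hA.hl m).ae (hconj g), c11 m, c12 m, c21 m, c22 m] with h a1 b1 b2 b3 b4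
        rw [a1, hTd]
        have e1 := b1 C (A.tr g C)
        have e2 := b2 C (A'.tr g C')
        have e3 := b3 C' (A.tr g C)
        have e4 := b4 C' (A'.tr g C')
        have e5 : Commute (J h C * J' h C') (J (m * h) (A.tr g C) * J' (m * h) (A'.tr g C')) :=
          Commute.mul_left (Commute.mul_right e1 e2) (Commute.mul_right e3 e4)
        exact e5
    exact (hνμ.prod hνμ).ae_le h1

end core

end Vale.Agent.P092.H264
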