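import Vale.Agent.P092.H761.RankDefs
import Vale.Agent.P092.H156.Sm

/-!
P092 (helper264), team A: a frame `(ρ, V, ω)` in the row model, and the masses of `V v ω`.
-/

set_option linter.all false

open scoped InnerProductSpace
open Filter Topology ContinuousLinearMap

namespace Vale.Agent.P092.H264

open Vale.Agent.P092.H160 Vale.Agent.P092.H553 Vale.Agent.P092.H432
open Vale.Agent.P092.H761 (massR)
open Vale.Agent.P092.H538 (ind ind_nonneg ind_le_one abs_ind_le ind_pos ind_neg)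
open Vale.Agent.P092.H156

variable {Γ Λ K : Type} [Group Γ] [Group Λ] [NormedAddCommGroup K] [InnerProductSpace ℂ K]
  [CompleteSpace K] {ρ : Γ →* (K →L[ℂ] K)} {V : Λ →* (K →L[ℂ] K)} {ω : K}

/-- The mass of `V v ω` in the set `P`. -/
noncomputable def ms (ρ : Γ →* (K →L[ℂ] K)) (V : Λ →* (K →L[ℂ] K)) (ω : K) (P : Γ → Prop)
    (v : Λ) : ℝ :=
  ∑' γ, ind P γ * ‖⟪ρ γ ω, V v ω⟫_ℂ‖ ^ 2

/-- The orthonormal basis `ρ γ ω`, indexed by `Γ × Unit`. -/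
noncomputable def rbas (h : RegRep ρ ω) : HilbertBasis (Γ × Unit) ℂ K :=
  HilbertBasis.mkOfOrthogonalEqBot (v := fun x : Γ × Unit => ρ x.1 ω)
    (h.orthonormal.comp Prod.fst fun x y hxy => Prod.ext hxy rfl) (by
      rw [Submodule.eq_bot_iff]
      intro v hv
      refine h.total v fun g => ?_
      rw [Submodule.mem_orthogonal] at hv
      exact hv _ (Submodule.subset_span ⟨(g, ()), rfl⟩))

theorem rbas_apply (h : RegRep ρ ω) (x : Γ × Unit) : rbas h x = ρ x.1 ω := by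
  rw [rbas, HilbertBasis.coe_mkOfOrthogonalEqBot]

/-- The coordinates. -/
noncomputable def rU (h : RegRep ρ ω) : K ≃ₗᵢ[ℂ] Ell2 (Γ × Unit) := (rbas h).repr

theorem rU_apply (h : RegRep ρ ω) (ξ : K) (x : Γ × Unit) : rU h ξ x = ⟪ρ x.1 ω, ξ⟫_ℂ := by
  rw [rU, HilbertBasis.repr_apply_apply, rbas_apply]

theorem rU_rho (h : RegRep ρ ω) (g : Γ) (ξ : K) : rU h (ρ g ξ) = lx g (rU h ξ) := by
  ext x
  rw [rU_apply, lx_apply, rU_apply, h.inner_right, ← mul_ap, ← map_mul]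

theorem rU_omega (h : RegRep ρ ω) : rU h ω = ep () := by
  classical
  ext x
  rw [rU_apply, ep, dl_apply]
  split_ifs with hx
  · rw [hx, map_one]
    change ⟪ω, ω⟫_ℂ = 1
    rw [inner_self_eq_norm_sq_to_K, h.norm_one]
    simp
  · rw [← inner_conj_symm, h.inner_zero x.1 fun h2 => hx (Prod.ext h2 rfl), map_zero]

theorem rU_symm_lx (h : RegRep ρ ω) (g : Γ) (ξ : Ell2 (Γ × Unit)) :
    (rU h).symm (lx g ξ) = ρ g ((rU h).symm ξ) := by
  rw [LinearIsometryEquiv.symm_apply_eq, rU_rho, LinearIsometryEquiv.apply_symm_apply]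

theorem rU_symm_ep (h : RegRep ρ ω) : (rU h).symm (ep ()) = ω := by
  rw [LinearIsometryEquiv.symm_apply_eq, rU_omega]

/-- The representation `V` in coordinates. -/
noncomputable def rR (h : RegRep ρ ω) (V : Λ →* (K →L[ℂ] K)) (v : Λ) :
    Ell2 (Γ × Unit) →L[ℂ] Ell2 (Γ × Unit) :=
  ((rU h).toContinuousLinearEquiv : K →L[ℂ] Ell2 (Γ × Unit)) ∘L V v ∘L
    ((rU h).symm.toContinuousLinearEquiv : Ell2 (Γ × Unit) →L[ℂ] K)

theorem rR_apply (h : RegRep ρ ω) (V : Λ →* (K →L[ℂ] K)) (v : Λ) (ξ : Ell2 (Γ × Unit)) :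
    rR h V v ξ = rU h (V v ((rU h).symm ξ)) := rfl

theorem rR_ep (h : RegRep ρ ω) (V : Λ →* (K →L[ℂ] K)) (v : Λ) :
    rR h V v (ep ()) = rU h (V v ω) := by rw [rR_apply, rU_symm_ep]

/-- **The row model of a frame.** -/
theorem arep (h : Sm.Frm ρ V ω) : ARep 1 (rR h.reg V) where
  ra v := by
    intro s
    ext1 ξ
    change rU h.reg (V v ((rU h.reg).symm (lx s ξ))) = lx s (rU h.reg (V v ((rU h.reg).symm ξ)))
    rw [rU_symm_lx, (h.comm v).apply, rU_rho]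
  mul v w := by
    ext1 ξ
    rw [mul_ap, rR_apply, rR_apply, rR_apply, LinearIsometryEquiv.symm_apply_apply, map_mul]
    rfl
  adj v := by
    rw [eq_comm, ContinuousLinearMap.eq_adjoint_iff]
    intro x y
    rw [rR_apply, rR_apply]
    have h1 : ⟪rU h.reg (V v⁻¹ ((rU h.reg).symm x)), y⟫_ℂ =
        ⟪V v⁻¹ ((rU h.reg).symm x), (rU h.reg).symm y⟫_ℂ := by
      conv_lhs => rw [← LinearIsometryEquiv.apply_symm_apply (rU h.reg) y]
      rw [LinearIsometryEquiv.inner_map_map]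
    have h2 : ⟪x, rU h.reg (V v ((rU h.reg).symm y))⟫_ℂ =
        ⟪(rU h.reg).symm x, V v ((rU h.reg).symm y)⟫_ℂ := by
      conv_lhs => rw [← LinearIsometryEquiv.apply_symm_apply (rU h.reg) x]
      rw [LinearIsometryEquiv.inner_map_map]
    rw [h1, h2, h.inner_left, inv_inv]
  pos := one_pos
  tr_one := by
    rw [Fintype.sum_unique]
    change ⟪ep (), rR h.reg V 1 (ep ())⟫_ℂ = _
    have h3 : (1 : K →L[ℂ] K) ω = ω := rfl
    rw [rR_ep, map_one, h3, rU_omega, ep, inner_dl, dl_self]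
    simp
  tr_zero v hv := by
    rw [Fintype.sum_unique]
    change ⟪ep (), rR h.reg V v (ep ())⟫_ℂ = _
    rw [rR_ep, ← rU_omega h.reg, LinearIsometryEquiv.inner_map_map]
    exact h.ort v hv

/-- **The masses of a frame.** -/
theorem massR_rR (h : RegRep ρ ω) (V : Λ →* (K →L[ℂ] K)) (w : Λ) {F : Γ → ℝ} {C : ℝ}
    (hF : ∀ g, |F g| ≤ C) :
    massR (rR h V) w F = ∑' γ, F γ * ‖⟪ρ γ ω, V w ω⟫_ℂ‖ ^ 2 := by
  rw [massR, Fintype.sum_unique]
  change (⟪rR h V w (ep ()), mp Unit F (rR h V w (ep ()))⟫_ℂ).re = _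
  rw [mp, inner_mo (F := fun x : Γ × Unit => F x.1) (fun x => hF _), Complex.ofReal_re, rR_ep,
    ← (Equiv.prodUnique Γ Unit).tsum_eq]
  refine tsum_congr fun x => ?_
  rw [rU_apply]
  rfl

theorem massR_ind (h : RegRep ρ ω) (V : Λ →* (K →L[ℂ] K)) (w : Λ) (P : Γ → Prop) :
    massR (rR h V) w (ind P) = ms ρ V ω P w :=
  massR_rR h V w (fun g => abs_ind_le _ g)

theorem exists_row (h : Sm.Frm ρ V ω) : ∃ R : Λ → (Ell2 (Γ × Unit) →L[ℂ] Ell2 (Γ × Unit)),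
    ARep 1 R ∧ ∀ (w : Λ) (F : Γ → ℝ) (C : ℝ), (∀ g, |F g| ≤ C) →
      massR R w F = ∑' γ, F γ * ‖⟪ρ γ ω, V w ω⟫_ℂ‖ ^ 2 :=
  ⟨_, arep h, fun w F C hF => massR_rR h.reg V w hF⟩

/-! ### Elementary properties of the masses -/

theorem summable_ms (h : RegRep ρ ω) {F : Γ → ℝ} {C : ℝ} (hF : ∀ g, |F g| ≤ C) (ξ : K) :
    Summable fun γ => F γ * ‖⟪ρ γ ω, ξ⟫_ℂ‖ ^ 2 := by
  refine Summable.of_norm_bounded ((h.summable_coeff ξ).mul_left C) fun γ => ?_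
  rw [norm_mul, Real.norm_eq_abs, Real.norm_of_nonneg (by positivity)]
  exact mul_le_mul_of_nonneg_right (hF γ) (by positivity)

theorem ms_nonneg (P : Γ → Prop) (v : Λ) : 0 ≤ ms ρ V ω P v :=
  tsum_nonneg fun γ => mul_nonneg (ind_nonneg _ _) (by positivity)

theorem ms_mono (h : RegRep ρ ω) {P Q : Γ → Prop} (hPQ : ∀ γ, P γ → Q γ) (v : Λ) :
    ms ρ V ω P v ≤ ms ρ V ω Q v := by
  refine Summable.tsum_le_tsum (fun γ => ?_) (summable_ms h (fun g => abs_ind_le P g) _)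
    (summable_ms h (fun g => abs_ind_le Q g) _)
  refine mul_le_mul_of_nonneg_right ?_ (by positivity)
  by_cases hP : P γ
  · rw [ind_pos hP, ind_pos (hPQ γ hP)]
  · rw [ind_neg hP]; exact ind_nonneg _ _

theorem tsum_sq (h : RegRep ρ ω) (ξ : K) : ∑' γ, ‖⟪ρ γ ω, ξ⟫_ℂ‖ ^ 2 = ‖ξ‖ ^ 2 := by
  have h1 := (h.hasSum_inner ξ ξ).tsum_eq
  have h2 : ∀ γ, ⟪ξ, ρ γ ω⟫_ℂ * ⟪ρ γ ω, ξ⟫_ℂ = ((‖⟪ρ γ ω, ξ⟫_ℂ‖ ^ 2 : ℝ) : ℂ) := by
    intro γ
    rw [← inner_conj_symm ξ, mul_comm, Complex.mul_conj, Complex.normSq_eq_norm_sq]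
  simp_rw [h2] at h1
  rw [← Complex.ofReal_tsum, inner_self_eq_norm_sq_to_K] at h1
  have h3 : ((∑' γ, ‖⟪ρ γ ω, ξ⟫_ℂ‖ ^ 2 : ℝ) : ℂ) = ((‖ξ‖ ^ 2 : ℝ) : ℂ) := by
    rw [h1, Complex.ofReal_pow]
    rfl
  exact Complex.ofReal_injective h3

theorem ms_le_one (h : Sm.Frm ρ V ω) (P : Γ → Prop) (v : Λ) : ms ρ V ω P v ≤ 1 := by
  have h1 := tsum_sq h.reg (V v ω)
  rw [h.norm_map, h.norm_omega, one_pow] at h1
  rw [← h1]
  refine Summable.tsum_le_tsum (fun γ => ?_) (summable_ms h.reg (fun g => abs_ind_le P g) _)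
    (h.reg.summable_coeff _)
  calc _ ≤ 1 * ‖⟪ρ γ ω, V v ω⟫_ℂ‖ ^ 2 :=
        mul_le_mul_of_nonneg_right (ind_le_one _ _) (by positivity)
    _ = _ := one_mul _

end Vale.Agent.P092.H264
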