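import Vale.Agent.P092.H264.Fix
import Vale.Agent.P092.H264.CU
import Vale.Agent.P092.H264.S2Sl
import Vale.Agent.P092.H333.Coef
import Vale.Agent.P092.H448.Smooth
import Vale.Agent.P092.H103.IndFix3

/-!
P092 (helper264), team A, block [A-S2ASM]: the assembly of (S2).
-/

set_option linter.all false

open scoped InnerProductSpace Topology ENNReal
open Filter Topology ContinuousLinearMap MeasureTheory

namespace Vale.Agent.P092.H264

open Vale.Agent.P092.H160 Vale.Agent.P092.H156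
open Vale.Agent.P092.H85 (coc)
open Vale.Agent.P092.H448

section core

variable {H H' : Type} [Group H] [TopologicalSpace H] [IsTopologicalGroup H]
    [LocallyCompactSpace H] [SecondCountableTopology H] [T2Space H] [MeasurableSpace H]
    [BorelSpace H] [Group H'] [TopologicalSpace H'] [IsTopologicalGroup H']
    [LocallyCompactSpace H'] [SecondCountableTopology H'] [T2Space H'] [MeasurableSpace H']
    [BorelSpace H'] {Λ : Subgroup (H × H')} [DiscreteTopology Λ]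
    [MeasurableSpace ((H × H') ⧸ Λ)] [BorelSpace ((H × H') ⧸ Λ)]
    {ν : Measure ((H × H') ⧸ Λ)} [IsProbabilityMeasure ν]
    (hν : ∀ g : H × H', ν.map (fun x => g • x) = ν)
    {Γ K : Type} [Group Γ] [Countable Γ]
    [NormedAddCommGroup K] [InnerProductSpace ℂ K] [CompleteSpace K] {ρ : Γ →* (K →L[ℂ] K)}
    {V : Λ →* (K →L[ℂ] K)} {ω : K} (h : Sm.Frm ρ V ω)
    {G : Type} [Group G] [TopologicalSpace G] [IsTopologicalGroup G] [LocallyCompactSpace G]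
    [SecondCountableTopology G] [T2Space G] [MeasurableSpace G] [BorelSpace G] (ι : Γ →* G)
    (μ : Measure G) [μ.IsHaarMeasure] [μ.IsMulRightInvariant]

/-- Functions of the cocycle are measurable. -/
theorem meas_coc' {E : Type} [Group E] [TopologicalSpace E] [IsTopologicalGroup E]
    [LocallyCompactSpace E] [SecondCountableTopology E] [T2Space E] [MeasurableSpace E]
    [BorelSpace E] {Λ : Subgroup E} [DiscreteTopology Λ] [MeasurableSpace (E ⧸ Λ)]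
    [BorelSpace (E ⧸ Λ)] {β : Type} [MeasurableSpace β] (g : E) (f : Λ → β) :
    Measurable fun x : E ⧸ Λ => f (coc Λ g x) := by
  have : Countable Λ := H790.countable_of_discrete Λ
  intro s hs
  have e : (fun x : E ⧸ Λ => f (coc Λ g x)) ⁻¹' s =
      ⋃ v ∈ {v : Λ | f v ∈ s}, {x | coc Λ g x = v} := by
    ext x
    simp only [Set.mem_preimage, Set.mem_iUnion, Set.mem_setOf_eq, exists_prop]
    constructor
    · intro hx
      exact ⟨_, hx, rfl⟩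
    · rintro ⟨v, hv, hx⟩
      rw [hx]; exact hv
  rw [e]
  exact MeasurableSet.biUnion (Set.to_countable _) fun v _ => H85.coc_meas Λ g v

include hν h in
/-- **(S2)** along one sequence. -/
theorem s2_core {b : ℕ → H'} (hM : HMSeq H' b) {S : Set G} (hS : IsCompact S) {c : ℝ}
    (hc : 0 < c)
    (hm : ∀ N, c ≤ ∫ x, ms ρ V ω (fun γ => ι γ ∈ S) (coc Λ ((1 : H), b N) x) ∂ν) :
    ∃ f, Sm.Smo ι ((MonoidHom.fst H H').comp Λ.subtype) ρ V ω μ f ∧ f 1 ω ≠ 0 := by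
  classical
  have hcΛ : Countable Λ := H790.countable_of_discrete Λ
  obtain ⟨U, hU, hUm, hUt, c₀, hc₀, hlow⟩ := exists_U μ hS
  obtain ⟨f, hf⟩ : ∃ f : Lp K 2 μ, f = indicatorConstLp 2 hUm hUt ω := ⟨_, rfl⟩
  obtain ⟨π, hπe⟩ : ∃ π : Λ →* (Lp K 2 μ →L[ℂ] Lp K 2 μ), π = H333.cj h ι μ := ⟨_, rfl⟩
  have hπ : ∀ v, adjoint (π v) = π v⁻¹ := fun v => by rw [hπe]; exact H333.adjoint_cj h v
  have hnorm : ∀ v ξ, ‖π v ξ‖ = ‖ξ‖ := fun v ξ => by rw [hπe]; exact H333.norm_cj h v ξ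
  -- the lower bound
  have h1 : ∀ v, c₀ * ms ρ V ω (fun γ => ι γ ∈ S) v ≤ (⟪π v f, f⟫_ℂ).re := by
    intro v
    have h2 := (H333.hasSum_coef_re (ι := ι) h hUm hUt v).tsum_eq
    have h3 := ms_le_coef (V := V) (ι := ι) h.reg hUt hlow v
    rw [h2, ← hf, ← hπe] at h3
    have h4 : (⟪π v f, f⟫_ℂ).re = (⟪f, π v f⟫_ℂ).re := inner_re_symm (𝕜 := ℂ) _ _
    rw [h4]
    exact h3
  have hint : ∀ g : H × H', Integrable (fun x => ⟪π (coc Λ g x) f, f⟫_ℂ) ν := by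
    intro g
    refine Integrable.of_bound (meas_coc' g (fun v => ⟪π v f, f⟫_ℂ)).aestronglyMeasurable
      (‖f‖ * ‖f‖) (Eventually.of_forall fun x => ?_)
    refine (norm_inner_le_norm _ _).trans ?_
    rw [hnorm]
  have hm' : ∀ N, c₀ * c ≤ ‖∫ x, ⟪π (coc Λ ((1 : H), b N) x) f, f⟫_ℂ ∂ν‖ := by
    intro N
    calc c₀ * c ≤ c₀ * ∫ x, ms ρ V ω (fun γ => ι γ ∈ S) (coc Λ ((1 : H), b N) x) ∂ν :=
          mul_le_mul_of_nonneg_left (hm N) hc₀.le
      _ = ∫ x, c₀ * ms ρ V ω (fun γ => ι γ ∈ S) (coc Λ ((1 : H), b N) x) ∂ν :=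
          (integral_const_mul _ _).symm
      _ ≤ ∫ x, (⟪π (coc Λ ((1 : H), b N) x) f, f⟫_ℂ).re ∂ν :=
          integral_mono ((integrable_ms h _ _).const_mul _) (hint _).re fun x => h1 _
      _ = (∫ x, ⟪π (coc Λ ((1 : H), b N) x) f, f⟫_ℂ ∂ν).re := integral_re (hint _)
      _ ≤ _ := Complex.re_le_norm _
  -- the convex set
  have hC1 : Convex ℝ (BdS ι ρ ω μ 1) := convex_bdS 1
  have hC2 : IsClosed (BdS ι ρ ω μ 1) := isClosed_bdS h.reg zero_le_one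
  have hCC : ∀ ξ : Lp K 2 μ, ξ ∈ BdS ι ρ ω μ 1 ↔ ξ ∈ H333.CC ρ ω ι μ 1 := fun ξ =>
    H333.bd_iff h.reg zero_le_one
  have hC3 : ∀ v, ∀ ξ ∈ BdS ι ρ ω μ 1, π v ξ ∈ BdS ι ρ ω μ 1 := fun v ξ hξ => by
    rw [hCC] at hξ ⊢
    rw [hπe]
    exact H333.cj_mem_CC h v hξ
  have hfC : f ∈ BdS ι ρ ω μ 1 := by
    rw [hCC, hf]
    have := H333.indicator_mem (ι := ι) h.reg hUm hUt 1
    rwa [map_one] at this
  have hC0 : (0 : Lp K 2 μ) ∈ BdS ι ρ ω μ 1 := by
    refine (Bd.zero (μ := μ) (ι := ι) (ρ := ρ) (ω := ω) zero_le_one).congr ?_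
    exact (Lp.coeFn_zero _ _ _).symm
  obtain ⟨η, hη0, hη1, hη2⟩ := exists_fixed_C hν hπ hM f (mul_pos hc₀ hc) hm' hC1 hC2 hfC hC3
  obtain ⟨ψ, R, a1, a2, a3, a4, a5⟩ := H103.ind_fix_e hν hπ (MulEquiv.refl (H × H'))
    continuous_id η hη1 hη0 hC2 hC1 hC0 hC3 hη2
  refine smooth_of_family h zero_le_one (U := π) (fun v ξ D hξ => ?_) a1 a2
    (Eventually.of_forall a3) a4 a5
  rw [hπe]
  exact H333.cj_hU h v ξ D hξ

end core

/-- **[A-S2ASM]** -/
theorem s2Asm : S2Asm := by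
  intro H H' _ _ _ _ _ _ _ _ _ _ _ _ _ _ _ _ Λ _ _ _ ν _ hν Γ K _ _ _ _ _ ρ V ω h G _ _ _ _ _ _
    _ _ ι μ _ _ hM b hb S hS c hc hm
  exact s2_core hν h ι μ (HMSeq.of hM hb) hS hc hm

end Vale.Agent.P092.H264
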