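import Vale.Agent.P092.H264.S2Asm

/-!
P092 (helper264), team A, block [A-S2]: (S2) for lattices in products of two groups `SL`.
-/

set_option linter.all false

open scoped InnerProductSpace Topology ENNReal
open Filter Topology ContinuousLinearMap MeasureTheory

namespace Vale.Agent.P092.H264

open Vale.Agent.P092.H160 Vale.Agent.P092.H156
open Vale.Agent.P092.H515 (IsLattice)
open Vale.Agent.P092.H933 (LocK)
open Vale.Agent.P092.PA (Pic NeS)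

variable {k₁ k₂ l₁ l₂ : Type} [NontriviallyNormedField k₁] [ProperSpace k₁]
  [NontriviallyNormedField k₂] [ProperSpace k₂] [NontriviallyNormedField l₁] [ProperSpace l₁]
  [NontriviallyNormedField l₂] [ProperSpace l₂]
  {m₁ m₂ n₁ n₂ : ℕ}
  {K : Type} [NormedAddCommGroup K] [InnerProductSpace ℂ K] [CompleteSpace K]

/-- **(S2)**: for each factor of the source there is a place with a nonzero smooth element. -/
theorem s2 (hk₁ : LocK k₁) (hk₂ : LocK k₂) (hl₁ : LocK l₁) (hl₂ : LocK l₂)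
    (hn₁ : 1 ≤ n₁) (hn₂ : 1 ≤ n₂) (hr : m₁ + m₂ ≤ n₁ + n₂)
    {Γ : Subgroup (SL m₁ k₁ × SL m₂ k₂)} (hΓ : DiscreteTopology Γ)
    {Λ : Subgroup (SL n₁ l₁ × SL n₂ l₂)} (hΛ : IsLattice Λ) (D : Pic Γ Λ K)
    [MeasurableSpace (PS m₁ k₁)] [BorelSpace (PS m₁ k₁)]
    [MeasurableSpace (PS m₂ k₂)] [BorelSpace (PS m₂ k₂)]
    (μ₁ : Measure (PS m₁ k₁)) [μ₁.IsHaarMeasure] [μ₁.IsMulRightInvariant]
    (μ₂ : Measure (PS m₂ k₂)) [μ₂.IsHaarMeasure] [μ₂.IsMulRightInvariant] :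
    (NeS D ((mkP m₁ k₁).comp ((MonoidHom.fst _ _).comp Γ.subtype))
        ((MonoidHom.fst _ _).comp Λ.subtype) μ₁ ∨
      NeS D ((mkP m₂ k₂).comp ((MonoidHom.snd _ _).comp Γ.subtype))
        ((MonoidHom.fst _ _).comp Λ.subtype) μ₂) ∧
    (NeS D ((mkP m₁ k₁).comp ((MonoidHom.fst _ _).comp Γ.subtype))
        ((MonoidHom.snd _ _).comp Λ.subtype) μ₁ ∨
      NeS D ((mkP m₂ k₂).comp ((MonoidHom.snd _ _).comp Γ.subtype))
        ((MonoidHom.snd _ _).comp Λ.subtype) μ₂) :=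
  s2_sl s2Asm hk₁ hk₂ hl₁ hl₂ hn₁ hn₂ hr hΓ hΛ D μ₁ μ₂

end Vale.Agent.P092.H264
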