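import Vale.Agent.P092.H515.SharpProd
import Vale.Agent.P092.PA.Defs

/-!
P092 (helper264), team A: exchange of the two factors of `H₁ × H₂`.
-/

set_option linter.all false

open scoped InnerProductSpace Topology
open Filter Topology ContinuousLinearMap MeasureTheory

namespace Vale.Agent.P092.H264

open Vale.Agent.P092.H160 Vale.Agent.P092.H156
open Vale.Agent.P092.H515 (IsLattice)

section swap

variable {H₁ H₂ : Type} [Group H₁] [TopologicalSpace H₁] [Group H₂] [TopologicalSpace H₂]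

/-- The subgroup with the factors exchanged. -/
def Lsw (Λ : Subgroup (H₁ × H₂)) : Subgroup (H₂ × H₁) :=
  Λ.comap (MulEquiv.prodComm : H₂ × H₁ ≃* H₁ × H₂).toMonoidHom

theorem mem_Lsw {Λ : Subgroup (H₁ × H₂)} {x : H₂ × H₁} : x ∈ Lsw Λ ↔ x.swap ∈ Λ := Iff.rfl

/-- The isomorphism `Lsw Λ ≃* Λ`. -/
def esw (Λ : Subgroup (H₁ × H₂)) : Lsw Λ ≃* Λ where
  toFun x := ⟨(x : H₂ × H₁).swap, x.2⟩
  invFun x := ⟨(x : H₁ × H₂).swap, by
    rw [mem_Lsw, Prod.swap_swap]; exact x.2⟩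
  left_inv x := Subtype.ext (Prod.swap_swap _)
  right_inv x := Subtype.ext (Prod.swap_swap _)
  map_mul' x y := rfl

theorem esw_coe (Λ : Subgroup (H₁ × H₂)) (x : Lsw Λ) :
    ((esw Λ x : Λ) : H₁ × H₂) = (x : H₂ × H₁).swap := rfl

theorem disc_Lsw {Λ : Subgroup (H₁ × H₂)} (h : DiscreteTopology Λ) :
    DiscreteTopology (Lsw Λ) := by
  have e : (Lsw Λ) ≃ₜ Λ :=
    (Homeomorph.prodComm H₂ H₁).subtype (p := fun x => x ∈ Lsw Λ) (q := fun x => x ∈ Λ)
      (fun x => Iff.rfl)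
  exact e.isEmbedding.discreteTopology

/-- The map of the quotients. -/
def qsw (Λ : Subgroup (H₁ × H₂)) : (H₁ × H₂) ⧸ Λ → (H₂ × H₁) ⧸ Lsw Λ :=
  Quotient.map' Prod.swap fun x y h => by
    rw [QuotientGroup.leftRel_apply] at h ⊢
    rw [mem_Lsw]
    exact h

theorem qsw_mk (Λ : Subgroup (H₁ × H₂)) (x : H₁ × H₂) :
    qsw Λ (x : (H₁ × H₂) ⧸ Λ) = ((x.swap : H₂ × H₁) : (H₂ × H₁) ⧸ Lsw Λ) := rfl

theorem qsw_smul (Λ : Subgroup (H₁ × H₂)) (g : H₂ × H₁) (x : (H₁ × H₂) ⧸ Λ) :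
    qsw Λ (g.swap • x) = g • qsw Λ x := by
  induction x using QuotientGroup.induction_on with
  | H z => rfl

theorem continuous_qsw (Λ : Subgroup (H₁ × H₂)) : Continuous (qsw Λ) :=
  Continuous.quotient_map' continuous_swap _

theorem isLattice_Lsw [IsTopologicalGroup H₁] [IsTopologicalGroup H₂] {Λ : Subgroup (H₁ × H₂)}
    (h : IsLattice Λ) : IsLattice (Lsw Λ) := by
  refine ⟨disc_Lsw h.disc, ?_⟩
  obtain ⟨ν, h0, hf, hν⟩ := h.covol
  let _ : MeasurableSpace ((H₁ × H₂) ⧸ Λ) := borel _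
  have _ : BorelSpace ((H₁ × H₂) ⧸ Λ) := ⟨rfl⟩
  let _ : MeasurableSpace ((H₂ × H₁) ⧸ Lsw Λ) := borel _
  have _ : BorelSpace ((H₂ × H₁) ⧸ Lsw Λ) := ⟨rfl⟩
  have hm : Measurable (qsw Λ) := (continuous_qsw Λ).measurable
  refine ⟨ν.map (qsw Λ), ?_, ?_, fun g s hs => ?_⟩
  · intro hc
    apply h0
    have h1 : (ν.map (qsw Λ)) Set.univ = 0 := by rw [hc]; rfl
    rw [Measure.map_apply hm MeasurableSet.univ, Set.preimage_univ] at h1
    exact Measure.measure_univ_eq_zero.mp h1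
  · rw [Measure.map_apply hm MeasurableSet.univ, Set.preimage_univ]
    exact hf
  · have h1 : Measurable fun x : (H₂ × H₁) ⧸ Lsw Λ => g • x := (continuous_const_smul g).measurable
    rw [Measure.map_apply hm (h1 hs), Measure.map_apply hm hs, ← hν g.swap _ (hm hs)]
    congr 1
    ext x
    simp only [Set.mem_preimage, qsw_smul]

end swap

section smo

variable {Γ Λ Λ' G H K : Type} [Group Γ] [Group Λ] [Group Λ'] [Group G] [Group H]
  [TopologicalSpace G] [TopologicalSpace H] [MeasurableSpace G]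
  [NormedAddCommGroup K] [InnerProductSpace ℂ K] [CompleteSpace K]
  {ρ : Γ →* (K →L[ℂ] K)} {V : Λ →* (K →L[ℂ] K)} {ω : K} {ι : Γ →* G} {κ : Λ →* H}
  {μ : Measure G} {b : G → K →L[ℂ] K}

theorem frm_comp (h : Sm.Frm ρ V ω) (e : Λ' ≃* Λ) :
    Sm.Frm ρ (V.comp e.toMonoidHom) ω where
  reg := h.reg
  adj v := by
    change adjoint (V (e v)) = V (e v⁻¹)
    rw [h.adj, map_inv e]
  comm v := h.comm (e v)
  ort v hv := h.ort (e v) fun h1 => hv (by
    rw [← e.map_one] at h1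
    exact e.injective h1)

theorem smo_of_comp (e : Λ' ≃* Λ)
    (hb : Sm.Smo ι (κ.comp e.toMonoidHom) ρ (V.comp e.toMonoidHom) ω μ b) :
    Sm.Smo ι κ ρ V ω μ b where
  toFd := hb.toFd
  acont ε hε := by
    obtain ⟨U, hU, h1⟩ := hb.acont ε hε
    refine ⟨U, hU, fun v hv x => ?_⟩
    obtain ⟨w, rfl⟩ := e.surjective v
    have h2 := h1 w hv x
    have e1 : (V.comp e.toMonoidHom) w⁻¹ = V (e w)⁻¹ := by
      change V (e w⁻¹) = _
      rw [map_inv e]
    rw [e1] at h2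
    exact h2
  l2 := hb.l2

end smo

end Vale.Agent.P092.H264
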