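import Vale.Agent.P092.H264.Row
import Vale.Agent.P092.H264.Swap
import Vale.Agent.P092.H515.NonEsc
import Vale.Agent.P092.H933.TgtLoc
import Vale.Agent.P092.H655.Tor

/-!
P092 (helper264), team A, block [A-S2TOP]: non-escape of the masses in the language of frames.
-/

set_option linter.all false

open scoped InnerProductSpace Topology
open Filter Topology ContinuousLinearMap MeasureTheory

namespace Vale.Agent.P092.H264

open Vale.Agent.P092.H160 Vale.Agent.P092.H156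
open Vale.Agent.P092.H515 (IsLattice Tgt non_escape_seq HChain.prodSnd HChain.prodSnd_zero)
open Vale.Agent.P092.H701 (HChain)

section gen

variable {E : Type} [Group E] [TopologicalSpace E] [IsTopologicalGroup E]
    [LocallyCompactSpace E] [SecondCountableTopology E] [T2Space E] [MeasurableSpace E]
    [BorelSpace E] {Λ : Subgroup E} [DiscreteTopology Λ] [MeasurableSpace (E ⧸ Λ)]
    [BorelSpace (E ⧸ Λ)] {ν : Measure (E ⧸ Λ)} [IsProbabilityMeasure ν]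
    {Γ K : Type} [Group Γ]
    [NormedAddCommGroup K] [InnerProductSpace ℂ K] [CompleteSpace K] {ρ : Γ →* (K →L[ℂ] K)}
    {V : Λ →* (K →L[ℂ] K)} {ω : K}

/-- Functions of the cocycle are measurable. -/
theorem meas_coc (g : E) (f : Λ → ℝ) : Measurable fun x : E ⧸ Λ => f (H85.coc Λ g x) := by
  have : Countable Λ := H790.countable_of_discrete Λ
  intro s hs
  have e : (fun x : E ⧸ Λ => f (H85.coc Λ g x)) ⁻¹' s =
      ⋃ v ∈ {v : Λ | f v ∈ s}, {x | H85.coc Λ g x = v} := by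
    ext x
    simp only [Set.mem_preimage, Set.mem_iUnion, Set.mem_setOf_eq, exists_prop]
    constructor
    · intro hx
      exact ⟨_, hx, rfl⟩
    · rintro ⟨v, hv, hx⟩
      rw [hx]; exact hv
  rw [e]
  exact MeasurableSet.biUnion (Set.to_countable _) fun v _ => H85.coc_meas Λ g v

theorem integrable_ms (h : Sm.Frm ρ V ω) (P : Γ → Prop) (g : E) :
    Integrable (fun x => ms ρ V ω P (H85.coc Λ g x)) ν := by
  refine Integrable.of_bound (meas_coc g _).aestronglyMeasurable 1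
    (Eventually.of_forall fun x => ?_)
  rw [Real.norm_of_nonneg (ms_nonneg P _)]
  exact ms_le_one h P _

/-- The averaged masses are monotone. -/
theorem ams_mono (h : Sm.Frm ρ V ω) {P Q : Γ → Prop} (hPQ : ∀ γ, P γ → Q γ) (g : E) :
    ∫ x, ms ρ V ω P (H85.coc Λ g x) ∂ν ≤ ∫ x, ms ρ V ω Q (H85.coc Λ g x) ∂ν :=
  integral_mono (integrable_ms h P g) (integrable_ms h Q g) fun x => ms_mono h.reg hPQ _

/-- **Non-escape for a frame.** -/
theorem non_escape_frm (hν : ∀ g : E, ν.map (fun x => g • x) = ν) [Countable Γ]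
    (h : Sm.Frm ρ V ω)
    {G₁ G₂ : Type} [Group G₁] [TopologicalSpace G₁] [Group G₂] [TopologicalSpace G₂]
    {r₁ r₂ m : ℕ} (C : HChain E m) (hm : 0 < m) (h₁ : Tgt G₁ r₁)
    (h₂ : Tgt G₂ r₂) (hrm : r₁ + r₂ ≤ m) (φ : Γ →* G₁ × G₂)
    (hφ : ∀ K : Set (G₁ × G₂), IsCompact K → {x | φ x ∈ K}.Finite) :
    ∃ s : ℕ → ℕ, StrictMono s ∧
      ((∃ K₁ : Set G₁, IsCompact K₁ ∧ ∀ N, (1 : ℝ) / 3 ≤
        ∫ x, ms ρ V ω (fun g => (φ g).1 ∈ K₁) (H85.coc Λ (C.b ⟨0, hm⟩ (s N)) x) ∂ν) ∨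
      (∃ K₂ : Set G₂, IsCompact K₂ ∧ ∀ N, (1 : ℝ) / 3 ≤
        ∫ x, ms ρ V ω (fun g => (φ g).2 ∈ K₂) (H85.coc Λ (C.b ⟨0, hm⟩ (s N)) x) ∂ν)) := by
  obtain ⟨s, hs, h3⟩ := non_escape_seq Λ ν hν (arep h) C hm h₁ h₂ hrm φ hφ
  simp only [massR_ind] at h3
  exact ⟨s, hs, h3⟩

end gen

section prod

variable {H H' : Type} [Group H] [TopologicalSpace H] [IsTopologicalGroup H]
    [LocallyCompactSpace H] [SecondCountableTopology H] [T2Space H] [MeasurableSpace H]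
    [BorelSpace H] [Group H'] [TopologicalSpace H'] [IsTopologicalGroup H']
    [LocallyCompactSpace H'] [SecondCountableTopology H'] [T2Space H'] [MeasurableSpace H']
    [BorelSpace H'] {Λ : Subgroup (H × H')} [DiscreteTopology Λ]
    [MeasurableSpace ((H × H') ⧸ Λ)] [BorelSpace ((H × H') ⧸ Λ)]
    {ν : Measure ((H × H') ⧸ Λ)} [IsProbabilityMeasure ν]
    {Γ K : Type} [Group Γ]
    [NormedAddCommGroup K] [InnerProductSpace ℂ K] [CompleteSpace K] {ρ : Γ →* (K →L[ℂ] K)}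
    {V : Λ →* (K →L[ℂ] K)} {ω : K}

/-- **The input of (S2)**: a sequence in the second factor of `H × H'` along which the averaged mass
of `{γ | p_j γ ∈ K}` is bounded below, for one of the two places. -/
theorem input (hν : ∀ g : H × H', ν.map (fun x => g • x) = ν) [Countable Γ]
    (h : Sm.Frm ρ V ω)
    {G₁ G₂ : Type} [Group G₁] [TopologicalSpace G₁] [Group G₂] [TopologicalSpace G₂]
    {r₁ r₂ n n' : ℕ} (C : HChain H n) (C' : HChain H' n') (hn' : 0 < n')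
    (hC' : Tendsto (C'.b ⟨0, hn'⟩) atTop (cocompact H')) (h₁ : Tgt G₁ r₁)
    (h₂ : Tgt G₂ r₂) (hr : r₁ + r₂ ≤ n + n') (φ : Γ →* G₁ × G₂)
    (hφ : ∀ K : Set (G₁ × G₂), IsCompact K → {x | φ x ∈ K}.Finite) :
    ∃ b : ℕ → H', Tendsto b atTop (cocompact H') ∧
      ((∃ K₁ : Set G₁, IsCompact K₁ ∧ ∀ N, (1 : ℝ) / 3 ≤
        ∫ x, ms ρ V ω (fun g => (φ g).1 ∈ K₁) (H85.coc Λ ((1 : H), b N) x) ∂ν) ∨
      (∃ K₂ : Set G₂, IsCompact K₂ ∧ ∀ N, (1 : ℝ) / 3 ≤
        ∫ x, ms ρ V ω (fun g => (φ g).2 ∈ K₂) (H85.coc Λ ((1 : H), b N) x) ∂ν)) := by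
  obtain ⟨s, hs, h3⟩ := non_escape_frm hν h (HChain.prodSnd C C') (by omega) h₁ h₂
    (by omega) φ hφ
  refine ⟨fun N => C'.b ⟨0, hn'⟩ (s N), hC'.comp hs.tendsto_atTop, ?_⟩
  simp only [HChain.prodSnd_zero C C' hn'] at h3
  exact h3

end prod

end Vale.Agent.P092.H264
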